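import Mathlib
import Vale.Agent.P118.OF.Defs

/-!
P065, upper bound, block ENDX: the exact data excluded by the abstract end theorem
(output of `ac1`, the inequality (SUBA), the dimension condition (DIM+)).
-/

namespace Vale.Agent.P065.H196

open Finset
open Vale.Agent.P118.OF (Cov Sep)

/-- `P` is a maximal `t`-separated subset of `S` -/
def MaxSep (S : Finset ℝ) (t : ℝ) (P : Finset ℝ) : Prop :=
  P ⊆ S ∧ (∀ u ∈ P, ∀ v ∈ P, u ≠ v → t ≤ |u - v|) ∧ ∀ s ∈ S, ∃ w ∈ P, |s - w| < t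

/-- data of the end theorem; `c₀` is an absolute constant, `q` measures the distance of the
dimension to one -/
structure EndData (c₀ q : ℕ) (K δ n : ℝ) (X A : Finset ℝ) : Prop where
  hK : 2 ≤ K
  hδ : 0 < δ
  hδ1 : δ ≤ 1
  sepX : Sep δ X
  boxX : ∀ x ∈ X, |x| ≤ K
  cardX : n ≤ K * X.card
  neA : A.Nonempty
  absA : ∀ a ∈ A, 1 ≤ K * |a| ∧ |a| ≤ K
  /-- only at resolution `δ` -/
  cov : ∀ a ∈ A, ∀ b ∈ A, Cov δ (K * n) {z : ℝ | ∃ x ∈ X, ∃ y ∈ X, z = a * x - b * y}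
  /-- (SUBA) -/
  subA : ∀ t r : ℝ, δ ≤ t → t ≤ r → r ≤ 1 → ∀ P Q R : Finset ℝ, MaxSep X t P → MaxSep X r Q →
    MaxSep A (t / r) R → (P.card : ℝ) ≤ K * (R.card * Q.card)
  /-- (DIM+) -/
  dimP : ∀ r : ℝ, δ ≤ r → r ≤ 1 → ∀ P : Finset ℝ, MaxSep X r P → (P.card : ℝ) ≤ K ^ c₀ →
    δ ^ q * n ^ (q + 1) ≤ K * r ^ q

/-- the end theorem -/
def StEnd : Prop :=
  ∃ c₀ : ℕ, ∀ q : ℕ, ∃ m : ℕ, ∀ (K δ n : ℝ) (X A : Finset ℝ),
    EndData c₀ q K δ n X A → K ^ m ≤ n → False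

end Vale.Agent.P065.H196
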