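import Vale.Agent.P065.UB.H196.EndB

/-!
# P065, upper bound: the end theorem (helper196)
-/

set_option autoImplicit false

namespace Vale.Agent.P065.UB.H196

open Finset
open Vale.Agent.P118.OF (Cov Sep)
open Vale.Agent.P065.H196 (MaxSep UKData EndData StEnd)

/-- data of the end theorem with `100 ≤ K` -/
structure ED (q : ℕ) (K δ n : ℝ) (X A : Finset ℝ) : Prop extends EB K δ n X A where
  hδ1 : δ ≤ 1
  subA : ∀ t r : ℝ, δ ≤ t → t ≤ r → r ≤ 1 → ∀ P Q R : Finset ℝ, MaxSep X t P → MaxSep X r Q →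
    MaxSep A (t / r) R → (P.card : ℝ) ≤ K * (R.card * Q.card)
  dimP : ∀ r : ℝ, δ ≤ r → r ≤ 1 → ∀ P : Finset ℝ, MaxSep X r P → (P.card : ℝ) ≤ K ^ 61 →
    δ ^ q * n ^ (q + 1) ≤ K * r ^ q

lemma ed_of {q : ℕ} {K δ n : ℝ} {X A : Finset ℝ} (h : EndData 427 q K δ n X A) (hn : 0 < n) :
    ED q (K ^ 7) δ n X A := by
  have hK := h.hK
  have hK0 : 0 < K := by linarith
  have hK1 : 1 ≤ K := by linarith
  have hKK : K ≤ K ^ 7 := by
    calc K = K ^ 1 := (pow_one _).symm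
      _ ≤ K ^ 7 := pow_le_pow_right₀ hK1 (by norm_num)
  have h100 : 100 ≤ K ^ 7 := by
    calc (100 : ℝ) ≤ 2 ^ 7 := by norm_num
      _ ≤ K ^ 7 := by gcongr
  refine ⟨⟨h100, h.hδ, hn, ?_, ?_, ?_, h.neA, ?_, ?_⟩, h.hδ1, ?_, ?_⟩
  · intro u hu v hv huv
    have := h.sepX u hu v hv huv
    rwa [Real.dist_eq] at this
  · intro x hx
    exact (h.boxX x hx).trans hKK
  · refine h.cardX.trans ?_
    gcongr
  · intro a ha
    refine ⟨(h.absA a ha).1.trans ?_, (h.absA a ha).2.trans hKK⟩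
    gcongr
  · intro a ha b hb
    obtain ⟨Z, hZ, hZ'⟩ := h.cov a ha b hb
    exact ⟨Z, hZ.trans (by gcongr), hZ'⟩
  · intro t r ht htr hr P Q R hP hQ hR
    refine (h.subA t r ht htr hr P Q R hP hQ hR).trans ?_
    gcongr
  · intro r hr hr1 P hP hPc
    have hr0 : 0 < r := by linarith [h.hδ]
    refine (h.dimP r hr hr1 P hP ?_).trans ?_
    · refine hPc.trans (le_of_eq ?_)
      rw [← pow_mul]
    · gcongr

/-- the zoomed configuration -/
structure Zm (q : ℕ) (K δ n : ℝ) (X A : Finset ℝ) (r r' c : ℝ) (Y A₁ : Finset ℝ) : Prop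
    extends ED q K δ n X A where
  hrδ : δ ≤ r
  hr1 : r ≤ 1
  hrl : K ^ 60 ≤ pk X r
  hru : (pk X r : ℝ) ≤ K * K ^ 60
  hr'δ : δ ≤ r'
  hr'l : K ^ 188 ≤ pk X r'
  hYX : Y ⊆ X
  hYb : ∀ y ∈ Y, |y - c| ≤ r / 2
  hYc : n ≤ K ^ 63 * #Y
  hA₁ : MaxSep A (δ / r') A₁
  hA₁c : n ≤ K ^ 191 * #A₁

lemma ED.zoom {q : ℕ} {K δ n : ℝ} {X A : Finset ℝ} (h : ED q K δ n X A) (hn : K ^ 200 ≤ n) :
    ∃ (r r' c : ℝ) (Y A₁ : Finset ℝ), Zm q K δ n X A r r' c Y A₁ := by
  classical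
  have hK := h.hK
  have hK0 := h.toEB.K0
  have hK1 := h.toEB.K1
  have hδ := h.hδ
  have hδ1 := h.hδ1
  have hn0 := h.hn
  have hpw : ∀ i j : ℕ, i ≤ j → K ^ i ≤ K ^ j := fun i j hij => h.toEB.pw hij
  have hpkδ : (#X : ℝ) ≤ pk X δ := by exact_mod_cast le_pk (Finset.Subset.refl X) h.sepX
  have hXn : K ^ 199 ≤ #X := by
    have e1 : K * K ^ 199 ≤ K * #X := by
      calc K * K ^ 199 = K ^ 200 := by ring
        _ ≤ n := hn
        _ ≤ _ := h.cardX
    exact le_of_mul_le_mul_left e1 hK0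
  have hanti : ∀ s t : ℝ, 0 < s → s ≤ t → (pk X t : ℝ) ≤ pk X s := fun s t hs hst => by
    exact_mod_cast pk_anti X hst (by linarith)
  have hhalf : ∀ t : ℝ, 0 < t → (pk X (t / 2) : ℝ) ≤ K * pk X t := by
    intro t ht
    have e1 := pk_dil X (t := t / 2) (c := 2) (by positivity) (by norm_num)
    have e2 : 2 * (t / 2) = t := by ring
    rw [e2] at e1
    refine e1.trans ?_
    gcongr
    linarith
  have hpk1 : (pk X 1 : ℝ) ≤ K ^ 2 := by
    obtain ⟨P, hP, hPc⟩ := pk_spec X (t := 1) one_pos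
    have e1 := sep_card (U := P) (s := 1) (R := K) (c := 0) one_pos hK0.le hP.2.1 (by
      intro u hu
      rw [sub_zero]
      exact h.boxX u (hP.1 hu))
    rw [hPc] at e1
    refine e1.trans ?_
    nlinarith
  -- the two scales
  obtain ⟨r, hrδ, hr1, hrl, hru⟩ := scale_of (f := fun t => (pk X t : ℝ)) (K := K) (Θ := K ^ 60)
    hK1 hδ hδ1 hanti hhalf
    (by
      calc (pk X 1 : ℝ) ≤ K ^ 2 := hpk1
        _ ≤ K ^ 61 := hpw _ _ (by norm_num)
        _ = K * K ^ 60 := by ring)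
    ((hpw 60 199 (by norm_num)).trans (hXn.trans hpkδ))
  obtain ⟨r', hr'δ, hr'1, hr'l, hr'u⟩ := scale_of (f := fun t => (pk X t : ℝ)) (K := K)
    (Θ := K ^ 188) hK1 hδ hδ1 hanti hhalf
    (by
      calc (pk X 1 : ℝ) ≤ K ^ 2 := hpk1
        _ ≤ K ^ 189 := hpw _ _ (by norm_num)
        _ = K * K ^ 188 := by ring)
    ((hpw 188 199 (by norm_num)).trans (hXn.trans hpkδ))
  have hr0 : 0 < r := by linarith
  have hr'0 : 0 < r' := by linarith
  -- the zoom
  obtain ⟨c, hc⟩ := fullest h.toEB.ne (t := r / 2) (by positivity)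
  have hYc : n ≤ K ^ 63 * #(X.filter (fun y => |y - c| ≤ r / 2)) := by
    have hc' : (#X : ℝ) ≤ #(X.filter (fun y => |y - c| ≤ r / 2)) * pk X (r / 2) := by
      exact_mod_cast hc
    calc n ≤ K * #X := h.cardX
      _ ≤ K * (#(X.filter (fun y => |y - c| ≤ r / 2)) * (K * (K * K ^ 60))) := by
          gcongr
          refine hc'.trans ?_
          gcongr
          refine (hhalf r hr0).trans ?_
          gcongr
      _ = _ := by ring
  -- the multipliers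
  obtain ⟨A₁, hA₁, -⟩ := pk_spec A (t := δ / r') (by positivity)
  obtain ⟨Q', hQ', hQ'c⟩ := pk_spec X (t := r') hr'0
  have hXmax : MaxSep X δ X := ⟨Finset.Subset.refl _, h.sepX, fun s hs => ⟨s, hs, by
    rw [sub_self, abs_zero]; exact hδ⟩⟩
  have hA₁c : n ≤ K ^ 191 * #A₁ := by
    have e1 := h.subA δ r' (le_refl _) hr'δ hr'1 X Q' A₁ hXmax hQ' hA₁
    rw [hQ'c] at e1
    calc n ≤ K * #X := h.cardX
      _ ≤ K * (K * (#A₁ * (K * K ^ 188))) := by
          gcongr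
          refine e1.trans ?_
          gcongr
      _ = _ := by ring
  exact ⟨r, r', c, _, A₁, ⟨h, hrδ, hr1, hrl, hru, hr'δ, hr'l, Finset.filter_subset _ _,
    fun y hy => (Finset.mem_filter.1 hy).2, hYc, hA₁, hA₁c⟩⟩

namespace Zm

variable {q : ℕ} {K δ n : ℝ} {X A : Finset ℝ} {r r' c : ℝ} {Y A₁ : Finset ℝ}

lemma r0 (h : Zm q K δ n X A r r' c Y A₁) : 0 < r := by linarith [h.hrδ, h.hδ]

lemma Ypos (h : Zm q K δ n X A r r' c Y A₁) : (0 : ℝ) < #Y := by
  have hYc := h.hYc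
  by_contra hcon
  have : (#Y : ℝ) = 0 := le_antisymm (not_lt.1 hcon) (Nat.cast_nonneg _)
  rw [this, mul_zero] at hYc
  linarith [h.hn]

lemma Yne (h : Zm q K δ n X A r r' c Y A₁) : Y.Nonempty :=
  Finset.card_pos.1 (by exact_mod_cast h.Ypos)

lemma Apos (h : Zm q K δ n X A r r' c Y A₁) : (0 : ℝ) < #A₁ := by
  have hYc := h.hA₁c
  by_contra hcon
  have : (#A₁ : ℝ) = 0 := le_antisymm (not_lt.1 hcon) (Nat.cast_nonneg _)
  rw [this, mul_zero] at hYc
  linarith [h.hn]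

lemma δr (h : Zm q K δ n X A r r' c Y A₁) : δ / r * r = δ := by
  have := h.r0
  field_simp

lemma tr (h : Zm q K δ n X A r r' c Y A₁) {t : ℝ} (ht : δ / r ≤ t) : δ ≤ t * r := by
  rw [← h.δr]
  have := h.r0
  gcongr

lemma tpos (h : Zm q K δ n X A r r' c Y A₁) {t : ℝ} (ht : δ / r ≤ t) : 0 < t := by
  have e1 : 0 < δ / r := div_pos h.hδ h.r0
  linarith

lemma Npos (h : Zm q K δ n X A r r' c Y A₁) (t : ℝ) : (0 : ℝ) < pk Y (t * r) := by
  exact_mod_cast pk_pos h.Yne (t * r)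

lemma Nδ (h : Zm q K δ n X A r r' c Y A₁) : (pk Y (δ / r * r) : ℝ) = #Y := by
  rw [h.δr]
  apply le_antisymm
  · exact_mod_cast pk_le_card Y h.hδ
  · exact_mod_cast le_pk (Finset.Subset.refl Y) fun u hu v hv huv =>
      h.sepX u (h.hYX hu) v (h.hYX hv) huv

lemma Nle (h : Zm q K δ n X A r r' c Y A₁) {t : ℝ} (ht : 0 < t) :
    (pk Y (t * r) : ℝ) ≤ pk X (t * r) := by
  have := h.r0
  exact_mod_cast pk_mono h.hYX (by positivity)

lemma Nlow (h : Zm q K δ n X A r r' c Y A₁) {t : ℝ} (ht : δ ≤ t * r) :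
    (pk X (t * r) : ℝ) ≤ K ^ 68 * pk Y (t * r) :=
  h.toEB.pk_low (g := 63) h.hYX h.hYc ht

lemma KJ (h : Zm q K δ n X A r r' c Y A₁) {i : ℕ} (hi : i ≤ 309 + 3 * q) :
    K ^ i ≤ K ^ (309 + 3 * q) := h.toEB.pw hi

lemma K1J (h : Zm q K δ n X A r r' c Y A₁) : K ≤ K ^ (309 + 3 * q) := by
  calc K = K ^ 1 := (pow_one _).symm
    _ ≤ _ := h.KJ (by omega)

lemma fsub (h : Zm q K δ n X A r r' c Y A₁) (s t : ℝ) (hs : 0 < s) (hs1 : s ≤ 1) (ht : 0 < t)
    (ht1 : t ≤ 1) (hst : δ / r ≤ s * t) :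
    (pk Y (s * t * r) : ℝ) ≤ K ^ (309 + 3 * q) * (pk Y (s * r) * pk Y (t * r)) := by
  have hK0 := h.toEB.K0
  have hr0 := h.r0
  have hr1 := h.hr1
  have hstr : δ ≤ s * t * r := h.tr hst
  have hsr : δ ≤ s * r := by
    refine hstr.trans ?_
    calc s * t * r = (s * r) * t := by ring
      _ ≤ (s * r) * 1 := by gcongr
      _ = _ := mul_one _
  have hstr' : s * t * r ≤ t * r := by
    calc s * t * r = s * (t * r) := by ring
      _ ≤ 1 * (t * r) := by gcongr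
      _ = _ := one_mul _
  have htr : δ ≤ t * r := hstr.trans hstr'
  obtain ⟨P, hP, hPc⟩ := pk_spec X (t := s * t * r) (by positivity)
  obtain ⟨Q, hQ, hQc⟩ := pk_spec X (t := t * r) (by positivity)
  obtain ⟨R, hR, -⟩ := pk_spec A (t := s) hs
  have hdiv : s * t * r / (t * r) = s := by field_simp
  have e1 := h.subA (s * t * r) (t * r) hstr hstr' (by nlinarith) P Q R hP hQ (by
    rw [hdiv]
    exact hR)
  have e2 := h.toEB.sepa hR.1 hs hR.2.1 h.hrδ hsr h.hrl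
  rw [hPc, hQc] at e1
  have e3 := h.Nlow hsr
  have e4 := h.Nlow htr
  have e5 := h.Npos s
  have e6 := h.Npos t
  have e7 : (#R : ℝ) ≤ K ^ 46 * (K ^ 68 * pk Y (s * r)) := e2.trans (by gcongr)
  calc (pk Y (s * t * r) : ℝ) ≤ pk X (s * t * r) := h.Nle (by positivity)
    _ ≤ K * (#R * pk X (t * r)) := e1
    _ ≤ K * ((K ^ 46 * (K ^ 68 * pk Y (s * r))) * (K ^ 68 * pk Y (t * r))) := by gcongr
    _ = K ^ 183 * (pk Y (s * r) * pk Y (t * r)) := by ring
    _ ≤ K ^ (309 + 3 * q) * (pk Y (s * r) * pk Y (t * r)) := by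
        have := h.KJ (i := 183) (by omega)
        gcongr

lemma ftriv (h : Zm q K δ n X A r r' c Y A₁) (t : ℝ) (ht : δ / r ≤ t) (ht1 : t ≤ 1) :
    (pk Y (t * r) : ℝ) ≤ K ^ (309 + 3 * q) / t := by
  have ht0 := h.tpos ht
  have hr0 := h.r0
  have hK := h.hK
  obtain ⟨P, hP, hPc⟩ := pk_spec Y (t := t * r) (by positivity)
  have e1 := sep_card (U := P) (s := t * r) (R := r) (c := c) (by positivity) hr0.le hP.2.1 (by
    intro u hu
    have := h.hYb u (hP.1 hu)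
    linarith)
  rw [hPc] at e1
  have e2 : 2 * r / (t * r) = 2 / t := by field_simp
  rw [e2] at e1
  have e3 : (1 : ℝ) ≤ 1 / t := by rw [le_div_iff₀ ht0]; linarith
  calc (pk Y (t * r) : ℝ) ≤ 2 / t + 1 := e1
    _ ≤ 2 / t + 1 / t := by gcongr
    _ = 3 / t := by ring
    _ ≤ K ^ (309 + 3 * q) / t := by
        gcongr
        calc (3 : ℝ) ≤ K := by linarith
          _ ≤ _ := h.K1J

lemma fdim (h : Zm q K δ n X A r r' c Y A₁) :
    (δ / r) ^ q * (pk Y (δ / r * r) : ℝ) ^ (q + 1) ≤ K ^ (309 + 3 * q) := by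
  rw [h.Nδ]
  have hr0 := h.r0
  have hK0 := h.toEB.K0
  have hδ := h.hδ
  have hn := h.hn
  obtain ⟨P, hP, hPc⟩ := pk_spec X (t := r) hr0
  have e1 := h.dimP r h.hrδ h.hr1 P hP (by
    rw [hPc]
    calc (pk X r : ℝ) ≤ K * K ^ 60 := h.hru
      _ = K ^ 61 := by ring)
  have e2 : (#Y : ℝ) ≤ K ^ 3 * n := by
    refine le_trans ?_ h.toEB.cardle
    exact_mod_cast Finset.card_le_card h.hYX
  have hrq : 0 < r ^ q := by positivity
  calc (δ / r) ^ q * (#Y : ℝ) ^ (q + 1) ≤ (δ / r) ^ q * (K ^ 3 * n) ^ (q + 1) := by gcongr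
    _ = K ^ (3 * (q + 1)) * (δ ^ q * n ^ (q + 1)) / r ^ q := by
        rw [mul_pow, ← pow_mul, div_pow]
        ring
    _ ≤ K ^ (3 * (q + 1)) * (K * r ^ q) / r ^ q := by gcongr
    _ = K ^ (3 * (q + 1) + 1) := by
        rw [pow_succ]
        field_simp
    _ ≤ _ := h.KJ (by omega)

lemma ffrX (h : Zm q K δ n X A r r' c Y A₁) (x t : ℝ) (ht : δ / r ≤ t) [DecidableEq ℝ] :
    (#((Y.image (fun x => (x - c) / r)).filter (fun y => |y - x| ≤ t)) : ℝ)
      ≤ K ^ (309 + 3 * q) * (pk Y (δ / r * r) / pk Y (t * r)) := by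
  rw [h.Nδ]
  have ht0 := h.tpos ht
  have hr0 := h.r0
  have hK1 := h.toEB.K1
  have hK0 := h.toEB.K0
  have htr := h.tr ht
  have e1 := h.toEB.c1 htr (c + x * r)
  have hpt := h.toEB.pkpos (t * r)
  have e2 : (#((Y.image (fun x => (x - c) / r)).filter (fun y => |y - x| ≤ t)) : ℝ)
      ≤ #(X.filter (fun y => |y - (c + x * r)| ≤ K * (t * r))) := by
    have e3 : (Y.image (fun x => (x - c) / r)).filter (fun y => |y - x| ≤ t) ⊆
        (X.filter (fun y => |y - (c + x * r)| ≤ K * (t * r))).image (fun x => (x - c) / r) := by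
      intro y hy
      rw [Finset.mem_filter] at hy
      obtain ⟨u, hu, rfl⟩ := Finset.mem_image.1 hy.1
      refine Finset.mem_image_of_mem _ (Finset.mem_filter.2 ⟨h.hYX hu, ?_⟩)
      have e4 : u - (c + x * r) = ((u - c) / r - x) * r := by
        field_simp
        ring
      rw [e4, abs_mul, abs_of_pos hr0]
      calc |(u - c) / r - x| * r ≤ t * r := by
            have := hy.2
            gcongr
        _ = 1 * (t * r) := (one_mul _).symm
        _ ≤ K * (t * r) := by gcongr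
    exact_mod_cast (Finset.card_le_card e3).trans Finset.card_image_le
  refine e2.trans ?_
  rw [← le_div_iff₀ hpt] at e1
  refine e1.trans ?_
  have e5 := h.Nle ht0
  have e6 := h.Npos t
  have hYc := h.hYc
  calc K ^ 5 * n / pk X (t * r) ≤ K ^ 5 * (K ^ 63 * #Y) / pk X (t * r) := by gcongr
    _ ≤ K ^ 5 * (K ^ 63 * #Y) / pk Y (t * r) := by gcongr
    _ = K ^ 68 * (#Y / pk Y (t * r)) := by ring
    _ ≤ K ^ (309 + 3 * q) * (#Y / pk Y (t * r)) := by
        have := h.KJ (i := 68) (by omega)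
        gcongr

lemma ffrA (h : Zm q K δ n X A r r' c Y A₁) (x t : ℝ) (ht : δ / r ≤ t) :
    (#(A₁.filter (fun a => |a - x| ≤ t)) : ℝ) ≤ K ^ (309 + 3 * q) * (#A₁ / pk Y (t * r)) := by
  have ht0 := h.tpos ht
  have hr0 := h.r0
  have hK1 := h.toEB.K1
  have hK0 := h.toEB.K0
  have htr := h.tr ht
  have hl := h.hr'l
  have e1 := h.toEB.frA (g := 63) (r' := r') (U := A₁.filter (fun a => |a - x| ≤ t)) h.hYX
    ((Finset.filter_subset _ _).trans h.hA₁.1) hr0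
    (by
      intro y hy y' hy'
      have e1 := abs_le.1 (h.hYb y hy)
      have e2 := abs_le.1 (h.hYb y' hy')
      rw [abs_le]
      constructor <;> linarith [e1.1, e1.2, e2.1, e2.2])
    h.hYc h.hr'δ
    (by
      refine le_trans (le_of_eq ?_) hl
      norm_num)
    (by
      intro u hu v hv huv
      exact h.hA₁.2.1 u (Finset.mem_filter.1 hu).1 v (Finset.mem_filter.1 hv).1 huv)
    ht0 htr x (fun u hu => (Finset.mem_filter.1 hu).2)
  have hpt := h.toEB.pkpos (t * r)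
  have e5 := h.Nle ht0
  have e6 := h.Npos t
  have hAc := h.hA₁c
  have hn := h.hn
  have e7 : n / pk X (t * r) ≤ (K ^ 191 * #A₁) / pk Y (t * r) :=
    div_le_div₀ (mul_nonneg (pow_nonneg hK0.le _) (Nat.cast_nonneg _)) hAc e6 e5
  have e8 : (0 : ℝ) ≤ K ^ (55 + 63) := pow_nonneg hK0.le _
  refine e1.trans ?_
  calc K ^ (55 + 63) * (n / pk X (t * r)) ≤ K ^ (55 + 63) * ((K ^ 191 * #A₁) / pk Y (t * r)) :=
        mul_le_mul_of_nonneg_left e7 e8
    _ = K ^ 309 * (#A₁ / pk Y (t * r)) := by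
        rw [mul_div_assoc, ← mul_assoc, ← pow_add]
    _ ≤ K ^ (309 + 3 * q) * (#A₁ / pk Y (t * r)) := by
        have := h.KJ (i := 309) (by omega)
        gcongr

lemma fcov (h : Zm q K δ n X A r r' c Y A₁) {a b : ℝ} (ha : a ∈ A₁) (hb : b ∈ A₁)
    [DecidableEq ℝ] :
    Cov (δ / r) (K ^ (309 + 3 * q) * pk Y (δ / r * r))
      {z : ℝ | ∃ x ∈ Y.image (fun x => (x - c) / r), ∃ y ∈ Y.image (fun x => (x - c) / r),
        z = a * x - b * y} := by
  rw [h.Nδ]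
  have hr0 := h.r0
  have hK0 := h.toEB.K0
  have hYc := h.hYc
  obtain ⟨Z, hZ, hZ'⟩ := h.cov a (h.hA₁.1 ha) b (h.hA₁.1 hb)
  refine ⟨Z.image (fun z => (z - (a - b) * c) / r), ?_, ?_⟩
  · have e1 : (#(Z.image (fun z => (z - (a - b) * c) / r)) : ℝ) ≤ #Z := by
      exact_mod_cast Finset.card_image_le
    calc (#(Z.image (fun z => (z - (a - b) * c) / r)) : ℝ) ≤ K * n := e1.trans hZ
      _ ≤ K * (K ^ 63 * #Y) := by gcongr
      _ = K ^ 64 * #Y := by ring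
      _ ≤ K ^ (309 + 3 * q) * #Y := by
          have := h.KJ (i := 64) (by omega)
          gcongr
  · rintro s ⟨x, hx, y, hy, rfl⟩
    obtain ⟨u, hu, rfl⟩ := Finset.mem_image.1 hx
    obtain ⟨v, hv, rfl⟩ := Finset.mem_image.1 hy
    obtain ⟨z, hz, hzd⟩ := hZ' (a * u - b * v) ⟨u, h.hYX hu, v, h.hYX hv, rfl⟩
    refine ⟨(z - (a - b) * c) / r, Finset.mem_image_of_mem _ hz, ?_⟩
    rw [Real.dist_eq] at hzd ⊢
    have e1 : a * ((u - c) / r) - b * ((v - c) / r) - (z - (a - b) * c) / r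
        = (a * u - b * v - z) / r := by
      field_simp
      ring
    rw [e1, abs_div, abs_of_pos hr0]
    gcongr

/-- the data of UK -/
lemma uk (h : Zm q K δ n X A r r' c Y A₁) [DecidableEq ℝ] :
    UKData q (K ^ (309 + 3 * q)) (δ / r) (fun t => (pk Y (t * r) : ℝ))
      (Y.image (fun x => (x - c) / r)) A₁ := by
  have hK := h.hK
  have hK0 := h.toEB.K0
  have hK1 := h.toEB.K1
  have hr0 := h.r0
  have hδ := h.hδ
  have hKJ := h.K1J
  have hφinj : Function.Injective (fun x : ℝ => (x - c) / r) := by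
    intro x y hxy
    have : (x - c) / r = (y - c) / r := hxy
    field_simp at this
    linarith
  refine ⟨by linarith, by positivity, ?_, fun t _ _ => h.Npos t, ?_, h.fsub, h.ftriv, h.fdim,
    ?_, ?_, fun x t ht _ => ?_, ?_, ?_, fun x t ht _ => h.ffrA x t ht,
    fun a ha b hb => h.fcov ha hb⟩
  · rw [div_le_one hr0]
    exact h.hrδ
  · intro s t hs hst _
    have hs0 := h.tpos hs
    have e1 : s * r ≤ t * r := by gcongr
    have e2 : 0 < t * r := by nlinarith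
    exact_mod_cast pk_anti Y e1 e2
  · -- sepX
    intro x hx y hy hxy
    obtain ⟨u, hu, rfl⟩ := Finset.mem_image.1 hx
    obtain ⟨v, hv, rfl⟩ := Finset.mem_image.1 hy
    have huv : u ≠ v := by
      rintro rfl
      exact hxy rfl
    rw [Real.dist_eq, ← sub_div, abs_div, abs_of_pos hr0]
    have e1 : u - c - (v - c) = u - v := by ring
    rw [e1]
    have := h.sepX u (h.hYX hu) v (h.hYX hv) huv
    gcongr
  · -- cardX
    rw [h.Nδ, Finset.card_image_of_injective _ hφinj]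
    have : (1 : ℝ) ≤ K ^ (309 + 3 * q) := one_le_pow₀ hK1
    calc (#Y : ℝ) = 1 * #Y := (one_mul _).symm
      _ ≤ K ^ (309 + 3 * q) * #Y := by gcongr
  · convert h.ffrX x t ht
  · exact Finset.card_pos.1 (by exact_mod_cast h.Apos)
  · intro a ha
    have e1 := h.absA a (h.hA₁.1 ha)
    refine ⟨e1.1.trans ?_, e1.2.trans hKJ⟩
    gcongr

end Zm

/-- **the end theorem** -/
theorem stEnd : StEnd := by
  refine ⟨427, fun q => ?_⟩
  obtain ⟨m₀, hm₀⟩ := stUK q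
  refine ⟨7 * ((309 + 3 * q) * m₀ + 263), fun K δ n X A h hn => ?_⟩
  have hK := h.hK
  have hK1 : 1 ≤ K := by linarith
  have hn0 : 0 < n := lt_of_lt_of_le (by positivity) hn
  have hD := ed_of h hn0
  have hK7 : 1 ≤ K ^ 7 := one_le_pow₀ hK1
  rw [pow_mul] at hn
  have hn200 : (K ^ 7) ^ 200 ≤ n := (pow_le_pow_right₀ hK7 (by omega)).trans hn
  obtain ⟨r, r', c, Y, A₁, hZ⟩ := hD.zoom hn200
  classical
  refine hm₀ _ _ _ _ _ hZ.uk ?_
  have hn1 : n ≤ (K ^ 7) ^ 63 * pk Y (δ / r * r) := by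
    rw [hZ.Nδ]
    exact hZ.hYc
  have hK70 : 0 < K ^ 7 := by positivity
  have e1 : (K ^ 7) ^ 63 * ((K ^ 7) ^ (309 + 3 * q)) ^ m₀ ≤ (K ^ 7) ^ 63 * pk Y (δ / r * r) := by
    calc (K ^ 7) ^ 63 * ((K ^ 7) ^ (309 + 3 * q)) ^ m₀
        = (K ^ 7) ^ (63 + (309 + 3 * q) * m₀) := by
          rw [pow_add (K ^ 7) 63, pow_mul (K ^ 7) (309 + 3 * q) m₀]
      _ ≤ (K ^ 7) ^ ((309 + 3 * q) * m₀ + 263) := pow_le_pow_right₀ hK7 (by omega)
      _ ≤ n := hn
      _ ≤ _ := hn1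
  exact le_of_mul_le_mul_left e1 (by positivity)

end Vale.Agent.P065.UB.H196
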