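import Vale.Agent.P065.UB.H196.Dat

/-!
# P065, upper bound: the two counts of the uniform kill (helper196)
-/

set_option autoImplicit false

namespace Vale.Agent.P065.UB.H196

open Finset
open scoped Pointwise

namespace Dat

variable {K δ : ℝ} {N : ℝ → ℝ} {A : Finset ℤ}

lemma kap (_h : Dat K δ N A) : 0 ≤ K ^ 2 := by positivity

lemma sc_add (h : Dat K δ N A) {i j : ℕ} {u v : ℝ} (hu : Sc A (K ^ i) u) (hv : Sc A (K ^ j) v) :
    Sc A (K ^ (i + j + 11)) (u + v) := by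
  refine (Sc.add h.ne h.diff' h.kap hu hv).mono ?_
  have hK := h.hK
  calc K ^ i * K ^ j * 5 * (K ^ 2) ^ 5 ≤ K ^ i * K ^ j * K * (K ^ 2) ^ 5 := by
        gcongr
        linarith
    _ = _ := by ring

lemma sc_sub (h : Dat K δ N A) {i j : ℕ} {u v : ℝ} (hu : Sc A (K ^ i) u) (hv : Sc A (K ^ j) v) :
    Sc A (K ^ (i + j + 11)) (u - v) := by
  refine (Sc.sub h.ne h.diff' h.kap hu hv).mono ?_
  have hK := h.hK
  calc K ^ i * K ^ j * 10 * (K ^ 2) ^ 5 ≤ K ^ i * K ^ j * K * (K ^ 2) ^ 5 := by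
        gcongr
        linarith
    _ = _ := by ring

lemma sc_mul (h : Dat K δ N A) {i j : ℕ} {u v : ℝ} (hu : Sc A (K ^ i) u) (hv : Sc A (K ^ j) v)
    (hu1 : 2 * (|u| + 3) + 3 ≤ K ^ 2) :
    Sc A (K ^ (2 * i + j + 12)) (u * v) := by
  refine (Sc.mul h.ne h.diff' h.kap hu hv).mono ?_
  have hK := h.hK
  calc K ^ j * (K ^ i) ^ 2 * (2 * (|u| + 3) + 3) * (K ^ 2) ^ 5
        ≤ K ^ j * (K ^ i) ^ 2 * K ^ 2 * (K ^ 2) ^ 5 := by
        gcongr
    _ = _ := by ring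

lemma sc_mono (h : Dat K δ N A) {i j : ℕ} {u : ℝ} (hu : Sc A (K ^ i) u) (hij : i ≤ j) :
    Sc A (K ^ j) u := hu.mono (h.toProf.pw hij)

/-- energy of a scalar -/
lemma energy1 (h : Dat K δ N A) {M u : ℝ} (hu : Sc A M u) :
    (#A : ℝ) ^ 3 ≤ M * K ^ 6 * ∑ p ∈ A ×ˢ A, ∑ q ∈ A ×ˢ A,
      (if |((p.1 : ℝ) - q.1) + u * (p.2 - q.2)| < 1 then (1 : ℝ) else 0) := by
  classical
  obtain ⟨F, hF, hF'⟩ := hu
  have hM0 : 0 ≤ M := (Nat.cast_nonneg _).trans hF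
  have h1 := cs (A ×ˢ A) (fun p : ℤ × ℤ => p.1 + fl u p.2) (F + (2 • A - 1 • A)) (by
    intro p hp
    obtain ⟨ha, hb⟩ := Finset.mem_product.1 hp
    obtain ⟨f, hf, s, hs, h1⟩ := Finset.mem_add.1 (hF' p.2 hb)
    obtain ⟨x, hx, y, hy, rfl⟩ := Finset.mem_sub.1 hs
    rw [Finset.mem_add]
    refine ⟨f, hf, (p.1 + x) - y, ?_, ?_⟩
    · rw [Finset.mem_sub]
      refine ⟨p.1 + x, ?_, y, by simpa using hy, rfl⟩
      rw [two_nsmul]
      exact Finset.add_mem_add ha hx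
    · rw [← h1]
      ring)
  have h2 : (#(F + (2 • A - 1 • A)) : ℝ) ≤ M * ((K ^ 2) ^ (2 + 1) * #A) := by
    have e1 := Finset.card_add_le (s := F) (t := 2 • A - 1 • A)
    have e2 : (#(F + (2 • A - 1 • A)) : ℝ) ≤ #F * #(2 • A - 1 • A) := by exact_mod_cast e1
    refine e2.trans ?_
    have e3 := plu h.ne h.diff' 2 1
    gcongr
  have h3 : ∑ p ∈ A ×ˢ A, ∑ q ∈ A ×ˢ A,
      (if p.1 + fl u p.2 = q.1 + fl u q.2 then (1 : ℝ) else 0) ≤ ∑ p ∈ A ×ˢ A, ∑ q ∈ A ×ˢ A,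
      (if |((p.1 : ℝ) - q.1) + u * (p.2 - q.2)| < 1 then (1 : ℝ) else 0) := by
    refine Finset.sum_le_sum fun p _ => Finset.sum_le_sum fun q _ => ?_
    by_cases hc : p.1 + fl u p.2 = q.1 + fl u q.2
    · have hlt : |((p.1 : ℝ) - q.1) + u * (p.2 - q.2)| < 1 := by
        have e1 : (p.1 : ℝ) + fl u p.2 = q.1 + fl u q.2 := by exact_mod_cast hc
        have e2 := fl_le u p.2
        have e3 := lt_fl u p.2
        have e4 := fl_le u q.2
        have e5 := lt_fl u q.2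
        rw [abs_lt]
        constructor <;> nlinarith
      rw [if_pos hlt]
      split_ifs <;> norm_num
    · rw [if_neg hc]
      split_ifs <;> norm_num
  have hA := h.cpos
  have h4 : (#(A ×ˢ A) : ℝ) ^ 2 = #A * (#A : ℝ) ^ 3 := by
    rw [Finset.card_product]
    push_cast
    ring
  rw [h4] at h1
  have h5 : (#A : ℝ) * (#A : ℝ) ^ 3 ≤ #A * (M * K ^ 6 * ∑ p ∈ A ×ˢ A, ∑ q ∈ A ×ˢ A,
      (if |((p.1 : ℝ) - q.1) + u * (p.2 - q.2)| < 1 then (1 : ℝ) else 0)) := by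
    calc (#A : ℝ) * (#A : ℝ) ^ 3 ≤ _ := h1
      _ ≤ (M * ((K ^ 2) ^ (2 + 1) * #A)) * ∑ p ∈ A ×ˢ A, ∑ q ∈ A ×ˢ A,
      (if |((p.1 : ℝ) - q.1) + u * (p.2 - q.2)| < 1 then (1 : ℝ) else 0) := by
          refine mul_le_mul h2 h3 ?_ (by positivity)
          refine Finset.sum_nonneg fun p _ => Finset.sum_nonneg fun q _ => ?_
          split_ifs <;> norm_num
      _ = _ := by ring
  exact le_of_mul_le_mul_left h5 hA

/-- energy of a ratio of scalars -/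
lemma energy2 (h : Dat K δ N A) {M α β r : ℝ} (hα : Sc A M α) (hβ : Sc A M β) (hr : 0 < r)
    (hrα : r ≤ |α|) :
    (#A : ℝ) ^ 3 ≤ M ^ 2 * K ^ 8 * ∑ p ∈ A ×ˢ A, ∑ q ∈ A ×ˢ A,
      (if |((p.1 : ℝ) - q.1) + β / α * (p.2 - q.2)| < 2 / r then (1 : ℝ) else 0) := by
  classical
  obtain ⟨F, hF, hF'⟩ := hα
  obtain ⟨F2, hF2, hF2'⟩ := hβ
  have hM0 : 0 ≤ M := (Nat.cast_nonneg _).trans hF
  have h1 := cs (A ×ˢ A) (fun p : ℤ × ℤ => fl α p.1 + fl β p.2) ((F + F2) + (2 • A - 2 • A)) (by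
    intro p hp
    obtain ⟨ha, hb⟩ := Finset.mem_product.1 hp
    obtain ⟨f, hf, s, hs, h1⟩ := Finset.mem_add.1 (hF' p.1 ha)
    obtain ⟨x, hx, y, hy, rfl⟩ := Finset.mem_sub.1 hs
    obtain ⟨f2, hf2, s2, hs2, h2⟩ := Finset.mem_add.1 (hF2' p.2 hb)
    obtain ⟨x2, hx2, y2, hy2, rfl⟩ := Finset.mem_sub.1 hs2
    rw [Finset.mem_add]
    refine ⟨f + f2, Finset.add_mem_add hf hf2, (x + x2) - (y + y2), ?_, ?_⟩
    · rw [Finset.mem_sub]
      refine ⟨x + x2, ?_, y + y2, ?_, rfl⟩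
      · rw [two_nsmul]
        exact Finset.add_mem_add hx hx2
      · rw [two_nsmul]
        exact Finset.add_mem_add hy hy2
    · rw [← h1, ← h2]
      ring)
  have h2 : (#((F + F2) + (2 • A - 2 • A)) : ℝ) ≤ M ^ 2 * ((K ^ 2) ^ (2 + 2) * #A) := by
    have e1 := Finset.card_add_le (s := F + F2) (t := 2 • A - 2 • A)
    have e2 : (#((F + F2) + (2 • A - 2 • A)) : ℝ) ≤ #(F + F2) * #(2 • A - 2 • A) := by
      exact_mod_cast e1
    refine e2.trans ?_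
    have e3 := plu h.ne h.diff' 2 2
    have e4 : (#(F + F2) : ℝ) ≤ #F * #F2 := by exact_mod_cast Finset.card_add_le
    have e5 : (#(F + F2) : ℝ) ≤ M ^ 2 := by
      calc (#(F + F2) : ℝ) ≤ #F * #F2 := e4
        _ ≤ M * M := by gcongr
        _ = _ := by ring
    gcongr
  have h3 : ∑ p ∈ A ×ˢ A, ∑ q ∈ A ×ˢ A,
      (if fl α p.1 + fl β p.2 = fl α q.1 + fl β q.2 then (1 : ℝ) else 0) ≤
      ∑ p ∈ A ×ˢ A, ∑ q ∈ A ×ˢ A,
      (if |((p.1 : ℝ) - q.1) + β / α * (p.2 - q.2)| < 2 / r then (1 : ℝ) else 0) := by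
    refine Finset.sum_le_sum fun p _ => Finset.sum_le_sum fun q _ => ?_
    by_cases hc : fl α p.1 + fl β p.2 = fl α q.1 + fl β q.2
    · have hα0 : α ≠ 0 := by
        intro h0
        rw [h0, abs_zero] at hrα
        linarith
      have hlt : |((p.1 : ℝ) - q.1) + β / α * (p.2 - q.2)| < 2 / r := by
        have e1 : (fl α p.1 : ℝ) + fl β p.2 = fl α q.1 + fl β q.2 := by exact_mod_cast hc
        have e2 := fl_le α p.1
        have e3 := lt_fl α p.1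
        have e4 := fl_le α q.1
        have e5 := lt_fl α q.1
        have e2' := fl_le β p.2
        have e3' := lt_fl β p.2
        have e4' := fl_le β q.2
        have e5' := lt_fl β q.2
        have e6 : |α * (p.1 - q.1) + β * (p.2 - q.2)| < 2 := by
          rw [abs_lt]
          constructor <;> nlinarith
        have e7 : ((p.1 : ℝ) - q.1) + β / α * (p.2 - q.2)
            = (α * (p.1 - q.1) + β * (p.2 - q.2)) / α := by
          field_simp
        rw [e7, abs_div, div_lt_div_iff₀ (abs_pos.2 hα0) hr]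
        calc |α * (p.1 - q.1) + β * (p.2 - q.2)| * r < 2 * r := by gcongr
          _ ≤ 2 * |α| := by gcongr
      rw [if_pos hlt]
      split_ifs <;> norm_num
    · rw [if_neg hc]
      split_ifs <;> norm_num
  have hA := h.cpos
  have h4 : (#(A ×ˢ A) : ℝ) ^ 2 = #A * (#A : ℝ) ^ 3 := by
    rw [Finset.card_product]
    push_cast
    ring
  rw [h4] at h1
  have h5 : (#A : ℝ) * (#A : ℝ) ^ 3 ≤ #A * (M ^ 2 * K ^ 8 * ∑ p ∈ A ×ˢ A, ∑ q ∈ A ×ˢ A,
      (if |((p.1 : ℝ) - q.1) + β / α * (p.2 - q.2)| < 2 / r then (1 : ℝ) else 0)) := by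
    calc (#A : ℝ) * (#A : ℝ) ^ 3 ≤ _ := h1
      _ ≤ (M ^ 2 * ((K ^ 2) ^ (2 + 2) * #A)) * ∑ p ∈ A ×ˢ A, ∑ q ∈ A ×ˢ A,
      (if |((p.1 : ℝ) - q.1) + β / α * (p.2 - q.2)| < 2 / r then (1 : ℝ) else 0) := by
          refine mul_le_mul h2 h3 ?_ (by positivity)
          refine Finset.sum_nonneg fun p _ => Finset.sum_nonneg fun q _ => ?_
          split_ifs <;> norm_num
      _ = _ := by ring
  exact le_of_mul_le_mul_left h5 hA

/-- near pairs at scale `r` -/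
lemma near_pairs (h : Dat K δ N A) {r : ℝ} (hr : δ ≤ r) (hr1 : r ≤ 1) :
    ∑ b ∈ A, ∑ b' ∈ A, (if |(b : ℝ) - b'| ≤ r / δ then (1 : ℝ) else 0)
      ≤ K ^ 2 * (#A : ℝ) ^ 2 / N r := by
  have hp := h.pos r hr hr1
  have hK := h.toProf.K0
  calc _ ≤ ∑ b ∈ A, K * (N δ / N r) := by
        refine Finset.sum_le_sum fun b _ => ?_
        have h1 := h.frA b r hr hr1
        refine le_trans (le_of_eq ?_) h1
        refine Finset.sum_congr rfl fun b' _ => ?_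
        rw [abs_sub_comm]
    _ = #A * (K * (N δ / N r)) := by simp
    _ ≤ #A * (K * (K * #A / N r)) := by
        have := h.cardA
        gcongr
    _ = _ := by ring

/-- integers in an open interval of length two -/
lemma two_int (A : Finset ℤ) (x : ℝ) :
    ∑ a ∈ A, (if |(a : ℝ) - x| < 1 then (1 : ℝ) else 0) ≤ 2 := by
  classical
  have h1 : ∑ a ∈ A, (if |(a : ℝ) - x| < 1 then (1 : ℝ) else 0)
      = #(A.filter (fun a : ℤ => |(a : ℝ) - x| < 1)) := by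
    rw [Finset.card_filter]
    push_cast
    rfl
  rw [h1]
  have h2 : A.filter (fun a : ℤ => |(a : ℝ) - x| < 1) ⊆ {⌊x⌋, ⌊x⌋ + 1} := by
    intro a ha
    have h3 := abs_lt.1 (Finset.mem_filter.1 ha).2
    have h4 := Int.floor_le x
    have h5 := Int.lt_floor_add_one x
    have h6 : (⌊x⌋ : ℝ) - 1 < a := by linarith
    have h7 : (a : ℝ) < ⌊x⌋ + 2 := by linarith
    have h8 : ⌊x⌋ - 1 < a := by exact_mod_cast h6
    have h9 : a < ⌊x⌋ + 2 := by exact_mod_cast h7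
    simp only [Finset.mem_insert, Finset.mem_singleton]
    omega
  have h3 := (Finset.card_le_card h2).trans (Finset.card_le_two)
  exact_mod_cast h3

/-- COUNT 1 -/
lemma count1 (h : Dat K δ N A) {i : ℕ} {r : ℝ} (hr : δ ≤ r) (hr1 : r ≤ 1)
    (hN : K ^ (i + 9) ≤ N r) {U : Finset ℝ} (hU : ∀ u ∈ U, ∀ v ∈ U, u ≠ v → δ / r ≤ |u - v|)
    (hS : ∀ u ∈ U, Sc A (K ^ i) u) : (#U : ℝ) ≤ K ^ (i + 8) * N δ := by
  have hδ0 := h.hδ
  have hr0 : 0 < r := by linarith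
  have hA := h.cpos
  have hK := h.toProf.K0
  have hK100 := h.hK
  have hp := h.pos r hr hr1
  have hMp : 0 < K ^ i * K ^ 6 := by positivity
  have h1 := count_gen (A := A) (U := U) (w := 1) (T := r / δ) (s := δ / r)
    (e := (#A : ℝ) ^ 3 / (K ^ i * K ^ 6)) (ν := K ^ 2 * (#A : ℝ) ^ 2 / N r) (ω := 2)
    (by positivity) (by positivity) (by norm_num)
    (by
      have : δ / r * (r / δ) = 1 := by field_simp
      rw [this]
      norm_num)
    hU (h.near_pairs hr hr1) (two_int A)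
    (by
      intro u hu
      rw [div_le_iff₀ hMp]
      have := h.energy1 (hS u hu)
      linarith)
    (by
      rw [div_div, le_div_iff₀ (by positivity)]
      have e1 : (#A : ℝ) * (K ^ 2 * (#A : ℝ) ^ 2 / N r) * 2 * (K ^ i * K ^ 6 * 2)
          = (#A : ℝ) ^ 3 * ((4 * K ^ (i + 8)) / N r) := by
        rw [pow_add]
        ring
      rw [e1]
      have e2 : (4 * K ^ (i + 8)) / N r ≤ 1 := by
        rw [div_le_one hp]
        refine le_trans ?_ hN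
        calc 4 * K ^ (i + 8) ≤ K * K ^ (i + 8) := by
              gcongr
              linarith
          _ = _ := by ring
      calc (#A : ℝ) ^ 3 * ((4 * K ^ (i + 8)) / N r) ≤ (#A : ℝ) ^ 3 * 1 := by gcongr
        _ = _ := mul_one _)
  have h2 : (#U : ℝ) * (#A : ℝ) ^ 3 ≤ (8 * #A * (K ^ i * K ^ 6)) * (#A : ℝ) ^ 3 := by
    have e1 : (#U : ℝ) * ((#A : ℝ) ^ 3 / (K ^ i * K ^ 6)) * (K ^ i * K ^ 6)
        = (#U : ℝ) * (#A : ℝ) ^ 3 := by
      field_simp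
    calc (#U : ℝ) * (#A : ℝ) ^ 3
        = (#U : ℝ) * ((#A : ℝ) ^ 3 / (K ^ i * K ^ 6)) * (K ^ i * K ^ 6) := e1.symm
      _ ≤ 8 * (#A : ℝ) ^ 4 * (K ^ i * K ^ 6) := by gcongr
      _ = _ := by ring
  have h3 := le_of_mul_le_mul_right h2 (by positivity)
  calc (#U : ℝ) ≤ 8 * #A * (K ^ i * K ^ 6) := h3
    _ ≤ K * (K * N δ) * (K ^ i * K ^ 6) := by
        have := h.cardle
        gcongr
        linarith
    _ = _ := by ring

/-- COUNT 2 -/
lemma count2 (h : Dat K δ N A) {i : ℕ} {r r2 : ℝ} (hr1 : r ≤ 1) (hrδ : δ ≤ r / 2)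
    (hr2 : δ ≤ r2) (hr21 : r2 ≤ 1)
    (hN : K ^ (2 * i + 13) * N (r / 2) ≤ N r2) {U : Finset ℝ}
    (hU : ∀ u ∈ U, ∀ v ∈ U, u ≠ v → δ / (r * r2) ≤ |u - v|)
    (hS : ∀ u ∈ U, ∃ α β : ℝ, r ≤ |α| ∧ Sc A (K ^ i) α ∧ Sc A (K ^ i) β ∧ u = β / α) :
    (#U : ℝ) ≤ K ^ (2 * i + 10) * N δ := by
  have hδ0 := h.hδ
  have hr0 : 0 < r := by linarith
  have hr20 : 0 < r2 := by linarith
  have hA := h.cpos
  have hK := h.toProf.K0
  have hK100 := h.hK
  have hp := h.pos r2 hr2 hr21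
  have hMp : 0 < (K ^ i) ^ 2 * K ^ 8 := by positivity
  have hr12 : r / 2 ≤ 1 := by linarith
  have hp2 := h.pos (r / 2) hrδ hr12
  have h2r : 2 * δ / r ≤ 1 := by
    rw [div_le_one hr0]
    linarith
  have h2r' : δ ≤ 2 * δ / r := by
    rw [le_div_iff₀ hr0]
    nlinarith
  have hp3 := h.pos (2 * δ / r) h2r' h2r
  have hom : ∀ x : ℝ, ∑ a ∈ A, (if |(a : ℝ) - x| < 2 / r then (1 : ℝ) else 0)
      ≤ K ^ 2 * N (r / 2) := by
    intro x
    have e1 := h.frA x (2 * δ / r) h2r' h2r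
    have e2 : 2 * δ / r / δ = 2 / r := by field_simp
    rw [e2] at e1
    have e3 := h.sub (2 * δ / r) (r / 2) (by positivity) h2r (by positivity) hr12
      (by
        have : 2 * δ / r * (r / 2) = δ := by field_simp
        rw [this])
    have e4 : 2 * δ / r * (r / 2) = δ := by field_simp
    rw [e4] at e3
    calc _ ≤ ∑ a ∈ A, (if |(a : ℝ) - x| ≤ 2 / r then (1 : ℝ) else 0) := by
          refine Finset.sum_le_sum fun a _ => ?_
          by_cases hc : |(a : ℝ) - x| < 2 / r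
          · rw [if_pos hc, if_pos hc.le]
          · rw [if_neg hc]
            split_ifs <;> norm_num
      _ ≤ K * (N δ / N (2 * δ / r)) := e1
      _ ≤ K * (K * N (r / 2)) := by
          gcongr
          rw [div_le_iff₀ hp3]
          linarith
      _ = _ := by ring
  have h1 := count_gen (A := A) (U := U) (w := 2 / r) (T := r2 / δ) (s := δ / (r * r2))
    (e := (#A : ℝ) ^ 3 / ((K ^ i) ^ 2 * K ^ 8)) (ν := K ^ 2 * (#A : ℝ) ^ 2 / N r2)
    (ω := K ^ 2 * N (r / 2))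
    (by positivity) (by positivity) (by positivity)
    (by
      have : δ / (r * r2) * (r2 / δ) = 1 / r := by field_simp
      rw [this]
      apply le_of_eq
      ring)
    hU (h.near_pairs hr2 hr21) hom
    (by
      intro u hu
      rw [div_le_iff₀ hMp]
      obtain ⟨α, β, h1, h2, h3, rfl⟩ := hS u hu
      have := h.energy2 h2 h3 hr0 h1
      linarith)
    (by
      rw [div_div, le_div_iff₀ (by positivity)]
      have e1 : (#A : ℝ) * (K ^ 2 * (#A : ℝ) ^ 2 / N r2) * (K ^ 2 * N (r / 2))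
          * ((K ^ i) ^ 2 * K ^ 8 * 2)
          = (#A : ℝ) ^ 3 * ((2 * K ^ (2 * i + 12) * N (r / 2)) / N r2) := by
        rw [pow_add, pow_mul]
        ring
      rw [e1]
      have e2 : (2 * K ^ (2 * i + 12) * N (r / 2)) / N r2 ≤ 1 := by
        rw [div_le_one hp]
        refine le_trans ?_ hN
        calc 2 * K ^ (2 * i + 12) * N (r / 2) ≤ K * K ^ (2 * i + 12) * N (r / 2) := by
              gcongr
              linarith
          _ = _ := by ring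
      calc (#A : ℝ) ^ 3 * ((2 * K ^ (2 * i + 12) * N (r / 2)) / N r2) ≤ (#A : ℝ) ^ 3 * 1 := by
            gcongr
        _ = _ := mul_one _)
  have h2 : (#U : ℝ) * (#A : ℝ) ^ 3 ≤ (8 * #A * ((K ^ i) ^ 2 * K ^ 8)) * (#A : ℝ) ^ 3 := by
    have e1 : (#U : ℝ) * ((#A : ℝ) ^ 3 / ((K ^ i) ^ 2 * K ^ 8)) * ((K ^ i) ^ 2 * K ^ 8)
        = (#U : ℝ) * (#A : ℝ) ^ 3 := by
      field_simp
    calc (#U : ℝ) * (#A : ℝ) ^ 3
        = (#U : ℝ) * ((#A : ℝ) ^ 3 / ((K ^ i) ^ 2 * K ^ 8)) * ((K ^ i) ^ 2 * K ^ 8) := e1.symm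
      _ ≤ 8 * (#A : ℝ) ^ 4 * ((K ^ i) ^ 2 * K ^ 8) := by gcongr
      _ = _ := by ring
  have h3 := le_of_mul_le_mul_right h2 (by positivity)
  calc (#U : ℝ) ≤ 8 * #A * ((K ^ i) ^ 2 * K ^ 8) := h3
    _ ≤ K * (K * N δ) * ((K ^ i) ^ 2 * K ^ 8) := by
        have := h.cardle
        gcongr
        linarith
    _ = _ := by ring

end Dat

end Vale.Agent.P065.UB.H196
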