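import Vale.Agent.P065.UB.H196.Sc

/-!
# P065, upper bound: counting scalars by energy (helper196)
-/

set_option autoImplicit false

namespace Vale.Agent.P065.UB.H196

open Finset
open scoped Pointwise

/-- Cauchy-Schwarz: few values force many collisions -/
lemma cs {ι κ : Type*} [DecidableEq κ] (S : Finset ι) (f : ι → κ) (T : Finset κ)
    (h : ∀ i ∈ S, f i ∈ T) :
    (#S : ℝ) ^ 2 ≤ #T * ∑ p ∈ S, ∑ q ∈ S, (if f p = f q then (1 : ℝ) else 0) := by
  have h1 : (#S : ℝ) = ∑ t ∈ T, ∑ p ∈ S, (if f p = t then (1 : ℝ) else 0) := by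
    rw [Finset.sum_comm]
    have : ∀ p ∈ S, ∑ t ∈ T, (if f p = t then (1 : ℝ) else 0) = 1 := by
      intro p hp
      rw [Finset.sum_ite_eq]
      simp [h p hp]
    rw [Finset.sum_congr rfl this]
    simp
  have h2 : ∑ t ∈ T, (∑ p ∈ S, (if f p = t then (1 : ℝ) else 0)) ^ 2
      = ∑ p ∈ S, ∑ q ∈ S, (if f p = f q then (1 : ℝ) else 0) := by
    have e1 : ∀ t ∈ T, (∑ p ∈ S, (if f p = t then (1 : ℝ) else 0)) ^ 2
        = ∑ p ∈ S, ∑ q ∈ S, (if f p = t then (1 : ℝ) else 0) * (if f q = t then (1 : ℝ) else 0) := by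
      intro t _
      rw [sq, Finset.sum_mul_sum]
    rw [Finset.sum_congr rfl e1, Finset.sum_comm]
    refine Finset.sum_congr rfl fun p hp => ?_
    rw [Finset.sum_comm]
    refine Finset.sum_congr rfl fun q hq => ?_
    have e2 : ∀ t ∈ T, (if f p = t then (1 : ℝ) else 0) * (if f q = t then (1 : ℝ) else 0)
        = if f p = t then (if f q = f p then (1 : ℝ) else 0) else 0 := by
      intro t _
      by_cases hpt : f p = t
      · subst hpt
        simp
      · simp [hpt]
    rw [Finset.sum_congr rfl e2, Finset.sum_ite_eq]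
    simp [h p hp, eq_comm]
  have h3 := sq_sum_le_card_mul_sum_sq (s := T)
    (f := fun t => ∑ p ∈ S, (if f p = t then (1 : ℝ) else 0))
  rw [h2, ← h1] at h3
  exact h3

/-- a separated set of reals in an open interval of length `4 s` has at most `4` elements -/
lemma card_sep_le {U : Finset ℝ} {s : ℝ} (hs : 0 < s) (hU : ∀ u ∈ U, ∀ v ∈ U, u ≠ v → s ≤ |u - v|)
    {c : ℝ} (h : ∀ u ∈ U, |u - c| < 2 * s) : #U ≤ 4 := by
  classical
  have hinj : Set.InjOn (fun u : ℝ => ⌊(u - (c - 2 * s)) / s⌋) U := by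
    intro x hx y hy hxy
    by_contra hne
    have h2 := hU x hx y hy hne
    have h3 := Int.abs_sub_lt_one_of_floor_eq_floor hxy
    rw [← sub_div, abs_div, abs_of_pos hs, div_lt_one hs] at h3
    have : x - (c - 2 * s) - (y - (c - 2 * s)) = x - y := by ring
    rw [this] at h3
    linarith
  have hmaps : ∀ u ∈ U, (fun u : ℝ => ⌊(u - (c - 2 * s)) / s⌋) u ∈ Finset.Ico (0 : ℤ) 4 := by
    intro u hu
    have h1 := abs_lt.1 (h u hu)
    rw [Finset.mem_Ico]
    constructor
    · apply Int.floor_nonneg.2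
      apply div_nonneg _ hs.le
      linarith
    · rw [Int.floor_lt, div_lt_iff₀ hs]
      push_cast
      linarith
  have h4 := Finset.card_le_card_of_injOn _ hmaps hinj
  simpa using h4

/-- **COUNT**: `U` is a separated set of real numbers such that every `u` in `U` has large energy on
`A` (with width `w`); the near quadruples are negligible. -/
theorem count_gen {A : Finset ℤ} {U : Finset ℝ} {w T s e ν ω : ℝ} (hT : 0 < T) (hs : 0 < s)
    (hω0 : 0 ≤ ω)
    (hw : w ≤ 2 * (s * T)) (hU : ∀ u ∈ U, ∀ v ∈ U, u ≠ v → s ≤ |u - v|)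
    (hν : ∑ b ∈ A, ∑ b' ∈ A, (if |(b : ℝ) - b'| ≤ T then (1 : ℝ) else 0) ≤ ν)
    (hω : ∀ x : ℝ, ∑ a ∈ A, (if |(a : ℝ) - x| < w then (1 : ℝ) else 0) ≤ ω)
    (he : ∀ u ∈ U, e ≤ ∑ p ∈ A ×ˢ A, ∑ q ∈ A ×ˢ A,
      (if |((p.1 : ℝ) - q.1) + u * (p.2 - q.2)| < w then (1 : ℝ) else 0))
    (hne : #A * ν * ω ≤ e / 2) :
    #U * e ≤ 8 * (#A : ℝ) ^ 4 := by
  classical
  -- near part
  have hnear : ∀ u ∈ U, ∑ p ∈ A ×ˢ A, ∑ q ∈ A ×ˢ A,
      (if |((p.1 : ℝ) - q.1) + u * (p.2 - q.2)| < w ∧ |(p.2 : ℝ) - q.2| ≤ T then (1 : ℝ) else 0)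
        ≤ #A * ν * ω := by
    intro u _
    have h1 : ∑ p ∈ A ×ˢ A, ∑ q ∈ A ×ˢ A,
      (if |((p.1 : ℝ) - q.1) + u * (p.2 - q.2)| < w ∧ |(p.2 : ℝ) - q.2| ≤ T then (1 : ℝ) else 0)
        = ∑ b ∈ A, ∑ b' ∈ A, (if |(b : ℝ) - b'| ≤ T then (1 : ℝ) else 0) *
          ∑ a ∈ A, ∑ a' ∈ A, (if |((a : ℝ) - a') + u * (b - b')| < w then (1 : ℝ) else 0) := by
      rw [Finset.sum_product_right]
      refine Finset.sum_congr rfl fun b hb => ?_
      have h2 : ∀ a ∈ A, ∑ q ∈ A ×ˢ A,
          (if |(((a, b) : ℤ × ℤ).1 : ℝ) - q.1 + u * ((((a, b) : ℤ × ℤ).2 : ℝ) - q.2)| < w ∧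
            |((((a, b) : ℤ × ℤ).2 : ℝ)) - q.2| ≤ T then (1 : ℝ) else 0)
          = ∑ b' ∈ A, ∑ a' ∈ A, (if |(b : ℝ) - b'| ≤ T then (1 : ℝ) else 0) *
            (if |((a : ℝ) - a') + u * (b - b')| < w then (1 : ℝ) else 0) := by
        intro a _
        rw [Finset.sum_product_right]
        refine Finset.sum_congr rfl fun b' _ => Finset.sum_congr rfl fun a' _ => ?_
        by_cases c1 : |(b : ℝ) - b'| ≤ T
        · simp [c1]
        · simp [c1]
      rw [Finset.sum_congr rfl h2, Finset.sum_comm]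
      refine Finset.sum_congr rfl fun b' _ => ?_
      rw [Finset.mul_sum]
      refine Finset.sum_congr rfl fun a _ => ?_
      rw [Finset.mul_sum]
    rw [h1]
    have h3 : ∀ b b' : ℤ, ∑ a ∈ A, ∑ a' ∈ A,
        (if |((a : ℝ) - a') + u * (b - b')| < w then (1 : ℝ) else 0) ≤ #A * ω := by
      intro b b'
      calc _ ≤ ∑ a ∈ A, ω := by
            refine Finset.sum_le_sum fun a _ => ?_
            have := hω ((a : ℝ) + u * (b - b'))
            refine le_trans (le_of_eq ?_) this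
            refine Finset.sum_congr rfl fun a' _ => ?_
            have e1 : |(a' : ℝ) - (a + u * (b - b'))| = |((a : ℝ) - a') + u * (b - b')| := by
              rw [← abs_neg]
              congr 1
              ring
            rw [e1]
        _ = _ := by simp
    calc _ ≤ ∑ b ∈ A, ∑ b' ∈ A, (if |(b : ℝ) - b'| ≤ T then (1 : ℝ) else 0) * (#A * ω) := by
          refine Finset.sum_le_sum fun b _ => Finset.sum_le_sum fun b' _ => ?_
          refine mul_le_mul_of_nonneg_left (h3 b b') ?_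
          split_ifs <;> norm_num
      _ = (∑ b ∈ A, ∑ b' ∈ A, (if |(b : ℝ) - b'| ≤ T then (1 : ℝ) else 0)) * (#A * ω) := by
          rw [Finset.sum_mul]
          refine Finset.sum_congr rfl fun b _ => ?_
          rw [Finset.sum_mul]
      _ ≤ ν * (#A * ω) := by gcongr
      _ = _ := by ring
  -- far part
  have hfar : ∀ u ∈ U, e / 2 ≤ ∑ p ∈ A ×ˢ A, ∑ q ∈ A ×ˢ A,
      (if |((p.1 : ℝ) - q.1) + u * (p.2 - q.2)| < w ∧ T < |(p.2 : ℝ) - q.2| then (1 : ℝ) else 0) := by
    intro u hu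
    have h1 := hnear u hu
    have h2 := he u hu
    have h3 : ∑ p ∈ A ×ˢ A, ∑ q ∈ A ×ˢ A,
        (if |((p.1 : ℝ) - q.1) + u * (p.2 - q.2)| < w then (1 : ℝ) else 0)
        = ∑ p ∈ A ×ˢ A, ∑ q ∈ A ×ˢ A,
          (if |((p.1 : ℝ) - q.1) + u * (p.2 - q.2)| < w ∧ |(p.2 : ℝ) - q.2| ≤ T then (1 : ℝ) else 0)
        + ∑ p ∈ A ×ˢ A, ∑ q ∈ A ×ˢ A,
          (if |((p.1 : ℝ) - q.1) + u * (p.2 - q.2)| < w ∧ T < |(p.2 : ℝ) - q.2| then (1 : ℝ)
            else 0) := by
      rw [← Finset.sum_add_distrib]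
      refine Finset.sum_congr rfl fun p _ => ?_
      rw [← Finset.sum_add_distrib]
      refine Finset.sum_congr rfl fun q _ => ?_
      by_cases c1 : |((p.1 : ℝ) - q.1) + u * (p.2 - q.2)| < w
      · by_cases c2 : |(p.2 : ℝ) - q.2| ≤ T
        · simp [c1, c2, not_lt.2 c2]
        · simp [c1, c2, not_le.1 c2]
      · simp [c1]
    linarith
  have hsum : #U * (e / 2) ≤ ∑ u ∈ U, ∑ p ∈ A ×ˢ A, ∑ q ∈ A ×ˢ A,
      (if |((p.1 : ℝ) - q.1) + u * (p.2 - q.2)| < w ∧ T < |(p.2 : ℝ) - q.2| then (1 : ℝ) else 0) := by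
    calc (#U : ℝ) * (e / 2) = ∑ u ∈ U, e / 2 := by simp
      _ ≤ _ := Finset.sum_le_sum hfar
  have hswap : ∑ u ∈ U, ∑ p ∈ A ×ˢ A, ∑ q ∈ A ×ˢ A,
      (if |((p.1 : ℝ) - q.1) + u * (p.2 - q.2)| < w ∧ T < |(p.2 : ℝ) - q.2| then (1 : ℝ) else 0)
      ≤ 4 * (#A : ℝ) ^ 4 := by
    rw [Finset.sum_comm]
    have h1 : ∀ p ∈ A ×ˢ A, ∑ u ∈ U, ∑ q ∈ A ×ˢ A,
        (if |((p.1 : ℝ) - q.1) + u * (p.2 - q.2)| < w ∧ T < |(p.2 : ℝ) - q.2| then (1 : ℝ) else 0)
        ≤ 4 * (#A : ℝ) ^ 2 := by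
      intro p _
      rw [Finset.sum_comm]
      calc _ ≤ ∑ q ∈ A ×ˢ A, (4 : ℝ) := by
            refine Finset.sum_le_sum fun q _ => ?_
            by_cases c2 : T < |(p.2 : ℝ) - q.2|
            · have h2 : ∑ u ∈ U, (if |((p.1 : ℝ) - q.1) + u * (p.2 - q.2)| < w ∧
                  T < |(p.2 : ℝ) - q.2| then (1 : ℝ) else 0)
                  = #{u ∈ U | |((p.1 : ℝ) - q.1) + u * (p.2 - q.2)| < w} := by
                rw [Finset.card_filter]
                push_cast
                refine Finset.sum_congr rfl fun u _ => ?_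
                simp [c2]
              rw [h2]
              have hb0 : (p.2 : ℝ) - q.2 ≠ 0 := by
                intro h0
                rw [h0, abs_zero] at c2
                linarith
              have h3 : #{u ∈ U | |((p.1 : ℝ) - q.1) + u * (p.2 - q.2)| < w} ≤ 4 := by
                refine card_sep_le hs (c := -(((p.1 : ℝ) - q.1) / (p.2 - q.2))) ?_ ?_
                · intro u hu v hv huv
                  exact hU u (Finset.mem_filter.1 hu).1 v (Finset.mem_filter.1 hv).1 huv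
                · intro u hu
                  have h4 := (Finset.mem_filter.1 hu).2
                  have h5 : ((p.1 : ℝ) - q.1) + u * (p.2 - q.2)
                      = (u - -(((p.1 : ℝ) - q.1) / (p.2 - q.2))) * (p.2 - q.2) := by
                    field_simp
                    ring
                  rw [h5, abs_mul] at h4
                  have h6 : |u - -(((p.1 : ℝ) - q.1) / (p.2 - q.2))| * T < 2 * (s * T) := by
                    calc _ ≤ |u - -(((p.1 : ℝ) - q.1) / (p.2 - q.2))| * |(p.2 : ℝ) - q.2| := by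
                          gcongr
                      _ < w := h4
                      _ ≤ _ := hw
                  have h7 : |u - -(((p.1 : ℝ) - q.1) / (p.2 - q.2))| * T < (2 * s) * T := by
                    linarith
                  exact lt_of_mul_lt_mul_right h7 hT.le
              exact_mod_cast h3
            · have h2 : ∀ u ∈ U, (if |((p.1 : ℝ) - q.1) + u * (p.2 - q.2)| < w ∧
                  T < |(p.2 : ℝ) - q.2| then (1 : ℝ) else 0) = 0 := by
                intro u _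
                simp [c2]
              rw [Finset.sum_congr rfl h2]
              simp
        _ = _ := by
            simp only [Finset.sum_const, Finset.card_product, nsmul_eq_mul, Nat.cast_mul]
            ring
    calc _ ≤ ∑ p ∈ A ×ˢ A, 4 * (#A : ℝ) ^ 2 := Finset.sum_le_sum h1
      _ = _ := by
          simp only [Finset.sum_const, Finset.card_product, nsmul_eq_mul, Nat.cast_mul]
          ring
  linarith

end Vale.Agent.P065.UB.H196
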