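import Vale.Agent.P065.UB.H196.Count

/-!
# P065, upper bound: the data of the uniform kill in integer units; scale lemmas (helper196)
-/

set_option autoImplicit false

namespace Vale.Agent.P065.UB.H196

open Finset
open scoped Pointwise

/-- profile -/
structure Prof (K δ : ℝ) (N : ℝ → ℝ) : Prop where
  hK : 100 ≤ K
  hδ : 0 < δ
  hδ1 : δ ≤ 1
  pos : ∀ t, δ ≤ t → t ≤ 1 → 0 < N t
  anti : ∀ s t, δ ≤ s → s ≤ t → t ≤ 1 → N t ≤ N s
  sub : ∀ s t, 0 < s → s ≤ 1 → 0 < t → t ≤ 1 → δ ≤ s * t → N (s * t) ≤ K * (N s * N t)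
  triv : ∀ t, δ ≤ t → t ≤ 1 → N t ≤ K / t

namespace Prof

variable {K δ : ℝ} {N : ℝ → ℝ}

lemma K1 (h : Prof K δ N) : 1 ≤ K := by linarith [h.hK]

lemma K0 (h : Prof K δ N) : 0 < K := by linarith [h.hK]

lemma pw (h : Prof K δ N) {i j : ℕ} (hij : i ≤ j) : K ^ i ≤ K ^ j := pow_le_pow_right₀ h.K1 hij

lemma pp (h : Prof K δ N) (i : ℕ) : 0 < K ^ i := pow_pos h.K0 i

/-- comparison of two scales -/
lemma dil (h : Prof K δ N) {s t c : ℝ} (hs : 0 < s) (hc : 1 ≤ c) (hδ : δ ≤ s)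
    (ht : t ≤ 1) (hst : t = c * s) : N s ≤ K ^ 2 * c * N t := by
  have hc0 : 0 < c := by linarith
  have hs' : s = t * (1 / c) := by rw [hst]; field_simp
  have ht0 : 0 < t := by rw [hst]; positivity
  have hδt : δ ≤ t := by
    rw [hst]
    nlinarith
  have h1 : (1 : ℝ) / c ≤ 1 := by
    rw [div_le_one hc0]
    exact hc
  have hδc : δ ≤ 1 / c := by
    calc δ ≤ s := hδ
      _ = t * (1 / c) := hs'
      _ ≤ 1 * (1 / c) := by gcongr
      _ = 1 / c := one_mul _
  have h2 := h.sub t (1 / c) ht0 ht (by positivity) h1 (by rw [← hs']; exact hδ)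
  have h3 := h.triv (1 / c) hδc h1
  have h4 : K / (1 / c) = K * c := by field_simp
  rw [h4] at h3
  rw [← hs'] at h2
  have h5 := h.pos t hδt ht
  calc N s ≤ K * (N t * N (1 / c)) := h2
    _ ≤ K * (N t * (K * c)) := by
        have := h.K0
        gcongr
    _ = _ := by ring

lemma half (h : Prof K δ N) {t : ℝ} (hδ : δ ≤ t / 2) (ht1 : t ≤ 1) : N (t / 2) ≤ K ^ 3 * N t := by
  have h0 := h.hδ
  have h1 := h.dil (s := t / 2) (t := t) (c := 2) (by linarith) (by norm_num) hδ ht1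
    (by ring)
  have h5 := h.pos t (by linarith) ht1
  calc N (t / 2) ≤ K ^ 2 * 2 * N t := h1
    _ ≤ K ^ 2 * K * N t := by
        have := h.hK
        gcongr
        linarith
    _ = _ := by ring

/-- a scale with prescribed value of the profile -/
lemma exists_scale (h : Prof K δ N) {Θ : ℝ} (hΘ : K ≤ Θ) (hn : Θ ≤ N δ) :
    ∃ t, δ ≤ t ∧ t ≤ 1 ∧ Θ ≤ N t ∧ N t ≤ K ^ 3 * Θ := by
  classical
  have hK0 := h.K0
  have hδ0 := h.hδ
  have hΘ0 : 0 < Θ := by linarith
  have hex : ∃ j : ℕ, (1 / 2 : ℝ) ^ j < δ ∨ Θ ≤ N ((1 / 2) ^ j) := by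
    obtain ⟨j, hj⟩ := exists_pow_lt_of_lt_one h.hδ (by norm_num : (1 / 2 : ℝ) < 1)
    exact ⟨j, Or.inl hj⟩
  have hmin : ∀ {m : ℕ}, m < Nat.find hex → ¬ ((1 / 2 : ℝ) ^ m < δ ∨ Θ ≤ N ((1 / 2) ^ m)) :=
    fun {m} hm => Nat.find_min hex hm
  have hspec := Nat.find_spec hex
  set j := Nat.find hex with hj
  rcases Nat.eq_zero_or_pos j with hj0 | hjpos
  · rw [hj0] at hspec
    simp only [pow_zero] at hspec
    rcases hspec with h1 | h1
    · linarith [h.hδ1]
    · refine ⟨1, h.hδ1, le_refl _, h1, ?_⟩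
      have h2 := h.triv 1 h.hδ1 (le_refl _)
      calc N 1 ≤ K / 1 := h2
        _ = 1 * K := by ring
        _ ≤ K ^ 3 * Θ := by
            gcongr
            exact one_le_pow₀ h.K1
  · obtain ⟨i, hi⟩ : ∃ i, j = i + 1 := ⟨j - 1, by omega⟩
    have h1 := hmin (m := i) (by omega)
    push Not at h1
    obtain ⟨h2, h3⟩ := h1
    have hle1 : ((1 : ℝ) / 2) ^ i ≤ 1 := pow_le_one₀ (by norm_num) (by norm_num)
    have hhalf : ((1 : ℝ) / 2) ^ j = (1 / 2) ^ i / 2 := by rw [hi, pow_succ]; ring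
    by_cases h4 : δ ≤ (1 / 2 : ℝ) ^ j
    · refine ⟨(1 / 2) ^ j, h4, pow_le_one₀ (by norm_num) (by norm_num), ?_, ?_⟩
      · rcases hspec with h5 | h5
        · exact absurd h4 (not_le.2 h5)
        · exact h5
      · have h5 := h.half (t := (1 / 2) ^ i) (by rw [← hhalf]; exact h4) hle1
        rw [hhalf]
        refine h5.trans ?_
        gcongr
    · refine ⟨δ, le_refl _, h.hδ1, hn, ?_⟩
      have h5 : (1 : ℝ) ≤ (1 / 2) ^ i / δ := by
        rw [le_div_iff₀ hδ0]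
        linarith
      have h6 : ((1 : ℝ) / 2) ^ i / δ ≤ 2 := by
        rw [div_le_iff₀ hδ0]
        have := not_le.1 h4
        rw [hhalf] at this
        linarith
      have h7 := h.dil (s := δ) (t := (1 / 2) ^ i) (c := (1 / 2) ^ i / δ) hδ0 h5 (le_refl _) hle1
        (by field_simp)
      have h8 := h.hK
      calc N δ ≤ K ^ 2 * ((1 / 2) ^ i / δ) * N ((1 / 2) ^ i) := h7
        _ ≤ K ^ 2 * K * Θ := by
            have := h.pos _ h2 hle1
            gcongr
            linarith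
        _ = _ := by ring

/-- powers of a scale -/
lemma N_pow (h : Prof K δ N) {t Θ : ℝ} (hδt : δ ≤ t) (ht1 : t ≤ 1) (hN : N t ≤ Θ) (k : ℕ)
    (hk : δ ≤ t ^ (k + 1)) : N (t ^ (k + 1)) ≤ (K * Θ) ^ (k + 1) := by
  have h0 := h.hδ
  have ht0 : 0 < t := by linarith
  have hK0 := h.K0
  have hΘ : 0 < Θ := lt_of_lt_of_le (h.pos t hδt ht1) hN
  induction k with
  | zero =>
    simp only [zero_add, pow_one]
    calc N t ≤ 1 * Θ := by linarith
      _ ≤ K * Θ := by
          gcongr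
          exact h.K1
  | succ k ih =>
    have h1 : δ ≤ t ^ (k + 1) := hk.trans (pow_le_pow_of_le_one ht0.le ht1 (by omega))
    have h2 := ih h1
    have h3 : t ^ (k + 1 + 1) = t ^ (k + 1) * t := pow_succ _ _
    rw [h3] at hk ⊢
    have h4 := h.sub (t ^ (k + 1)) t (by positivity) (pow_le_one₀ ht0.le ht1) ht0 ht1 hk
    calc N (t ^ (k + 1) * t) ≤ K * (N (t ^ (k + 1)) * N t) := h4
      _ ≤ K * ((K * Θ) ^ (k + 1) * Θ) := by
          have := h.pos t hδt ht1
          gcongr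
      _ = _ := by ring

/-- a scale with a small value of the profile is not too small -/
lemma pow_le (h : Prof K δ N) {t Θ : ℝ} (hδt : δ ≤ t) (ht1 : t ≤ 1) (hN : N t ≤ Θ) (k : ℕ)
    (hk : (K * Θ) ^ (k + 1) < N δ) : δ ≤ t ^ (k + 1) := by
  have h0 := h.hδ
  have ht0 : 0 < t := by linarith
  have hK0 := h.K0
  have hΘ0 : 0 < Θ := lt_of_lt_of_le (h.pos t hδt ht1) hN
  have hΘ : 1 ≤ K * Θ := by
    have h1 := h.hδ1
    have h2 := h.sub t 1 ht0 ht1 one_pos (le_refl _) (by linarith)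
    rw [mul_one] at h2
    have h3 := h.pos t hδt ht1
    have h4 : 1 ≤ K * N 1 := by
      have : N t * 1 ≤ N t * (K * N 1) := by linarith
      exact le_of_mul_le_mul_left this h3
    calc 1 ≤ K * N 1 := h4
      _ ≤ K * N t := by
          gcongr
          exact h.anti t 1 hδt ht1 (le_refl _)
      _ ≤ K * Θ := by gcongr
  induction k with
  | zero =>
    simpa using hδt
  | succ k ih =>
    have h1 : (K * Θ) ^ (k + 1) < N δ := by
      refine lt_of_le_of_lt ?_ hk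
      exact pow_le_pow_right₀ hΘ (by omega)
    have h2 := ih h1
    by_contra hcon
    rw [not_le] at hcon
    have hp : 0 < t ^ (k + 1) := by positivity
    have h3 : t ^ (k + 1 + 1) = t ^ (k + 1) * t := pow_succ _ _
    rw [h3] at hcon
    have hs1 : δ / t ^ (k + 1) ≤ 1 := by
      rw [div_le_one hp]
      exact h2
    have hs2 : t ≤ δ / t ^ (k + 1) := by
      rw [le_div_iff₀ hp]
      linarith
    have h5 : t ^ (k + 1) * (δ / t ^ (k + 1)) = δ := by field_simp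
    have h4 := h.sub (t ^ (k + 1)) (δ / t ^ (k + 1)) hp (pow_le_one₀ ht0.le ht1) (by positivity)
      hs1 (by rw [h5])
    rw [h5] at h4
    have h6 := h.N_pow hδt ht1 hN k h2
    have h7 : N (δ / t ^ (k + 1)) ≤ Θ := (h.anti t _ hδt hs2 hs1).trans hN
    have h8 := h.pos (δ / t ^ (k + 1)) (hδt.trans hs2) hs1
    have : N δ ≤ (K * Θ) ^ (k + 1 + 1) := by
      calc N δ ≤ K * (N (t ^ (k + 1)) * N (δ / t ^ (k + 1))) := h4
        _ ≤ K * ((K * Θ) ^ (k + 1) * Θ) := by gcongr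
        _ = _ := by ring
    linarith

end Prof

/-- the data in integer units -/
structure Dat (K δ : ℝ) (N : ℝ → ℝ) (A : Finset ℤ) : Prop extends Prof K δ N where
  cardA : N δ ≤ K * #A
  diffA : (#(A - A) : ℝ) ≤ K * N δ
  frA : ∀ x t : ℝ, δ ≤ t → t ≤ 1 →
    ∑ a ∈ A, (if |(a : ℝ) - x| ≤ t / δ then (1 : ℝ) else 0) ≤ K * (N δ / N t)

namespace Dat

variable {K δ : ℝ} {N : ℝ → ℝ} {A : Finset ℤ}

lemma n0 (h : Dat K δ N A) : 0 < N δ := h.pos δ (le_refl _) h.hδ1

lemma cpos (h : Dat K δ N A) : (0 : ℝ) < #A := by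
  have h1 := h.cardA
  have h2 := h.n0
  have h3 := h.toProf.K0
  by_contra hcon
  have : (#A : ℝ) = 0 := le_antisymm (not_lt.1 hcon) (Nat.cast_nonneg _)
  rw [this] at h1
  linarith

lemma ne (h : Dat K δ N A) : A.Nonempty := by
  have := h.cpos
  exact Finset.card_pos.1 (by exact_mod_cast this)

lemma diff' (h : Dat K δ N A) : (#(A - A) : ℝ) ≤ K ^ 2 * #A := by
  calc (#(A - A) : ℝ) ≤ K * N δ := h.diffA
    _ ≤ K * (K * #A) := by
        have := h.toProf.K0
        gcongr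
        exact h.cardA
    _ = _ := by ring

lemma cardle (h : Dat K δ N A) : (#A : ℝ) ≤ K * N δ := by
  refine le_trans ?_ h.diffA
  obtain ⟨a, ha⟩ := h.ne
  have : #(A.image (fun x => x - a)) ≤ #(A - A) := by
    apply Finset.card_le_card
    intro x hx
    obtain ⟨y, hy, rfl⟩ := Finset.mem_image.1 hx
    exact Finset.sub_mem_sub hy ha
  rw [Finset.card_image_of_injective _ (sub_left_injective)] at this
  exact_mod_cast this

end Dat

end Vale.Agent.P065.UB.H196
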