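import Vale.Agent.P065.UB.H196.Cnt2

/-!
# P065, upper bound: binary digits and nets (helper196)
-/

set_option autoImplicit false

namespace Vale.Agent.P065.UB.H196

open Finset
open scoped Pointwise

/-- a maximal separated subset -/
lemma exists_net (S : Finset ℝ) {t : ℝ} (ht : 0 < t) :
    ∃ W ⊆ S, (∀ u ∈ W, ∀ v ∈ W, u ≠ v → t ≤ |u - v|) ∧ ∀ s ∈ S, ∃ w ∈ W, |s - w| < t := by
  classical
  obtain ⟨W, hW, hmax⟩ := (S.powerset.filter
    (fun W => ∀ u ∈ W, ∀ v ∈ W, u ≠ v → t ≤ |u - v|)).exists_max_image Finset.card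
    ⟨∅, by simp⟩
  rw [Finset.mem_filter, Finset.mem_powerset] at hW
  refine ⟨W, hW.1, hW.2, fun s hs => ?_⟩
  by_contra hcon
  push Not at hcon
  have hsW : s ∉ W := by
    intro h
    have := hcon s h
    rw [sub_self, abs_zero] at this
    linarith
  have h1 := hmax (insert s W) (by
    rw [Finset.mem_filter, Finset.mem_powerset]
    refine ⟨Finset.insert_subset hs hW.1, ?_⟩
    intro u hu v hv huv
    rw [Finset.mem_insert] at hu hv
    rcases hu with rfl | hu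
    · rcases hv with rfl | hv
      · exact absurd rfl huv
      · exact hcon v hv
    · rcases hv with rfl | hv
      · rw [abs_sub_comm]
        exact hcon u hu
      · exact hW.2 u hu v hv huv)
  rw [Finset.card_insert_of_notMem hsW] at h1
  omega

lemma digits {R : Set ℝ} {ρ : ℝ} (hρ : 0 < ρ) (hρ1 : ρ ≤ 1 / 2) (h0 : (0 : ℝ) ∈ R)
    (hstep : ∀ x ∈ R, |x| ≤ 3 → ∀ b : ℝ, (b = 0 ∨ b = 1) → ∃ y ∈ R, |(x + b) / 2 - y| ≤ ρ)
    (k : ℕ) : ∀ y : ℝ, 0 ≤ y → y ≤ 1 → ∃ x ∈ R, |x - y| ≤ 2 * ρ + (1 / 2) ^ k := by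
  induction k with
  | zero =>
    intro y hy0 hy1
    refine ⟨0, h0, ?_⟩
    rw [zero_sub, abs_neg, abs_of_nonneg hy0]
    simp only [pow_zero]
    linarith
  | succ k ih =>
    intro y hy0 hy1
    obtain ⟨b, hb, hb0, hb1⟩ : ∃ b : ℝ, (b = 0 ∨ b = 1) ∧ 0 ≤ 2 * y - b ∧ 2 * y - b ≤ 1 := by
      by_cases hy : y ≤ 1 / 2
      · exact ⟨0, Or.inl rfl, by linarith, by linarith⟩
      · rw [not_le] at hy
        exact ⟨1, Or.inr rfl, by linarith, by linarith⟩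
    obtain ⟨x, hx, hxy⟩ := ih (2 * y - b) hb0 hb1
    have hp : ((1 : ℝ) / 2) ^ k ≤ 1 := pow_le_one₀ (by norm_num) (by norm_num)
    have h1 := abs_le.1 hxy
    have hx3 : |x| ≤ 3 := by
      rw [abs_le]
      constructor <;> linarith [h1.1, h1.2]
    obtain ⟨z, hz, hxz⟩ := hstep x hx hx3 b hb
    refine ⟨z, hz, ?_⟩
    have h2 := abs_le.1 hxz
    rw [pow_succ, abs_le]
    constructor <;> linarith [h1.1, h1.2, h2.1, h2.2]

/-- either `R` is not closed under halving, or it contains a large separated set -/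
lemma dense_or {R : Set ℝ} {ρ : ℝ} (hρ : 0 < ρ) (hρ1 : ρ ≤ 1 / 2) (h0 : (0 : ℝ) ∈ R) :
    (∃ x ∈ R, |x| ≤ 3 ∧ ∃ b : ℝ, (b = 0 ∨ b = 1) ∧ ∀ y ∈ R, ρ < |(x + b) / 2 - y|) ∨
    ∃ U : Finset ℝ, (∀ u ∈ U, u ∈ R) ∧ (∀ u ∈ U, ∀ v ∈ U, u ≠ v → ρ ≤ |u - v|) ∧
      1 / (8 * ρ) ≤ #U := by
  classical
  by_cases hstep : ∀ x ∈ R, |x| ≤ 3 → ∀ b : ℝ, (b = 0 ∨ b = 1) → ∃ y ∈ R, |(x + b) / 2 - y| ≤ ρ
  · right
    obtain ⟨k, hk⟩ := exists_pow_lt_of_lt_one hρ (by norm_num : (1 / 2 : ℝ) < 1)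
    have hd : ∀ y : ℝ, 0 ≤ y → y ≤ 1 → ∃ x ∈ R, |x - y| ≤ 3 * ρ := by
      intro y hy0 hy1
      obtain ⟨x, hx, hxy⟩ := digits hρ hρ1 h0 hstep k y hy0 hy1
      exact ⟨x, hx, by linarith⟩
    choose! x hx hxd using hd
    have hfl : (⌊1 / (8 * ρ)⌋₊ : ℝ) ≤ 1 / (8 * ρ) := Nat.floor_le (by positivity)
    have hin : ∀ j : ℕ, j ∈ Finset.range (⌊1 / (8 * ρ)⌋₊ + 1) →
        0 ≤ 8 * ρ * j ∧ 8 * ρ * j ≤ 1 := by
      intro j hj
      rw [Finset.mem_range] at hj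
      have h1 : (j : ℝ) ≤ ⌊1 / (8 * ρ)⌋₊ := by exact_mod_cast Nat.lt_succ_iff.1 hj
      refine ⟨by positivity, ?_⟩
      have h2 : (j : ℝ) ≤ 1 / (8 * ρ) := h1.trans hfl
      rw [le_div_iff₀ (by positivity)] at h2
      linarith
    have hsep : ∀ i ∈ Finset.range (⌊1 / (8 * ρ)⌋₊ + 1), ∀ j ∈ Finset.range (⌊1 / (8 * ρ)⌋₊ + 1),
        i ≠ j → 2 * ρ ≤ |x (8 * ρ * i) - x (8 * ρ * j)| := by
      have key : ∀ i ∈ Finset.range (⌊1 / (8 * ρ)⌋₊ + 1),
          ∀ j ∈ Finset.range (⌊1 / (8 * ρ)⌋₊ + 1),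
          i < j → 2 * ρ ≤ |x (8 * ρ * i) - x (8 * ρ * j)| := by
        intro i hi j hj hij
        have h1 := abs_le.1 (hxd _ (hin i hi).1 (hin i hi).2)
        have h2 := abs_le.1 (hxd _ (hin j hj).1 (hin j hj).2)
        have h3 : (i : ℝ) + 1 ≤ j := by exact_mod_cast hij
        have h4 : 8 * ρ * i + 8 * ρ ≤ 8 * ρ * j := by nlinarith
        rw [abs_sub_comm]
        refine le_trans ?_ (le_abs_self _)
        linarith [h1.2, h2.1]
      intro i hi j hj hij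
      rcases Nat.lt_or_ge i j with h1 | h1
      · exact key i hi j hj h1
      · rw [abs_sub_comm]
        exact key j hj i hi (lt_of_le_of_ne h1 (Ne.symm hij))
    refine ⟨(Finset.range (⌊1 / (8 * ρ)⌋₊ + 1)).image (fun j : ℕ => x (8 * ρ * j)), ?_, ?_, ?_⟩
    · intro u hu
      obtain ⟨j, hj, rfl⟩ := Finset.mem_image.1 hu
      exact hx _ (hin j hj).1 (hin j hj).2
    · intro u hu v hv huv
      obtain ⟨i, hi, rfl⟩ := Finset.mem_image.1 hu
      obtain ⟨j, hj, rfl⟩ := Finset.mem_image.1 hv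
      have hij : i ≠ j := by
        rintro rfl
        exact huv rfl
      have := hsep i hi j hj hij
      linarith
    · rw [Finset.card_image_of_injOn]
      · rw [Finset.card_range]
        push_cast
        exact (Nat.lt_floor_add_one _).le
      · intro i hi j hj hij
        by_contra hne
        have := hsep i hi j hj hne
        simp only at hij
        rw [hij, sub_self, abs_zero] at this
        linarith
  · left
    push Not at hstep
    obtain ⟨x, hx, hx3, b, hb, h⟩ := hstep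
    exact ⟨x, hx, hx3, b, hb, h⟩

end Vale.Agent.P065.UB.H196
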