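import Vale.Agent.P065.UB.H196.Pk

/-!
# P065, upper bound: the end theorem, part A (helper196)
-/

set_option autoImplicit false

namespace Vale.Agent.P065.UB.H196

open Finset
open scoped Pointwise
open Vale.Agent.P118.OF (Cov Sep)
open Vale.Agent.P065.H196 (MaxSep)

/-- basic data -/
structure EB (K δ n : ℝ) (X A : Finset ℝ) : Prop where
  hK : 100 ≤ K
  hδ : 0 < δ
  hn : 0 < n
  sepX : ∀ u ∈ X, ∀ v ∈ X, u ≠ v → δ ≤ |u - v|
  boxX : ∀ x ∈ X, |x| ≤ K
  cardX : n ≤ K * #X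
  neA : A.Nonempty
  absA : ∀ a ∈ A, 1 ≤ K * |a| ∧ |a| ≤ K
  cov : ∀ a ∈ A, ∀ b ∈ A, Cov δ (K * n) {z : ℝ | ∃ x ∈ X, ∃ y ∈ X, z = a * x - b * y}

/-- the fullest ball -/
lemma fullest {X : Finset ℝ} (hX : X.Nonempty) {t : ℝ} (ht : 0 < t) :
    ∃ c, #X ≤ #(X.filter (fun y => |y - c| ≤ t)) * pk X t := by
  classical
  obtain ⟨P, hP, hPc⟩ := pk_spec X ht
  have hPne : P.Nonempty := by
    obtain ⟨x, hx⟩ := hX
    obtain ⟨w, hw, -⟩ := hP.2.2 x hx
    exact ⟨w, hw⟩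
  obtain ⟨c, hc, hmax⟩ := P.exists_max_image (fun c => #(X.filter (fun y => |y - c| ≤ t))) hPne
  refine ⟨c, ?_⟩
  have h1 : X ⊆ P.biUnion (fun c => X.filter (fun y => |y - c| ≤ t)) := by
    intro x hx
    obtain ⟨w, hw, hxw⟩ := hP.2.2 x hx
    exact Finset.mem_biUnion.2 ⟨w, hw, Finset.mem_filter.2 ⟨hx, hxw.le⟩⟩
  calc #X ≤ ∑ c ∈ P, #(X.filter (fun y => |y - c| ≤ t)) :=
        (Finset.card_le_card h1).trans Finset.card_biUnion_le
    _ ≤ ∑ _c' ∈ P, #(X.filter (fun y => |y - c| ≤ t)) := Finset.sum_le_sum fun c' hc' => hmax c' hc'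
    _ = _ := by rw [Finset.sum_const, smul_eq_mul, hPc, mul_comm]

lemma pk_le_card (S : Finset ℝ) {t : ℝ} (ht : 0 < t) : pk S t ≤ #S := by
  obtain ⟨P, hP, hPc⟩ := pk_spec S ht
  rw [← hPc]
  exact Finset.card_le_card hP.1

namespace EB

variable {K δ n : ℝ} {X A : Finset ℝ}

lemma K1 (h : EB K δ n X A) : 1 ≤ K := by linarith [h.hK]

lemma K0 (h : EB K δ n X A) : 0 < K := by linarith [h.hK]

lemma pw (h : EB K δ n X A) {i j : ℕ} (hij : i ≤ j) : K ^ i ≤ K ^ j := pow_le_pow_right₀ h.K1 hij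

lemma a0 (h : EB K δ n X A) {a : ℝ} (ha : a ∈ A) : a ≠ 0 := by
  rintro rfl
  have := (h.absA 0 ha).1
  rw [abs_zero, mul_zero] at this
  linarith

lemma inv_le (h : EB K δ n X A) {a : ℝ} (ha : a ∈ A) : 1 / K ≤ |a| := by
  rw [div_le_iff₀ h.K0]
  have := (h.absA a ha).1
  linarith

lemma cpos (h : EB K δ n X A) : (0 : ℝ) < #X := by
  by_contra hcon
  have h1 : (#X : ℝ) = 0 := le_antisymm (not_lt.1 hcon) (Nat.cast_nonneg _)
  have h2 := h.cardX
  rw [h1, mul_zero] at h2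
  linarith [h.hn]

lemma ne (h : EB K δ n X A) : X.Nonempty := by
  have := h.cpos
  exact Finset.card_pos.1 (by exact_mod_cast this)

lemma pkpos (h : EB K δ n X A) (t : ℝ) : (0 : ℝ) < pk X t := by
  exact_mod_cast pk_pos h.ne t

/-- separated sets of values -/
lemma vals (h : EB K δ n X A) {a b : ℝ} (ha : a ∈ A) (hb : b ∈ A) {D : Finset ℝ}
    (hD : ∀ u ∈ D, ∀ v ∈ D, u ≠ v → δ / K ≤ |u - v|)
    (hv : ∀ d ∈ D, ∃ x ∈ X, ∃ y ∈ X, d = a * x - b * y) : (#D : ℝ) ≤ K ^ 3 * n := by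
  have hK0 := h.K0
  have hK := h.hK
  have hδ := h.hδ
  have hn := h.hn
  obtain ⟨C, hC, hC'⟩ := h.cov a ha b hb
  have h1 := sep_cover (U := D) (C := C) (s := δ / K) (R := δ) (by positivity) hδ.le hD (by
    intro d hd
    obtain ⟨x, hx, y, hy, rfl⟩ := hv d hd
    obtain ⟨c, hc, hcd⟩ := hC' (a * x - b * y) ⟨x, hx, y, hy, rfl⟩
    rw [Real.dist_eq] at hcd
    exact ⟨c, hc, hcd⟩)
  have h2 : 2 * δ / (δ / K) + 1 = 2 * K + 1 := by field_simp
  rw [h2] at h1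
  calc (#D : ℝ) ≤ (2 * K + 1) * #C := h1
    _ ≤ K ^ 2 * (K * n) := by
        gcongr
        nlinarith
    _ = _ := by ring

lemma cardle (h : EB K δ n X A) : (#X : ℝ) ≤ K ^ 3 * n := by
  classical
  obtain ⟨a, ha⟩ := h.neA
  obtain ⟨x₀, hx₀⟩ := h.ne
  have hinj : Function.Injective (fun x : ℝ => a * x - a * x₀) := by
    intro x y hxy
    have : a * x - a * x₀ = a * y - a * x₀ := hxy
    have h0 := h.a0 ha
    have h1 : a * x = a * y := by linarith
    exact mul_left_cancel₀ h0 h1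
  rw [← Finset.card_image_of_injective X hinj]
  refine h.vals ha ha ?_ ?_
  · intro u hu v hv huv
    obtain ⟨x, hx, rfl⟩ := Finset.mem_image.1 hu
    obtain ⟨y, hy, rfl⟩ := Finset.mem_image.1 hv
    have hxy : x ≠ y := by
      rintro rfl
      exact huv rfl
    have e1 : a * x - a * x₀ - (a * y - a * x₀) = a * (x - y) := by ring
    rw [e1, abs_mul]
    have e2 := h.sepX x hx y hy hxy
    have e3 := h.inv_le ha
    have hδ := h.hδ
    have hK0 := h.K0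
    calc δ / K = 1 / K * δ := by ring
      _ ≤ |a| * |x - y| := by gcongr
  · intro d hd
    obtain ⟨x, hx, rfl⟩ := Finset.mem_image.1 hd
    exact ⟨x, hx, x₀, hx₀, rfl⟩

/-- (C1) -/
lemma c1 (h : EB K δ n X A) {t : ℝ} (ht : δ ≤ t) (x₀ : ℝ) :
    (#(X.filter (fun y => |y - x₀| ≤ K * t)) : ℝ) * pk X t ≤ K ^ 5 * n := by
  classical
  have hK0 := h.K0
  have hK := h.hK
  have hδ := h.hδ
  have ht0 : 0 < t := by linarith
  obtain ⟨a, ha⟩ := h.neA
  have ha1 := h.inv_le ha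
  have hapos : 0 < |a| := abs_pos.2 (h.a0 ha)
  obtain ⟨P, hP, hPc⟩ := pk_spec X (t := 5 * K * t) (by positivity)
  set Xt := X.filter (fun y => |y - x₀| ≤ K * t) with hXt
  have key : ∀ x ∈ Xt, ∀ x' ∈ Xt, ∀ p ∈ P, ∀ p' ∈ P, (x, p) ≠ (x', p') →
      δ / K ≤ |(a * x - a * p) - (a * x' - a * p')| := by
    intro x hx x' hx' p hp p' hp' hne
    rw [hXt, Finset.mem_filter] at hx hx'
    have e1 : (a * x - a * p) - (a * x' - a * p') = a * ((x - x') - (p - p')) := by ring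
    rw [e1, abs_mul]
    by_cases hpp : p = p'
    · have hxx : x ≠ x' := by
        rintro rfl
        exact hne (by rw [hpp])
      have e2 := h.sepX x hx.1 x' hx'.1 hxx
      rw [hpp, sub_self, sub_zero]
      calc δ / K = 1 / K * δ := by ring
        _ ≤ |a| * |x - x'| := by gcongr
    · have e2 := hP.2.1 p hp p' hp' hpp
      have e3 := abs_le.1 hx.2
      have e4 := abs_le.1 hx'.2
      have e5 : |x - x'| ≤ 2 * (K * t) := by
        rw [abs_le]
        constructor <;> linarith [e3.1, e3.2, e4.1, e4.2]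
      have e6 : |p - p'| ≤ |(x - x') - (p - p')| + |x - x'| := by
        have := abs_sub_abs_le_abs_sub (p - p') (x - x')
        rw [abs_sub_comm (p - p') (x - x')] at this
        linarith
      have e7 : t ≤ |(x - x') - (p - p')| := by nlinarith
      calc δ / K = 1 / K * δ := by ring
        _ ≤ |a| * |(x - x') - (p - p')| := by
            gcongr
            exact ht.trans e7
  set φ : ℝ × ℝ → ℝ := fun p => a * p.1 - a * p.2 with hφ
  have hinj : Set.InjOn φ (Xt ×ˢ P : Finset (ℝ × ℝ)) := by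
    intro p hp' p' hp'' hpp
    by_contra hne
    rw [Finset.mem_coe, Finset.mem_product] at hp' hp''
    have := key p.1 hp'.1 p'.1 hp''.1 p.2 hp'.2 p'.2 hp''.2 hne
    simp only [hφ] at hpp
    rw [hpp, sub_self, abs_zero] at this
    have : 0 < δ / K := by positivity
    linarith
  have h1 := h.vals ha ha (D := (Xt ×ˢ P).image φ) (by
    intro u hu v hv huv
    obtain ⟨p, hp, rfl⟩ := Finset.mem_image.1 hu
    obtain ⟨p', hp', rfl⟩ := Finset.mem_image.1 hv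
    rw [Finset.mem_product] at hp hp'
    refine key p.1 hp.1 p'.1 hp'.1 p.2 hp.2 p'.2 hp'.2 ?_
    intro hpp
    apply huv
    have : p = p' := hpp
    rw [this]) (by
    intro d hd
    obtain ⟨p, hp, rfl⟩ := Finset.mem_image.1 hd
    rw [Finset.mem_product] at hp
    exact ⟨p.1, (Finset.mem_filter.1 hp.1).1, p.2, hP.1 hp.2, rfl⟩)
  rw [Finset.card_image_of_injOn hinj, Finset.card_product] at h1
  push_cast at h1
  have h2 := pk_dil X (t := t) (c := 5 * K) ht0 (by positivity)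
  rw [← hPc] at h2
  have hn := h.hn
  calc (#Xt : ℝ) * pk X t ≤ #Xt * ((2 * (5 * K) + 1) * #P) := by gcongr
    _ ≤ #Xt * (K ^ 2 * #P) := by
        gcongr
        nlinarith
    _ = K ^ 2 * (#Xt * #P) := by ring
    _ ≤ K ^ 2 * (K ^ 3 * n) := by gcongr
    _ = _ := by ring

lemma c1' (h : EB K δ n X A) {t : ℝ} (ht : δ ≤ t) {T : ℝ} (hT : T ≤ K * t) (x₀ : ℝ) :
    ∑ y ∈ X, (if |y - x₀| ≤ T then (1 : ℝ) else 0) ≤ K ^ 5 * n / pk X t := by
  classical
  rw [le_div_iff₀ (h.pkpos t)]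
  refine le_trans ?_ (h.c1 ht x₀)
  gcongr
  rw [Finset.card_filter]
  push_cast
  refine Finset.sum_le_sum fun y _ => ?_
  by_cases hc : |y - x₀| ≤ T
  · rw [if_pos hc, if_pos (hc.trans hT)]
  · rw [if_neg hc]
    split_ifs <;> norm_num

/-- action on the rounded set -/
lemma act (h : EB K δ n X A) {a a₀ : ℝ} (ha : a ∈ A) (ha0 : a₀ ∈ A) :
    (#((hat X a₀ δ).image (fl (a / a₀)) - hat X a₀ δ) : ℝ) ≤ K ^ 4 * n := by
  classical
  have hK := h.hK
  have hK0 : 0 < K := h.K0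
  have hδ0 := h.hδ
  have hn := h.hn
  have hK1 : 1 ≤ K := h.K1
  obtain ⟨C, hC, hC'⟩ := h.cov a ha a₀ ha0
  have ha01 := h.absA a₀ ha0
  have ha0ne : a₀ ≠ 0 := h.a0 ha0
  have habs : |a / a₀| ≤ K ^ 2 := by
    rw [abs_div, div_le_iff₀ (abs_pos.2 ha0ne)]
    calc |a| ≤ K := (h.absA a ha).2
      _ = K * 1 := (mul_one _).symm
      _ ≤ K * (K * |a₀|) := by
          gcongr
          exact ha01.1
      _ = _ := by ring
  have h1 := near_ints (S := (hat X a₀ δ).image (fl (a / a₀)) - hat X a₀ δ)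
    (C := C.image (fun c => c / δ)) (B := K ^ 2 + 3) (by positivity) (by
    intro m hm
    obtain ⟨u, hu, v, hv, rfl⟩ := Finset.mem_sub.1 hm
    obtain ⟨w, hw, rfl⟩ := Finset.mem_image.1 hu
    obtain ⟨x, hx, rfl⟩ := Finset.mem_image.1 hw
    obtain ⟨y, hy, rfl⟩ := Finset.mem_image.1 hv
    obtain ⟨c, hc, hcd⟩ := hC' (a * x - a₀ * y) ⟨x, hx, y, hy, rfl⟩
    refine ⟨c / δ, Finset.mem_image_of_mem _ hc, ?_⟩
    rw [Real.dist_eq] at hcd
    have e1 : |(a * x - a₀ * y) / δ - c / δ| ≤ 1 := by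
      rw [← sub_div, abs_div, abs_of_pos hδ0, div_le_one hδ0]
      exact hcd
    have e2 := fl_le (a / a₀) ⌊a₀ * x / δ⌋
    have e3 := lt_fl (a / a₀) ⌊a₀ * x / δ⌋
    have e4 := Int.floor_le (a₀ * y / δ)
    have e5 := Int.lt_floor_add_one (a₀ * y / δ)
    have e6 := Int.floor_le (a₀ * x / δ)
    have e7 := Int.lt_floor_add_one (a₀ * x / δ)
    have e8 : |a / a₀ * (a₀ * x / δ - ⌊a₀ * x / δ⌋)| ≤ K ^ 2 := by
      rw [abs_mul]
      calc |a / a₀| * |a₀ * x / δ - ⌊a₀ * x / δ⌋| ≤ K ^ 2 * 1 := by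
            gcongr
            rw [abs_le]
            constructor <;> linarith
        _ = _ := mul_one _
    have e9 : a / a₀ * (a₀ * x / δ - ⌊a₀ * x / δ⌋) = a * x / δ - a / a₀ * ⌊a₀ * x / δ⌋ := by
      field_simp
    rw [e9] at e8
    have e1' := abs_le.1 e1
    have e8' := abs_le.1 e8
    have e10 : (a * x - a₀ * y) / δ = a * x / δ - a₀ * y / δ := sub_div _ _ _
    rw [e10] at e1'
    push_cast
    rw [abs_le]
    constructor <;> linarith [e1'.1, e1'.2, e8'.1, e8'.2])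
  have h2 : (#(C.image (fun c => c / δ)) : ℝ) ≤ K * n := by
    have : (#(C.image (fun c => c / δ)) : ℝ) ≤ #C := by exact_mod_cast Finset.card_image_le
    exact this.trans hC
  have hB : 2 * (K ^ 2 + 3) + 1 ≤ K ^ 3 := by nlinarith [mul_pos hK0 hK0]
  calc _ ≤ (2 * (K ^ 2 + 3) + 1) * (#(C.image (fun c => c / δ)) : ℝ) := h1
    _ ≤ K ^ 3 * (K * n) := by gcongr
    _ = _ := by ring

lemma hat_card (h : EB K δ n X A) {a₀ : ℝ} (ha0 : a₀ ∈ A) :
    (#X : ℝ) ≤ K ^ 2 * #(hat X a₀ δ) := by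
  classical
  have hK := h.hK
  have hK0 := h.K0
  have hδ0 := h.hδ
  have ha01 := h.absA a₀ ha0
  have hfib : ∀ k ∈ hat X a₀ δ, (#(X.filter (fun x => ⌊a₀ * x / δ⌋ = k)) : ℝ) ≤ K ^ 2 := by
    intro k hk
    obtain ⟨x0, hx0, hx0k⟩ := Finset.mem_image.1 hk
    have h1 := sep_card (U := X.filter (fun x => ⌊a₀ * x / δ⌋ = k)) (s := δ) (R := K * δ) (c := x0)
      hδ0 (by positivity) (by
        intro u hu v hv huv
        exact h.sepX u (Finset.mem_filter.1 hu).1 v (Finset.mem_filter.1 hv).1 huv) (by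
        intro x hx
        rw [Finset.mem_filter] at hx
        have e1 := Int.abs_sub_lt_one_of_floor_eq_floor (hx.2.trans hx0k.symm)
        rw [← sub_div, abs_div, abs_of_pos hδ0, div_lt_one hδ0, ← mul_sub, abs_mul] at e1
        calc |x - x0| = 1 * |x - x0| := (one_mul _).symm
          _ ≤ (K * |a₀|) * |x - x0| := by
              gcongr
              exact ha01.1
          _ = K * (|a₀| * |x - x0|) := by ring
          _ ≤ K * δ := by gcongr)
    have h2 : 2 * (K * δ) / δ + 1 = 2 * K + 1 := by field_simp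
    rw [h2] at h1
    nlinarith
  have e1 := Finset.card_eq_sum_card_image (fun x => ⌊a₀ * x / δ⌋) X
  calc (#X : ℝ) = ((∑ k ∈ hat X a₀ δ, #(X.filter (fun x => ⌊a₀ * x / δ⌋ = k)) : ℕ) : ℝ) := by
        exact_mod_cast e1
    _ = ∑ k ∈ hat X a₀ δ, (#(X.filter (fun x => ⌊a₀ * x / δ⌋ = k)) : ℝ) := by push_cast; rfl
    _ ≤ ∑ k ∈ hat X a₀ δ, K ^ 2 := Finset.sum_le_sum hfib
    _ = _ := by simp; ring

lemma hat_ne (h : EB K δ n X A) (a₀ : ℝ) : (hat X a₀ δ).Nonempty := h.ne.image _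

lemma hat_diff (h : EB K δ n X A) {a₀ : ℝ} (ha0 : a₀ ∈ A) :
    (#(hat X a₀ δ - hat X a₀ δ) : ℝ) ≤ K ^ 7 * #(hat X a₀ δ) := by
  have h1 := h.act ha0 ha0
  rw [div_self (h.a0 ha0), fl_one] at h1
  have hK0 := h.K0
  calc (#(hat X a₀ δ - hat X a₀ δ) : ℝ) ≤ K ^ 4 * n := h1
    _ ≤ K ^ 4 * (K * (K ^ 2 * #(hat X a₀ δ))) := by
        gcongr
        refine h.cardX.trans ?_
        gcongr
        exact h.hat_card ha0
    _ = _ := by ring

lemma hat_sc (h : EB K δ n X A) {a a₀ : ℝ} (ha : a ∈ A) (ha0 : a₀ ∈ A) :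
    Sc (hat X a₀ δ) (K ^ 7) (a / a₀) := by
  refine Sc.of_sub (h.hat_ne a₀) ?_
  have hK0 := h.K0
  calc _ ≤ K ^ 4 * n := h.act ha ha0
    _ ≤ K ^ 4 * (K * (K ^ 2 * #(hat X a₀ δ))) := by
        gcongr
        refine h.cardX.trans ?_
        gcongr
        exact h.hat_card ha0
    _ = _ := by ring

/-- triple sums -/
lemma triple (h : EB K δ n X A) {a a₀ : ℝ} (ha : a ∈ A) (ha0 : a₀ ∈ A) :
    (#((hat X a₀ δ + hat X a₀ δ) - (hat X a₀ δ).image (fl (a / a₀))) : ℝ) ≤ K ^ 38 * n := by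
  classical
  obtain ⟨F, hF, hF'⟩ := h.hat_sc ha ha0
  have hK0 := h.K0
  set H := hat X a₀ δ with hH
  have hsub : (H + H) - H.image (fl (a / a₀)) ⊆ (-F) + (3 • H - 1 • H) := by
    intro m hm
    obtain ⟨u, hu, v, hv, rfl⟩ := Finset.mem_sub.1 hm
    obtain ⟨m1, hm1, m2, hm2, rfl⟩ := Finset.mem_add.1 hu
    obtain ⟨w, hw, rfl⟩ := Finset.mem_image.1 hv
    obtain ⟨f, hf, s, hs, h1⟩ := Finset.mem_add.1 (hF' w hw)
    obtain ⟨x, hx, y, hy, rfl⟩ := Finset.mem_sub.1 hs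
    rw [Finset.mem_add]
    refine ⟨-f, Finset.neg_mem_neg hf, (m1 + m2 + y) - x, ?_, ?_⟩
    · rw [Finset.mem_sub]
      refine ⟨m1 + m2 + y, ?_, x, by simpa using hx, rfl⟩
      have : 3 • H = H + H + H := by rw [succ_nsmul, two_nsmul]
      rw [this]
      exact Finset.add_mem_add (Finset.add_mem_add hm1 hm2) hy
    · rw [← h1]
      ring
  have h1 := Finset.card_le_card hsub
  have h2 := Finset.card_add_le (s := -F) (t := 3 • H - 1 • H)
  rw [Finset.card_neg] at h2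
  have h3 := plu (h.hat_ne a₀) (h.hat_diff ha0) 3 1
  have h4 : (#H : ℝ) ≤ K ^ 3 * n := by
    refine le_trans ?_ h.cardle
    exact_mod_cast Finset.card_image_le
  calc (#((H + H) - H.image (fl (a / a₀))) : ℝ) ≤ #F * #(3 • H - 1 • H) := by
        exact_mod_cast h1.trans h2
    _ ≤ K ^ 7 * ((K ^ 7) ^ (3 + 1) * #H) := by gcongr
    _ ≤ K ^ 7 * ((K ^ 7) ^ (3 + 1) * (K ^ 3 * n)) := by gcongr
    _ = _ := by ring

/-- number of cells of size `ρ` met by `a₀ X - a X` -/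
lemma cells (h : EB K δ n X A) {a a₀ : ℝ} (ha : a ∈ A) (ha0 : a₀ ∈ A) {ρ : ℝ} (hρ : δ ≤ ρ) :
    (#((X ×ˢ X).image (fun p : ℝ × ℝ => ⌊(a₀ * p.1 - a * p.2) / ρ⌋)) : ℝ) ≤ K ^ 45 * pk X ρ := by
  classical
  have hK0 := h.K0
  have hK := h.hK
  have hδ := h.hδ
  have hn := h.hn
  have hρ0 : 0 < ρ := by linarith
  have ha01 := h.absA a₀ ha0
  have ha1 := h.inv_le ha0
  have ha0ne := h.a0 ha0
  set V := (X ×ˢ X).image (fun p : ℝ × ℝ => a₀ * p.1 - a * p.2) with hV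
  obtain ⟨P, hP, -⟩ := pk_spec V (t := 3 * K * ρ) (by positivity)
  obtain ⟨c, hc⟩ := fullest h.ne hρ0
  set J := X.filter (fun y => |y - c| ≤ ρ) with hJ
  -- number of cells
  have hT := near_ints (S := (X ×ˢ X).image (fun p : ℝ × ℝ => ⌊(a₀ * p.1 - a * p.2) / ρ⌋))
    (C := P.image (fun v => v / ρ)) (B := 3 * K + 1) (by positivity) (by
      intro m hm
      obtain ⟨p, hp, rfl⟩ := Finset.mem_image.1 hm
      obtain ⟨v, hv, hpv⟩ := hP.2.2 (a₀ * p.1 - a * p.2)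
        (Finset.mem_image.2 ⟨p, hp, rfl⟩)
      refine ⟨v / ρ, Finset.mem_image_of_mem _ hv, ?_⟩
      have e1 : |(a₀ * p.1 - a * p.2) / ρ - v / ρ| ≤ 3 * K := by
        rw [← sub_div, abs_div, abs_of_pos hρ0, div_le_iff₀ hρ0]
        exact hpv.le
      have e2 := Int.floor_le ((a₀ * p.1 - a * p.2) / ρ)
      have e3 := Int.lt_floor_add_one ((a₀ * p.1 - a * p.2) / ρ)
      have e4 := abs_le.1 e1
      rw [abs_le]
      constructor <;> linarith [e4.1, e4.2])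
  have hT2 : (#(P.image (fun v => v / ρ)) : ℝ) ≤ #P := by exact_mod_cast Finset.card_image_le
  -- the big separated set
  have key : ∀ v ∈ P, ∀ v' ∈ P, ∀ x ∈ J, ∀ x' ∈ J, (v, x) ≠ (v', x') →
      δ / K ≤ |(v + a₀ * x) - (v' + a₀ * x')| := by
    intro v hv v' hv' x hx x' hx' hne
    rw [hJ, Finset.mem_filter] at hx hx'
    by_cases hvv : v = v'
    · have hxx : x ≠ x' := by
        rintro rfl
        exact hne (by rw [hvv])
      have e1 : (v + a₀ * x) - (v' + a₀ * x') = a₀ * (x - x') := by rw [hvv]; ring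
      rw [e1, abs_mul]
      have e2 := h.sepX x hx.1 x' hx'.1 hxx
      calc δ / K = 1 / K * δ := by ring
        _ ≤ |a₀| * |x - x'| := by gcongr
    · have e1 := hP.2.1 v hv v' hv' hvv
      have e3 := abs_le.1 hx.2
      have e4 := abs_le.1 hx'.2
      have e5 : |x - x'| ≤ 2 * ρ := by
        rw [abs_le]
        constructor <;> linarith [e3.1, e3.2, e4.1, e4.2]
      have e6 : |a₀ * (x - x')| ≤ K * (2 * ρ) := by
        rw [abs_mul]
        have := ha01.2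
        gcongr
      have e7 : v - v' = ((v + a₀ * x) - (v' + a₀ * x')) - a₀ * (x - x') := by ring
      rw [e7] at e1
      have e8 := abs_sub ((v + a₀ * x) - (v' + a₀ * x')) (a₀ * (x - x'))
      have e9 : K * ρ ≤ |(v + a₀ * x) - (v' + a₀ * x')| := by nlinarith
      refine le_trans ?_ e9
      calc δ / K ≤ δ / 1 := by
            gcongr
            linarith
        _ = δ := div_one _
        _ ≤ ρ := hρ
        _ = 1 * ρ := (one_mul _).symm
        _ ≤ K * ρ := by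
            gcongr
            linarith
  set φ : ℝ × ℝ → ℝ := fun p => p.1 + a₀ * p.2 with hφ
  have hinj : Set.InjOn φ (P ×ˢ J : Finset (ℝ × ℝ)) := by
    intro p hp' p' hp'' hpp
    by_contra hne
    rw [Finset.mem_coe, Finset.mem_product] at hp' hp''
    have := key p.1 hp'.1 p'.1 hp''.1 p.2 hp'.2 p'.2 hp''.2 hne
    simp only [hφ] at hpp
    rw [hpp, sub_self, abs_zero] at this
    have : 0 < δ / K := by positivity
    linarith
  have hD := sep_cover (U := (P ×ˢ J).image φ)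
    (C := ((hat X a₀ δ + hat X a₀ δ) - (hat X a₀ δ).image (fl (a / a₀))).image
      (fun g : ℤ => δ * (g : ℝ))) (s := δ / K) (R := (K ^ 2 + 4) * δ) (by positivity)
    (by positivity) (by
      intro u hu v hv huv
      obtain ⟨p, hp, rfl⟩ := Finset.mem_image.1 hu
      obtain ⟨p', hp', rfl⟩ := Finset.mem_image.1 hv
      rw [Finset.mem_product] at hp hp'
      refine key p.1 hp.1 p'.1 hp'.1 p.2 hp.2 p'.2 hp'.2 ?_
      intro hpp
      apply huv
      have : p = p' := hpp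
      rw [this]) (by
      intro d hd
      obtain ⟨p, hp, rfl⟩ := Finset.mem_image.1 hd
      rw [Finset.mem_product] at hp
      have hx2 : p.2 ∈ X := (Finset.mem_filter.1 hp.2).1
      obtain ⟨p1, hp1, hp1e⟩ := Finset.mem_image.1 (hP.1 hp.1)
      rw [Finset.mem_product] at hp1
      have habs : |a / a₀| ≤ K ^ 2 := by
        rw [abs_div, div_le_iff₀ (abs_pos.2 ha0ne)]
        calc |a| ≤ K := (h.absA a ha).2
          _ = K * 1 := (mul_one _).symm
          _ ≤ K * (K * |a₀|) := by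
              gcongr
              exact ha01.1
          _ = _ := by ring
      refine ⟨δ * (((⌊a₀ * p1.1 / δ⌋ + ⌊a₀ * p.2 / δ⌋) - fl (a / a₀) ⌊a₀ * p1.2 / δ⌋ : ℤ) : ℝ),
        Finset.mem_image.2 ⟨_, Finset.sub_mem_sub (Finset.add_mem_add
          (Finset.mem_image.2 ⟨p1.1, hp1.1, rfl⟩) (Finset.mem_image.2 ⟨p.2, hx2, rfl⟩))
          (Finset.mem_image.2 ⟨_, Finset.mem_image.2 ⟨p1.2, hp1.2, rfl⟩, rfl⟩), rfl⟩, ?_⟩
      have e2 := fl_le (a / a₀) ⌊a₀ * p1.2 / δ⌋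
      have e3 := lt_fl (a / a₀) ⌊a₀ * p1.2 / δ⌋
      have e4 := Int.floor_le (a₀ * p1.1 / δ)
      have e5 := Int.lt_floor_add_one (a₀ * p1.1 / δ)
      have e6 := Int.floor_le (a₀ * p1.2 / δ)
      have e7 := Int.lt_floor_add_one (a₀ * p1.2 / δ)
      have e4' := Int.floor_le (a₀ * p.2 / δ)
      have e5' := Int.lt_floor_add_one (a₀ * p.2 / δ)
      have e8 : |a / a₀ * (a₀ * p1.2 / δ - ⌊a₀ * p1.2 / δ⌋)| ≤ K ^ 2 := by
        rw [abs_mul]
        calc |a / a₀| * |a₀ * p1.2 / δ - ⌊a₀ * p1.2 / δ⌋| ≤ K ^ 2 * 1 := by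
              gcongr
              rw [abs_le]
              constructor <;> linarith
          _ = _ := mul_one _
      have e9 : a / a₀ * (a₀ * p1.2 / δ - ⌊a₀ * p1.2 / δ⌋)
          = a * p1.2 / δ - a / a₀ * ⌊a₀ * p1.2 / δ⌋ := by
        field_simp
      rw [e9] at e8
      have e8' := abs_le.1 e8
      have e10 : φ p = δ * (a₀ * p1.1 / δ - a * p1.2 / δ + a₀ * p.2 / δ) := by
        simp only [hφ]
        rw [← hp1e]
        field_simp
      rw [e10, ← mul_sub, abs_mul, abs_of_pos hδ, mul_comm]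
      gcongr
      push_cast
      rw [abs_le]
      constructor <;> linarith [e8'.1, e8'.2])
  rw [Finset.card_image_of_injOn hinj, Finset.card_product] at hD
  push_cast at hD
  have h38 := h.triple ha ha0
  have hcI : (#(((hat X a₀ δ + hat X a₀ δ) - (hat X a₀ δ).image (fl (a / a₀))).image
      (fun g : ℤ => δ * (g : ℝ))) : ℝ) ≤ K ^ 38 * n := by
    refine le_trans ?_ h38
    exact_mod_cast Finset.card_image_le
  have hcoef : 2 * ((K ^ 2 + 4) * δ) / (δ / K) + 1 ≤ K ^ 4 := by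
    have e1 : 2 * ((K ^ 2 + 4) * δ) / (δ / K) = 2 * (K ^ 2 + 4) * K := by field_simp
    rw [e1]
    have e2 : (100 : ℝ) ^ 2 ≤ K ^ 2 := by gcongr
    have e3 : 100 * K ^ 3 ≤ K ^ 4 := by
      calc 100 * K ^ 3 ≤ K * K ^ 3 := by gcongr
        _ = _ := by ring
    nlinarith [mul_pos hK0 (mul_pos hK0 hK0)]
  have hPJ : (#P : ℝ) * #J ≤ K ^ 42 * n := by
    calc (#P : ℝ) * #J ≤ (2 * ((K ^ 2 + 4) * δ) / (δ / K) + 1) * _ := hD
      _ ≤ K ^ 4 * (K ^ 38 * n) := by gcongr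
      _ = _ := by ring
  have hPfin : (#P : ℝ) ≤ K ^ 43 * pk X ρ := by
    have hc' : (#X : ℝ) ≤ #J * pk X ρ := by exact_mod_cast hc
    have e1 : n * #P ≤ n * (K ^ 43 * pk X ρ) := by
      calc n * #P ≤ (K * #X) * #P := by
            gcongr
            exact h.cardX
        _ ≤ (K * (#J * pk X ρ)) * #P := by gcongr
        _ = K * pk X ρ * (#P * #J) := by ring
        _ ≤ K * pk X ρ * (K ^ 42 * n) := by gcongr
        _ = _ := by ring
    exact le_of_mul_le_mul_left e1 hn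
  calc _ ≤ (2 * (3 * K + 1) + 1) * (#(P.image (fun v => v / ρ)) : ℝ) := hT
    _ ≤ K ^ 2 * (K ^ 43 * pk X ρ) := by
        have e1 : 2 * (3 * K + 1) + 1 ≤ K ^ 2 := by nlinarith
        have e2 := hT2.trans hPfin
        gcongr
    _ = _ := by ring

/-- energy of a pair of multipliers on a subset -/
lemma energy (h : EB K δ n X A) {a a₀ : ℝ} (ha : a ∈ A) (ha0 : a₀ ∈ A) {ρ : ℝ} (hρ : δ ≤ ρ)
    {Y : Finset ℝ} (hY : Y ⊆ X) :
    (#Y : ℝ) ^ 4 ≤ K ^ 45 * pk X ρ * ∑ p ∈ Y ×ˢ Y, ∑ q ∈ Y ×ˢ Y,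
      (if |(p.1 - q.1) + (-(a / a₀)) * (p.2 - q.2)| < K * ρ then (1 : ℝ) else 0) := by
  classical
  have hρ0 : 0 < ρ := by linarith [h.hδ]
  have hK0 := h.K0
  have ha01 := h.absA a₀ ha0
  have ha0ne := h.a0 ha0
  have h1 := cs (Y ×ˢ Y) (fun p : ℝ × ℝ => ⌊(a₀ * p.1 - a * p.2) / ρ⌋)
    ((X ×ˢ X).image (fun p : ℝ × ℝ => ⌊(a₀ * p.1 - a * p.2) / ρ⌋)) (by
      intro p hp
      exact Finset.mem_image_of_mem _ (Finset.product_subset_product hY hY hp))
  have h2 := h.cells ha ha0 hρ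
  have h3 : ∑ p ∈ Y ×ˢ Y, ∑ q ∈ Y ×ˢ Y,
      (if ⌊(a₀ * p.1 - a * p.2) / ρ⌋ = ⌊(a₀ * q.1 - a * q.2) / ρ⌋ then (1 : ℝ) else 0)
      ≤ ∑ p ∈ Y ×ˢ Y, ∑ q ∈ Y ×ˢ Y,
      (if |(p.1 - q.1) + (-(a / a₀)) * (p.2 - q.2)| < K * ρ then (1 : ℝ) else 0) := by
    refine Finset.sum_le_sum fun p _ => Finset.sum_le_sum fun q _ => ?_
    by_cases hc : ⌊(a₀ * p.1 - a * p.2) / ρ⌋ = ⌊(a₀ * q.1 - a * q.2) / ρ⌋
    · have e1 := Int.abs_sub_lt_one_of_floor_eq_floor hc
      rw [← sub_div, abs_div, abs_of_pos hρ0, div_lt_one hρ0] at e1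
      have e2 : (a₀ * p.1 - a * p.2) - (a₀ * q.1 - a * q.2)
          = a₀ * ((p.1 - q.1) + (-(a / a₀)) * (p.2 - q.2)) := by
        field_simp
        ring
      rw [e2, abs_mul] at e1
      have e3 : |(p.1 - q.1) + (-(a / a₀)) * (p.2 - q.2)| < K * ρ := by
        calc |(p.1 - q.1) + (-(a / a₀)) * (p.2 - q.2)|
            = 1 * |(p.1 - q.1) + (-(a / a₀)) * (p.2 - q.2)| := (one_mul _).symm
          _ ≤ (K * |a₀|) * |(p.1 - q.1) + (-(a / a₀)) * (p.2 - q.2)| := by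
              gcongr
              exact ha01.1
          _ = K * (|a₀| * |(p.1 - q.1) + (-(a / a₀)) * (p.2 - q.2)|) := by ring
          _ < K * ρ := by gcongr
      rw [if_pos e3]
      split_ifs <;> norm_num
    · rw [if_neg hc]
      split_ifs <;> norm_num
  have h4 : (#(Y ×ˢ Y) : ℝ) ^ 2 = (#Y : ℝ) ^ 4 := by
    rw [Finset.card_product]
    push_cast
    ring
  rw [h4] at h1
  refine h1.trans ?_
  refine mul_le_mul h2 h3 ?_ (by positivity)
  refine Finset.sum_nonneg fun p _ => Finset.sum_nonneg fun q _ => ?_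
  split_ifs <;> norm_num

end EB

end Vale.Agent.P065.UB.H196
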