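import Vale.Agent.P065.UB.H196.EndA

/-!
# P065, upper bound: the end theorem, part B (helper196)
-/

set_option autoImplicit false

namespace Vale.Agent.P065.UB.H196

open Finset
open Vale.Agent.P118.OF (Cov Sep)
open Vale.Agent.P065.H196 (MaxSep)

namespace EB

variable {K δ n : ℝ} {X A : Finset ℝ}

lemma neg_img {U : Finset ℝ} {a₀ : ℝ} (ha0 : a₀ ≠ 0) :
    #(U.image (fun a => -(a / a₀))) = #U := by
  classical
  refine Finset.card_image_of_injective _ ?_
  intro a b hab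
  have h1 : -(a / a₀) = -(b / a₀) := hab
  have h2 : a / a₀ = b / a₀ := neg_injective h1
  field_simp at h2
  exact h2

lemma neg_sep (h : EB K δ n X A) {a₀ : ℝ} (ha0 : a₀ ∈ A) {U : Finset ℝ} {s : ℝ}
    (hUs : ∀ u ∈ U, ∀ v ∈ U, u ≠ v → s ≤ |u - v|) [DecidableEq ℝ] :
    ∀ u ∈ U.image (fun a => -(a / a₀)), ∀ v ∈ U.image (fun a => -(a / a₀)), u ≠ v →
      s / K ≤ |u - v| := by
  intro u hu v hv huv
  obtain ⟨a, ha, rfl⟩ := Finset.mem_image.1 hu
  obtain ⟨b, hb, rfl⟩ := Finset.mem_image.1 hv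
  have hab : a ≠ b := by
    rintro rfl
    exact huv rfl
  have e1 := hUs a ha b hb hab
  have e2 : -(a / a₀) - -(b / a₀) = -((a - b) / a₀) := by ring
  rw [e2, abs_neg, abs_div]
  have hpos : 0 < |a₀| := abs_pos.2 (h.a0 ha0)
  have e3 := (h.absA a₀ ha0).2
  have hK0 := h.K0
  exact div_le_div₀ (abs_nonneg _) e1 hpos e3

/-- near pairs of `X` -/
lemma nearX (h : EB K δ n X A) {Y : Finset ℝ} (hY : Y ⊆ X) {r : ℝ} (hr : δ ≤ r) :
    ∑ b ∈ Y, ∑ b' ∈ Y, (if |b - b'| ≤ K ^ 2 * r then (1 : ℝ) else 0)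
      ≤ #Y * (K ^ 7 * n / pk X r) := by
  have hK0 := h.K0
  have hK := h.hK
  have hδ := h.hδ
  have hr0 : 0 < r := by linarith
  have hn := h.hn
  have hp1 := h.pkpos r
  have hp2 := h.pkpos (K * r)
  have hpk : (pk X r : ℝ) ≤ K ^ 2 * pk X (K * r) := by
    have := pk_dil X (t := r) (c := K) hr0 hK0
    refine this.trans ?_
    gcongr
    nlinarith
  have hone : ∀ b : ℝ, ∑ b' ∈ X, (if |b' - b| ≤ K ^ 2 * r then (1 : ℝ) else 0)
      ≤ K ^ 7 * n / pk X r := by
    intro b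
    have h1 := h.c1' (t := K * r) (T := K ^ 2 * r) (by nlinarith) (by apply le_of_eq; ring) b
    refine h1.trans ?_
    rw [div_le_div_iff₀ hp2 hp1]
    calc K ^ 5 * n * pk X r ≤ K ^ 5 * n * (K ^ 2 * pk X (K * r)) := by gcongr
      _ = _ := by ring
  calc ∑ b ∈ Y, ∑ b' ∈ Y, (if |b - b'| ≤ K ^ 2 * r then (1 : ℝ) else 0)
      ≤ ∑ b ∈ Y, K ^ 7 * n / pk X r := by
        refine Finset.sum_le_sum fun b _ => ?_
        refine le_trans ?_ (hone b)
        refine le_trans (le_of_eq ?_) (Finset.sum_le_sum_of_subset_of_nonneg hY ?_)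
        · refine Finset.sum_congr rfl fun b' _ => ?_
          rw [abs_sub_comm]
        · intro i _ _
          split_ifs <;> norm_num
    _ = _ := by rw [Finset.sum_const, nsmul_eq_mul]

/-- (C3) with the shift -/
lemma sepa (h : EB K δ n X A) {U : Finset ℝ} (hU : U ⊆ A) {s r : ℝ} (hs : 0 < s)
    (hUs : ∀ u ∈ U, ∀ v ∈ U, u ≠ v → s ≤ |u - v|) (hr : δ ≤ r) (hsr : δ ≤ s * r)
    (hN : K ^ 60 ≤ pk X r) : (#U : ℝ) ≤ K ^ 46 * pk X (s * r) := by
  classical
  have hK0 := h.K0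
  have hK := h.hK
  have hK1 := h.K1
  have hδ := h.hδ
  have hn := h.hn
  have hr0 : 0 < r := by linarith
  have hX := h.cpos
  have hρ0 : 0 < s * r := by positivity
  have hpρ := h.pkpos (s * r)
  have hpr := h.pkpos r
  obtain ⟨a₀, ha0⟩ := h.neA
  have hEpos : 0 < K ^ 45 * pk X (s * r) := by positivity
  have h1 := countR (A := X) (U := U.image (fun a => -(a / a₀))) (w := K * (s * r))
    (T := K ^ 2 * r) (s := s / K) (e := (#X : ℝ) ^ 4 / (K ^ 45 * pk X (s * r)))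
    (ν := #X * (K ^ 7 * n / pk X r)) (ω := K ^ 5 * n / pk X (s * r)) (ω' := #X)
    (u₀ := 0) (τ := K ^ 2) (D := 2 * K) (w' := K * (s * r) + K ^ 2 * (2 * K))
    (by positivity) (by positivity) (by positivity)
    (by
      have e1 : s / K * (K ^ 2 * r) = K * (s * r) := by field_simp
      rw [e1]
      nlinarith [mul_pos hK0 hρ0])
    (h.neg_sep ha0 hUs) (h.nearX (Finset.Subset.refl X) hr)
    (by
      intro x
      refine le_trans ?_ (h.c1' (t := s * r) (T := K * (s * r)) hsr (le_refl _) x)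
      refine Finset.sum_le_sum fun a _ => ?_
      by_cases hc : |a - x| < K * (s * r)
      · rw [if_pos hc, if_pos hc.le]
      · rw [if_neg hc]
        split_ifs <;> norm_num)
    (by
      intro u hu
      obtain ⟨a, ha, rfl⟩ := Finset.mem_image.1 hu
      rw [div_le_iff₀ hEpos]
      have := h.energy (hU ha) ha0 hsr (Finset.Subset.refl X)
      linarith)
    (by
      rw [div_div, le_div_iff₀ (by positivity)]
      have e1 : (#X : ℝ) * (#X * (K ^ 7 * n / pk X r)) * (K ^ 5 * n / pk X (s * r))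
          * (K ^ 45 * pk X (s * r) * 2) = 2 * K ^ 57 * n ^ 2 * (#X : ℝ) ^ 2 / pk X r := by
        field_simp
      rw [e1, div_le_iff₀ hpr]
      have hc := h.cardX
      calc 2 * K ^ 57 * n ^ 2 * (#X : ℝ) ^ 2 ≤ K * K ^ 57 * (K * #X) ^ 2 * (#X : ℝ) ^ 2 := by
            gcongr
            linarith
        _ = (#X : ℝ) ^ 4 * K ^ 60 := by ring
        _ ≤ (#X : ℝ) ^ 4 * pk X r := by gcongr)
    (by
      intro u hu
      obtain ⟨a, ha, rfl⟩ := Finset.mem_image.1 hu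
      rw [sub_zero, abs_neg, abs_div, div_le_iff₀ (abs_pos.2 (h.a0 ha0))]
      calc |a| ≤ K := (h.absA a (hU ha)).2
        _ = K * 1 := (mul_one _).symm
        _ ≤ K * (K * |a₀|) := by
            gcongr
            exact (h.absA a₀ ha0).1
        _ = _ := by ring)
    (by
      intro b hb b' hb'
      have e1 := abs_le.1 (h.boxX b hb)
      have e2 := abs_le.1 (h.boxX b' hb')
      rw [abs_le]
      constructor <;> linarith [e1.1, e1.2, e2.1, e2.2])
    (by positivity) (le_refl _)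
    (by
      intro x
      calc _ ≤ ∑ a ∈ X, (1 : ℝ) := by
            refine Finset.sum_le_sum fun a _ => ?_
            split_ifs <;> norm_num
        _ = _ := by simp)
  rw [neg_img (h.a0 ha0)] at h1
  have h2 : (#U : ℝ) * (#X : ℝ) ^ 4 ≤ (8 * (K ^ 45 * pk X (s * r))) * (#X : ℝ) ^ 4 := by
    have e1 : (#U : ℝ) * ((#X : ℝ) ^ 4 / (K ^ 45 * pk X (s * r))) * (K ^ 45 * pk X (s * r))
        = (#U : ℝ) * (#X : ℝ) ^ 4 := by
      field_simp
    calc (#U : ℝ) * (#X : ℝ) ^ 4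
        = (#U : ℝ) * ((#X : ℝ) ^ 4 / (K ^ 45 * pk X (s * r))) * (K ^ 45 * pk X (s * r)) := e1.symm
      _ ≤ 8 * ((#X : ℝ) ^ 3 * #X) * (K ^ 45 * pk X (s * r)) := by gcongr
      _ = _ := by ring
  have h3 := le_of_mul_le_mul_right h2 (by positivity)
  calc (#U : ℝ) ≤ 8 * (K ^ 45 * pk X (s * r)) := h3
    _ ≤ K * (K ^ 45 * pk X (s * r)) := by
        gcongr
        linarith
    _ = _ := by ring

/-- (C2): Frostman property of the multipliers -/
lemma frA (h : EB K δ n X A) {g : ℕ} {Y U : Finset ℝ} (hY : Y ⊆ X) (hU : U ⊆ A) {r r' : ℝ}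
    (hr : 0 < r) (hYr : ∀ y ∈ Y, ∀ y' ∈ Y, |y - y'| ≤ r) (hYc : n ≤ K ^ g * #Y)
    (hr' : δ ≤ r') (hN : K ^ (62 + 2 * g) ≤ pk X r')
    (hUs : ∀ u ∈ U, ∀ v ∈ U, u ≠ v → δ / r' ≤ |u - v|) {t : ℝ} (ht : 0 < t) (htr : δ ≤ t * r)
    (x : ℝ) (hUx : ∀ u ∈ U, |u - x| ≤ t) :
    (#U : ℝ) ≤ K ^ (55 + g) * (n / pk X (t * r)) := by
  classical
  have hK0 := h.K0
  have hK := h.hK
  have hK1 := h.K1
  have hδ := h.hδ
  have hn := h.hn
  have hr'0 : 0 < r' := by linarith
  have hX := h.cpos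
  have hYpos : (0 : ℝ) < #Y := by
    by_contra hcon
    have : (#Y : ℝ) = 0 := le_antisymm (not_lt.1 hcon) (Nat.cast_nonneg _)
    rw [this, mul_zero] at hYc
    linarith
  have htr0 : 0 < t * r := by positivity
  have hpt := h.pkpos (t * r)
  have hpr := h.pkpos r'
  have hpδ := h.pkpos δ
  have hpδ1 : (#X : ℝ) ≤ pk X δ := by exact_mod_cast le_pk (Finset.Subset.refl X) h.sepX
  have hpδ2 : (pk X δ : ℝ) ≤ K ^ 3 * n := by
    refine le_trans ?_ h.cardle
    exact_mod_cast pk_le_card X hδ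
  obtain ⟨a₀, ha0⟩ := h.neA
  have hpos : 0 < |a₀| := abs_pos.2 (h.a0 ha0)
  have hEpos : 0 < K ^ 48 * n := by positivity
  have hpk5 : (pk X (t * r) : ℝ) ≤ K * pk X (2 * (t * r)) := by
    have := pk_dil X (t := t * r) (c := 2) htr0 (by norm_num)
    refine this.trans ?_
    gcongr
    linarith
  have hp2 := h.pkpos (2 * (t * r))
  have h1 := countR (A := Y) (U := U.image (fun a => -(a / a₀))) (w := K * δ)
    (T := K ^ 2 * r') (s := δ / r' / K) (e := (#Y : ℝ) ^ 4 / (K ^ 48 * n))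
    (ν := #Y * (K ^ 7 * n / pk X r')) (ω := K ^ 6) (ω' := K ^ 6 * n / pk X (t * r))
    (u₀ := -(x / a₀)) (τ := K * t) (D := r) (w' := K * (2 * (t * r)))
    (by positivity) (by positivity) (by positivity)
    (by
      have e1 : δ / r' / K * (K ^ 2 * r') = K * δ := by field_simp
      rw [e1]
      nlinarith [mul_pos hK0 hδ])
    (h.neg_sep ha0 hUs) (h.nearX hY hr')
    (by
      intro x
      have e1 := h.c1' (t := δ) (T := K * δ) (le_refl _) (le_refl _) x
      have e2 : K ^ 5 * n / pk X δ ≤ K ^ 6 := by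
        rw [div_le_iff₀ hpδ]
        calc K ^ 5 * n ≤ K ^ 5 * (K * #X) := by
              gcongr
              exact h.cardX
          _ = K ^ 6 * #X := by ring
          _ ≤ _ := by gcongr
      refine le_trans ?_ (e1.trans e2)
      refine le_trans (Finset.sum_le_sum (g := fun a => if |a - x| ≤ K * δ then (1 : ℝ) else 0)
        fun a _ => ?_) (Finset.sum_le_sum_of_subset_of_nonneg hY ?_)
      · by_cases hc : |a - x| < K * δ
        · rw [if_pos hc, if_pos hc.le]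
        · rw [if_neg hc]
          split_ifs <;> norm_num
      · intro i _ _
        split_ifs <;> norm_num)
    (by
      intro u hu
      obtain ⟨a, ha, rfl⟩ := Finset.mem_image.1 hu
      rw [div_le_iff₀ hEpos]
      have e1 := h.energy (hU ha) ha0 (le_refl δ) hY
      have e2 : 0 ≤ ∑ p ∈ Y ×ˢ Y, ∑ q ∈ Y ×ˢ Y,
          (if |(p.1 - q.1) + (-(a / a₀)) * (p.2 - q.2)| < K * δ then (1 : ℝ) else 0) := by
        refine Finset.sum_nonneg fun p _ => Finset.sum_nonneg fun q _ => ?_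
        split_ifs <;> norm_num
      calc (#Y : ℝ) ^ 4 ≤ K ^ 45 * pk X δ * _ := e1
        _ ≤ K ^ 45 * (K ^ 3 * n) * _ := by gcongr
        _ = _ := by ring)
    (by
      rw [div_div, le_div_iff₀ (by positivity)]
      have e1 : (#Y : ℝ) * (#Y * (K ^ 7 * n / pk X r')) * K ^ 6 * (K ^ 48 * n * 2)
          = 2 * K ^ 61 * n ^ 2 * (#Y : ℝ) ^ 2 / pk X r' := by
        field_simp
      rw [e1, div_le_iff₀ hpr]
      calc 2 * K ^ 61 * n ^ 2 * (#Y : ℝ) ^ 2 ≤ K * K ^ 61 * (K ^ g * #Y) ^ 2 * (#Y : ℝ) ^ 2 := by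
            gcongr
            linarith
        _ = (#Y : ℝ) ^ 4 * K ^ (62 + 2 * g) := by
            rw [pow_add, pow_mul']
            ring
        _ ≤ (#Y : ℝ) ^ 4 * pk X r' := by gcongr)
    (by
      intro u hu
      obtain ⟨a, ha, rfl⟩ := Finset.mem_image.1 hu
      have e1 : -(a / a₀) - -(x / a₀) = -((a - x) / a₀) := by ring
      rw [e1, abs_neg, abs_div, div_le_iff₀ hpos]
      calc |a - x| ≤ t := hUx a ha
        _ = t * 1 := (mul_one _).symm
        _ ≤ t * (K * |a₀|) := by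
            gcongr
            exact (h.absA a₀ ha0).1
        _ = _ := by ring)
    hYr (by positivity)
    (by
      have : K * δ ≤ K * (t * r) := by gcongr
      linarith)
    (by
      intro x
      have e1 := h.c1' (t := 2 * (t * r)) (T := K * (2 * (t * r))) (by linarith) (le_refl _) x
      have e2 : K ^ 5 * n / pk X (2 * (t * r)) ≤ K ^ 6 * n / pk X (t * r) := by
        rw [div_le_div_iff₀ hp2 hpt]
        calc K ^ 5 * n * pk X (t * r) ≤ K ^ 5 * n * (K * pk X (2 * (t * r))) := by gcongr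
          _ = _ := by ring
      refine le_trans ?_ (e1.trans e2)
      refine le_trans (Finset.sum_le_sum
        (g := fun a => if |a - x| ≤ K * (2 * (t * r)) then (1 : ℝ) else 0)
        fun a _ => ?_) (Finset.sum_le_sum_of_subset_of_nonneg hY ?_)
      · by_cases hc : |a - x| < K * (2 * (t * r))
        · rw [if_pos hc, if_pos hc.le]
        · rw [if_neg hc]
          split_ifs <;> norm_num
      · intro i _ _
        split_ifs <;> norm_num)
  rw [neg_img (h.a0 ha0)] at h1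
  have h2 : (#U : ℝ) * (#Y : ℝ) ^ 4 ≤ (K ^ 55 * (n / pk X (t * r)) * n) * (#Y : ℝ) ^ 3 := by
    have e1 : (#U : ℝ) * ((#Y : ℝ) ^ 4 / (K ^ 48 * n)) * (K ^ 48 * n)
        = (#U : ℝ) * (#Y : ℝ) ^ 4 := by
      field_simp
    calc (#U : ℝ) * (#Y : ℝ) ^ 4
        = (#U : ℝ) * ((#Y : ℝ) ^ 4 / (K ^ 48 * n)) * (K ^ 48 * n) := e1.symm
      _ ≤ 8 * ((#Y : ℝ) ^ 3 * (K ^ 6 * n / pk X (t * r))) * (K ^ 48 * n) := by gcongr
      _ = 8 * (K ^ 54 * (n / pk X (t * r)) * n * (#Y : ℝ) ^ 3) := by ring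
      _ ≤ K * (K ^ 54 * (n / pk X (t * r)) * n * (#Y : ℝ) ^ 3) := by
          gcongr
          linarith
      _ = _ := by ring
  have h3 : (#U : ℝ) * #Y ≤ (K ^ (55 + g) * (n / pk X (t * r))) * #Y := by
    have e1 : ((#U : ℝ) * #Y) * (#Y : ℝ) ^ 3 ≤ (K ^ 55 * (n / pk X (t * r)) * n) * (#Y : ℝ) ^ 3 := by
      calc ((#U : ℝ) * #Y) * (#Y : ℝ) ^ 3 = (#U : ℝ) * (#Y : ℝ) ^ 4 := by ring
        _ ≤ _ := h2
    have e2 := le_of_mul_le_mul_right e1 (by positivity)
    calc (#U : ℝ) * #Y ≤ K ^ 55 * (n / pk X (t * r)) * n := e2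
      _ ≤ K ^ 55 * (n / pk X (t * r)) * (K ^ g * #Y) := by gcongr
      _ = _ := by rw [pow_add]; ring
  exact le_of_mul_le_mul_right h3 hYpos

/-- lower bound for the packing numbers of a large subset -/
lemma pk_low (h : EB K δ n X A) {g : ℕ} {Y : Finset ℝ} (hY : Y ⊆ X) (hYc : n ≤ K ^ g * #Y)
    {t : ℝ} (ht : δ ≤ t) : (pk X t : ℝ) ≤ K ^ (5 + g) * pk Y t := by
  classical
  have hδ := h.hδ
  have ht0 : 0 < t := by linarith
  have hK0 := h.K0
  have hn := h.hn
  have hYpos : (0 : ℝ) < #Y := by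
    by_contra hcon
    have : (#Y : ℝ) = 0 := le_antisymm (not_lt.1 hcon) (Nat.cast_nonneg _)
    rw [this, mul_zero] at hYc
    linarith
  obtain ⟨c, hc⟩ := fullest (Finset.card_pos.1 (by exact_mod_cast hYpos)) ht0
  have hpt := h.pkpos t
  have h1 : (#(Y.filter (fun y => |y - c| ≤ t)) : ℝ) * pk X t ≤ K ^ 5 * n := by
    refine le_trans ?_ (h.c1 ht c)
    gcongr
    refine fun y hy => ?_
    rw [Finset.mem_filter] at hy ⊢
    refine ⟨hY hy.1, hy.2.trans ?_⟩
    nlinarith [h.K1]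
  have hc' : (#Y : ℝ) ≤ #(Y.filter (fun y => |y - c| ≤ t)) * pk Y t := by exact_mod_cast hc
  have h2 : (pk X t : ℝ) * #Y ≤ (K ^ (5 + g) * pk Y t) * #Y := by
    calc (pk X t : ℝ) * #Y ≤ pk X t * (#(Y.filter (fun y => |y - c| ≤ t)) * pk Y t) := by gcongr
      _ = (#(Y.filter (fun y => |y - c| ≤ t)) * pk X t) * pk Y t := by ring
      _ ≤ (K ^ 5 * n) * pk Y t := by gcongr
      _ ≤ (K ^ 5 * (K ^ g * #Y)) * pk Y t := by gcongr
      _ = _ := by rw [pow_add]; ring
  exact le_of_mul_le_mul_right h2 hYpos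

end EB

end Vale.Agent.P065.UB.H196
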