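import Vale.Agent.P065.UB.H196.Dig

/-!
# P065, upper bound: the uniform kill in integer units (helper196)
-/

set_option autoImplicit false

namespace Vale.Agent.P065.UB.H196

open Finset
open scoped Pointwise

/-- data with a set of multipliers -/
structure DatZ (q : ℕ) (K δ : ℝ) (N : ℝ → ℝ) (A : Finset ℤ) (Z : Finset ℝ) : Prop
    extends Dat K δ N A where
  neZ : Z.Nonempty
  absZ : ∀ z ∈ Z, |z| ≤ K
  diamZ : ∀ z ∈ Z, ∀ w ∈ Z, |z - w| ≤ 1
  act : ∀ z ∈ Z, (#(A.image (fl z) - A) : ℝ) ≤ K * N δ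
  frZ : ∀ x t : ℝ, δ ≤ t → t ≤ 1 →
    ∑ z ∈ Z, (if |z - x| ≤ t then (1 : ℝ) else 0) ≤ K * (#Z / N t)
  dim : δ ^ q * N δ ^ (q + 1) ≤ K

namespace DatZ

variable {q : ℕ} {K δ : ℝ} {N : ℝ → ℝ} {A : Finset ℤ} {Z : Finset ℝ}

lemma scZ (h : DatZ q K δ N A Z) {z : ℝ} (hz : z ∈ Z) : Sc A (K ^ 2) z := by
  refine Sc.of_sub h.ne ?_
  calc (#(A.image (fl z) - A) : ℝ) ≤ K * N δ := h.act z hz
    _ ≤ K * (K * #A) := by
        have := h.toProf.K0
        gcongr
        exact h.cardA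
    _ = _ := by ring

lemma scd (h : DatZ q K δ N A Z) {z w : ℝ} (hz : z ∈ Z) (hw : w ∈ Z) : Sc A (K ^ 15) (z - w) :=
  h.toDat.sc_sub (i := 2) (j := 2) (h.scZ hz) (h.scZ hw)

/-- the fixed polynomial of step (3) -/
lemma scpoly (h : DatZ q K δ N A Z) {z z' c ζ1 ζ2 ζ3 ζ4 b : ℝ} (hz : z ∈ Z) (hz' : z' ∈ Z)
    (hc : c ∈ Z) (h1 : ζ1 ∈ Z) (h2 : ζ2 ∈ Z) (h3 : ζ3 ∈ Z) (h4 : ζ4 ∈ Z) (hb : b = 0 ∨ b = 1) :
    Sc A (K ^ 138) (z * ((ζ3 - ζ4) + (ζ3 - ζ4)) + z' * ((ζ1 - ζ2) + b * (ζ3 - ζ4)) + c) := by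
  have hK := h.hK
  have e1 : Sc A (K ^ 41) ((ζ3 - ζ4) + (ζ3 - ζ4)) :=
    h.toDat.sc_add (i := 15) (j := 15) (h.scd h3 h4) (h.scd h3 h4)
  have e2 : Sc A (K ^ 41) ((ζ1 - ζ2) + b * (ζ3 - ζ4)) := by
    rcases hb with rfl | rfl
    · rw [zero_mul, add_zero]
      exact h.toDat.sc_mono (h.scd h1 h2) (by norm_num)
    · rw [one_mul]
      exact h.toDat.sc_add (i := 15) (j := 15) (h.scd h1 h2) (h.scd h3 h4)
  have e3 : ∀ z ∈ Z, 2 * (|z| + 3) + 3 ≤ K ^ 2 := by
    intro z hz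
    have := h.absZ z hz
    nlinarith
  have e4 : Sc A (K ^ 57) (z * ((ζ3 - ζ4) + (ζ3 - ζ4))) :=
    h.toDat.sc_mul (i := 2) (j := 41) (h.scZ hz) e1 (e3 z hz)
  have e5 : Sc A (K ^ 57) (z' * ((ζ1 - ζ2) + b * (ζ3 - ζ4))) :=
    h.toDat.sc_mul (i := 2) (j := 41) (h.scZ hz') e2 (e3 z' hz')
  have e6 := h.toDat.sc_add (i := 57) (j := 57) e4 e5
  exact h.toDat.sc_add (i := 125) (j := 2) e6 (h.scZ hc)

/-- the ratio set -/
def Rat (Z : Finset ℝ) (r : ℝ) : Set ℝ :=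
  {x | ∃ z1 ∈ Z, ∃ z2 ∈ Z, ∃ z3 ∈ Z, ∃ z4 ∈ Z, r ≤ |z3 - z4| ∧ x = (z1 - z2) / (z3 - z4)}

lemma zero_mem_Rat (h : DatZ q K δ N A Z) {r : ℝ} (hr : δ ≤ r) (hr1 : r ≤ 1) (hN : K < N r) :
    (0 : ℝ) ∈ Rat Z r := by
  obtain ⟨z, hz⟩ := h.neZ
  have hZ : (0 : ℝ) < #Z := by exact_mod_cast h.neZ.card_pos
  have hK := h.toProf.K0
  by_contra hcon
  have h1 : ∀ w ∈ Z, |w - z| ≤ r := by
    intro w hw
    by_contra h2
    rw [not_le] at h2
    exact hcon ⟨z, hz, z, hz, w, hw, z, hz, h2.le, by simp⟩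
  have h2 := h.frZ z r hr hr1
  have h3 : ∑ w ∈ Z, (if |w - z| ≤ r then (1 : ℝ) else 0) = #Z := by
    rw [Finset.sum_congr rfl (g := fun _ => (1 : ℝ)) (fun w hw => by rw [if_pos (h1 w hw)])]
    simp
  rw [h3] at h2
  have hp := h.pos r hr hr1
  rw [← mul_div_assoc, le_div_iff₀ hp] at h2
  have : (#Z : ℝ) * K < #Z * N r := by gcongr
  linarith

/-- step (2): a point of the ratio set whose half is far from the ratio set -/
lemma escape (h : DatZ q K δ N A Z) {r r2 : ℝ} (hr1 : r ≤ 1) (hrδ : δ ≤ r / 2)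
    (hr2 : δ ≤ r2) (hr21 : r2 ≤ 1) (hKr : K < N r)
    (hN : K ^ 43 * N (r / 2) ≤ N r2) (hfin : K ^ 41 * N δ * δ < r * r2) :
    ∃ x ∈ Rat Z r, |x| ≤ 3 ∧ ∃ b : ℝ, (b = 0 ∨ b = 1) ∧
      ∀ y ∈ Rat Z r, δ / (r * r2) < |(x + b) / 2 - y| := by
  have hδ0 := h.hδ
  have hr0 : 0 < r := by linarith
  have hr20 : 0 < r2 := by linarith
  have hK := h.toProf.K0
  have hK100 := h.hK
  have hn := h.n0
  have hn1 : 1 ≤ K ^ 41 * N δ := by
    have h1 : N r ≤ N δ := h.anti δ r (le_refl _) (by linarith) hr1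
    have h2 : 1 ≤ N δ := by linarith
    have h3 : 1 ≤ K ^ 41 := one_le_pow₀ h.toProf.K1
    nlinarith
  have hρ : 0 < δ / (r * r2) := by positivity
  have hρ8 : 8 * (δ / (r * r2)) * (K ^ 40 * N δ) < 1 := by
    rw [show 8 * (δ / (r * r2)) * (K ^ 40 * N δ) = (8 * K ^ 40 * N δ * δ) / (r * r2) by ring]
    rw [div_lt_one (by positivity)]
    refine lt_of_le_of_lt ?_ hfin
    calc 8 * K ^ 40 * N δ * δ ≤ K * K ^ 40 * N δ * δ := by
          gcongr
          linarith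
      _ = _ := by ring
  have hρ1 : δ / (r * r2) ≤ 1 / 2 := by
    rw [div_le_iff₀ (by positivity)]
    have h3 : 2 ≤ K ^ 41 * N δ := by
      have h1 : N r ≤ N δ := h.anti δ r (le_refl _) (by linarith) hr1
      have h2 : 2 ≤ N δ := by linarith
      have h3 : 1 ≤ K ^ 41 := one_le_pow₀ h.toProf.K1
      nlinarith
    nlinarith
  rcases dense_or hρ hρ1 (h.zero_mem_Rat (by linarith) hr1 hKr) with h1 | ⟨U, hU, hsep, hcard⟩
  · exact h1
  · exfalso
    have h2 := h.toDat.count2 (i := 15) hr1 hrδ hr2 hr21 (by simpa using hN) hsep (by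
      intro u hu
      obtain ⟨z1, h1, z2, h2, z3, h3, z4, h4, h5, h6⟩ := hU u hu
      exact ⟨z3 - z4, z1 - z2, h5, h.scd h3 h4, h.scd h1 h2, h6⟩)
    have h3 : 1 / (8 * (δ / (r * r2))) ≤ K ^ 40 * N δ := hcard.trans (by simpa using h2)
    rw [div_le_iff₀ (by positivity)] at h3
    linarith

/-- step (3): the upper bound -/
lemma upper (h : DatZ q K δ N A Z) {r1 r t : ℝ} (hr1 : δ ≤ r1) (hr11 : r1 ≤ 1)
    (hr : δ ≤ r) (hrle : r ≤ 1) (ht : t = δ / (r1 * r)) (ht1 : t ≤ 1)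
    (hN1 : K ^ 147 ≤ N r1) (hN1' : N r1 ≤ K ^ 150)
    {ζ1 ζ2 ζ3 ζ4 b y : ℝ} (h1 : ζ1 ∈ Z) (h2 : ζ2 ∈ Z) (h3 : ζ3 ∈ Z) (h4 : ζ4 ∈ Z)
    (hb : b = 0 ∨ b = 1) (hr34 : r = |ζ3 - ζ4|) (hy : y = ((ζ1 - ζ2) / (ζ3 - ζ4) + b) / 2)
    (hy2 : |y| ≤ 2) {W : Finset ℝ} (hW : ∀ w ∈ W, ∃ z ∈ Z, ∃ z' ∈ Z, w = z + y * z')
    (hWs : ∀ u ∈ W, ∀ v ∈ W, u ≠ v → t ≤ |u - v|) :
    (#W : ℝ) ≤ K ^ 302 * N t := by
  classical
  have hδ0 := h.hδ
  have hr0 : 0 < r := by linarith
  have hr10 : 0 < r1 := by linarith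
  have hK := h.toProf.K0
  have hK100 := h.hK
  have hZ0 : (0 : ℝ) < #Z := by exact_mod_cast h.neZ.card_pos
  have hp1 := h.pos r1 hr1 hr11
  have hp := h.pos r hr hrle
  have ht0 : 0 < t := by rw [ht]; positivity
  have hD : ζ3 - ζ4 ≠ 0 := by
    intro h0
    rw [h0, abs_zero] at hr34
    linarith
  have hδt : δ ≤ t := by
    rw [ht, le_div_iff₀ (by positivity)]
    calc δ * (r1 * r) ≤ δ * (1 * 1) := by gcongr
      _ = δ := by ring
  have hpt := h.pos t hδt ht1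
  obtain ⟨Zr, hZr, hZrs, hZrn⟩ := exists_net Z (t := 7 * r) (by positivity)
  have hZrcard : N r ≤ K ^ 4 * #Zr := by
    have hZrne : (1 : ℝ) ≤ #Zr := by
      obtain ⟨z, hz⟩ := h.neZ
      obtain ⟨w, hw, -⟩ := hZrn z hz
      exact_mod_cast Finset.card_pos.2 ⟨w, hw⟩
    by_cases h7 : 7 * r ≤ 1
    · have e1 : (#Z : ℝ) ≤ #Zr * (K * (#Z / N (7 * r))) := by
        calc (#Z : ℝ) = ∑ z ∈ Z, (1 : ℝ) := by simp
          _ ≤ ∑ z ∈ Z, ∑ c ∈ Zr, (if |z - c| ≤ 7 * r then (1 : ℝ) else 0) := by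
              refine Finset.sum_le_sum fun z hz => ?_
              obtain ⟨w, hw, hw2⟩ := hZrn z hz
              have := Finset.single_le_sum (s := Zr)
                (f := fun c => (if |z - c| ≤ 7 * r then (1 : ℝ) else 0))
                (fun c _ => by split_ifs <;> norm_num) hw
              rw [if_pos hw2.le] at this
              exact this
          _ = ∑ c ∈ Zr, ∑ z ∈ Z, (if |z - c| ≤ 7 * r then (1 : ℝ) else 0) := Finset.sum_comm
          _ ≤ ∑ c ∈ Zr, K * (#Z / N (7 * r)) :=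
              Finset.sum_le_sum fun c _ => h.frZ c (7 * r) (by linarith) h7
          _ = _ := by simp
      have hp7 := h.pos (7 * r) (by linarith) h7
      have e2 : N (7 * r) ≤ K * #Zr := by
        have e3 : (#Z : ℝ) * N (7 * r) ≤ #Z * (K * #Zr) := by
          have e4 : (#Zr : ℝ) * (K * (#Z / N (7 * r))) = (#Zr * K * #Z) / N (7 * r) := by ring
          rw [e4, le_div_iff₀ hp7] at e1
          linarith
        exact le_of_mul_le_mul_left e3 hZ0
      have e5 := h.toProf.dil (s := r) (t := 7 * r) (c := 7) hr0 (by norm_num) hr h7 rfl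
      calc N r ≤ K ^ 2 * 7 * N (7 * r) := e5
        _ ≤ K ^ 2 * K * (K * #Zr) := by
            gcongr
            linarith
        _ = _ := by ring
    · rw [not_le] at h7
      have e1 := h.triv r hr hrle
      have e2 : K / r ≤ K * K := by
        rw [div_le_iff₀ hr0]
        nlinarith
      calc N r ≤ K * K := e1.trans e2
        _ = K ^ 2 * 1 := by ring
        _ ≤ K ^ 4 * #Zr := by
            gcongr
            · exact h.toProf.K1
            · norm_num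
  -- the sumset
  have hdiam : ∀ w ∈ W, ∀ w' ∈ W, |w - w'| ≤ 3 := by
    intro w hw w' hw'
    obtain ⟨a, ha, b', hb', rfl⟩ := hW w hw
    obtain ⟨c, hc, d, hd, rfl⟩ := hW w' hw'
    have e1 := h.diamZ a ha c hc
    have e2 := h.diamZ b' hb' d hd
    have e3 : a + y * b' - (c + y * d) = (a - c) + y * (b' - d) := by ring
    rw [e3]
    calc |(a - c) + y * (b' - d)| ≤ |a - c| + |y * (b' - d)| := abs_add_le _ _
      _ = |a - c| + |y| * |b' - d| := by rw [abs_mul]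
      _ ≤ 1 + 2 * 1 := by gcongr
      _ = 3 := by norm_num
  have hrt : 2 * r * t = 2 * (δ / r1) := by
    rw [ht]
    field_simp
  have hδr : δ / r1 ≤ r := by
    rw [div_le_iff₀ hr10]
    rw [ht, div_le_one (by positivity)] at ht1
    linarith
  have hδr1 : 0 < δ / r1 := by positivity
  have key : ∀ w ∈ W, ∀ w' ∈ W, ∀ c ∈ Zr, ∀ c' ∈ Zr, (w, c) ≠ (w', c') →
      δ / r1 ≤ |(2 * (ζ3 - ζ4) * w + c) - (2 * (ζ3 - ζ4) * w' + c')| := by
    intro w hw w' hw' c hc c' hc' hne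
    by_cases hcc : c = c'
    · have hww : w ≠ w' := by
        rintro rfl
        exact hne (by rw [hcc])
      rw [hcc]
      have e1 : (2 * (ζ3 - ζ4) * w + c') - (2 * (ζ3 - ζ4) * w' + c')
          = 2 * (ζ3 - ζ4) * (w - w') := by ring
      rw [e1, abs_mul, abs_mul, ← hr34, abs_of_pos (by norm_num : (0 : ℝ) < 2)]
      have e2 := hWs w hw w' hw' hww
      calc δ / r1 ≤ 2 * (δ / r1) := by linarith
        _ = 2 * r * t := hrt.symm
        _ ≤ 2 * r * |w - w'| := by gcongr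
    · have e1 := hZrs c hc c' hc' hcc
      have e2 : |2 * (ζ3 - ζ4) * (w - w')| ≤ 6 * r := by
        rw [abs_mul, abs_mul, ← hr34, abs_of_pos (by norm_num : (0 : ℝ) < 2)]
        have := hdiam w hw w' hw'
        calc 2 * r * |w - w'| ≤ 2 * r * 3 := by gcongr
          _ = 6 * r := by ring
      have e3 : c - c' = ((2 * (ζ3 - ζ4) * w + c) - (2 * (ζ3 - ζ4) * w' + c'))
          - 2 * (ζ3 - ζ4) * (w - w') := by ring
      rw [e3] at e1
      have e4 := abs_sub ((2 * (ζ3 - ζ4) * w + c) - (2 * (ζ3 - ζ4) * w' + c'))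
        (2 * (ζ3 - ζ4) * (w - w'))
      linarith
  set φ : ℝ × ℝ → ℝ := fun p => 2 * (ζ3 - ζ4) * p.1 + p.2 with hφ
  have hinj : Set.InjOn φ (W ×ˢ Zr : Finset (ℝ × ℝ)) := by
    intro p hp' p' hp'' hpp
    by_contra hne
    rw [Finset.mem_coe, Finset.mem_product] at hp' hp''
    have := key p.1 hp'.1 p'.1 hp''.1 p.2 hp'.2 p'.2 hp''.2 hne
    simp only [hφ] at hpp
    rw [hpp, sub_self, abs_zero] at this
    linarith
  have hcount := h.toDat.count1 (i := 138) (r := r1) hr1 hr11 (by simpa using hN1)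
    (U := (W ×ˢ Zr).image φ) (by
      intro u hu v hv huv
      obtain ⟨p, hp', rfl⟩ := Finset.mem_image.1 hu
      obtain ⟨p', hp'', rfl⟩ := Finset.mem_image.1 hv
      rw [Finset.mem_product] at hp' hp''
      refine key p.1 hp'.1 p'.1 hp''.1 p.2 hp'.2 p'.2 hp''.2 ?_
      intro hpp
      apply huv
      have : p = p' := hpp
      rw [this]) (by
      intro u hu
      obtain ⟨p, hp', rfl⟩ := Finset.mem_image.1 hu
      rw [Finset.mem_product] at hp'
      obtain ⟨z, hz, z', hz', hw⟩ := hW p.1 hp'.1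
      have e1 : φ p = z * ((ζ3 - ζ4) + (ζ3 - ζ4)) + z' * ((ζ1 - ζ2) + b * (ζ3 - ζ4)) + p.2 := by
        simp only [hφ]
        rw [hw, hy]
        field_simp
        ring
      rw [e1]
      exact h.scpoly hz hz' (hZr hp'.2) h1 h2 h3 h4 hb)
  rw [Finset.card_image_of_injOn hinj, Finset.card_product] at hcount
  push_cast at hcount
  have hnt : N δ ≤ K ^ 2 * N t * N r * K ^ 150 := by
    have e1 : δ = (t * r) * r1 := by
      rw [ht]
      field_simp
    have e2 : t * r = δ / r1 := by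
      rw [ht]
      field_simp
    have e3 : δ ≤ t * r := by
      rw [e2, le_div_iff₀ hr10]
      nlinarith
    have e4 : t * r ≤ 1 := by nlinarith
    have e5 := h.sub (t * r) r1 (by positivity) e4 hr10 hr11 (le_of_eq e1)
    rw [← e1] at e5
    have e6 := h.sub t r ht0 ht1 hr0 hrle e3
    calc N δ ≤ K * (N (t * r) * N r1) := e5
      _ ≤ K * ((K * (N t * N r)) * K ^ 150) := by gcongr
      _ = _ := by ring
  have hfin : (#W : ℝ) * N r ≤ (K ^ 302 * N t) * N r := by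
    calc (#W : ℝ) * N r ≤ #W * (K ^ 4 * #Zr) := by gcongr
      _ = K ^ 4 * (#W * #Zr) := by ring
      _ ≤ K ^ 4 * (K ^ (138 + 8) * N δ) := by gcongr
      _ ≤ K ^ 4 * (K ^ (138 + 8) * (K ^ 2 * N t * N r * K ^ 150)) := by gcongr
      _ = _ := by ring
  exact le_of_mul_le_mul_right hfin hp

/-- step (4): the lower bound -/
lemma lower (h : DatZ q K δ N A Z) {r t y : ℝ} (hr : δ ≤ r) (hr1 : r ≤ 1)
    (ht : δ ≤ t) (ht1 : 2 * t ≤ 1)
    (hy : ∀ x ∈ Rat Z r, 2 * t / r < |y - x|) {W : Finset ℝ}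
    (hW : ∀ z ∈ Z, ∀ z' ∈ Z, ∃ w ∈ W, |z + y * z' - w| < t) :
    N r * N t ≤ K ^ 5 * #W := by
  classical
  have hδ0 := h.hδ
  have hr0 : 0 < r := by linarith
  have ht0 : 0 < t := by linarith
  have hK := h.toProf.K0
  have hK100 := h.hK
  have hZ0 : (0 : ℝ) < #Z := by exact_mod_cast h.neZ.card_pos
  have hp := h.pos r hr hr1
  have hp2 := h.pos (2 * t) (by linarith) ht1
  choose! g hg hgd using hW
  have h1 := cs (Z ×ˢ Z) (fun p : ℝ × ℝ => g p.1 p.2) W (by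
    intro p hp'
    rw [Finset.mem_product] at hp'
    exact hg p.1 hp'.1 p.2 hp'.2)
  have h2 : ∀ p ∈ Z ×ˢ Z, ∑ q ∈ Z ×ˢ Z, (if g p.1 p.2 = g q.1 q.2 then (1 : ℝ) else 0)
      ≤ (K * (#Z / N r)) * (K * (#Z / N (2 * t))) := by
    intro p hp'
    rw [Finset.mem_product] at hp'
    calc ∑ q ∈ Z ×ˢ Z, (if g p.1 p.2 = g q.1 q.2 then (1 : ℝ) else 0)
        ≤ ∑ q ∈ Z ×ˢ Z, (if |q.2 - p.2| ≤ r then (1 : ℝ) else 0) *
          (if |q.1 - (p.1 + y * p.2 - y * q.2)| ≤ 2 * t then (1 : ℝ) else 0) := by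
          refine Finset.sum_le_sum fun w hw => ?_
          rw [Finset.mem_product] at hw
          by_cases hc : g p.1 p.2 = g w.1 w.2
          · have e1 := hgd p.1 hp'.1 p.2 hp'.2
            have e2 := hgd w.1 hw.1 w.2 hw.2
            rw [← hc] at e2
            have e1' := abs_lt.1 e1
            have e2' := abs_lt.1 e2
            have e3 : |w.1 - (p.1 + y * p.2 - y * w.2)| < 2 * t := by
              rw [abs_lt]
              constructor <;> linarith [e1'.1, e1'.2, e2'.1, e2'.2]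
            have e4 : |w.2 - p.2| ≤ r := by
              by_contra hcon
              rw [not_le, abs_sub_comm] at hcon
              have e5 : (w.1 - p.1) / (p.2 - w.2) ∈ Rat Z r :=
                ⟨w.1, hw.1, p.1, hp'.1, p.2, hp'.2, w.2, hw.2, hcon.le, rfl⟩
              have e6 := hy _ e5
              have hne : p.2 - w.2 ≠ 0 := by
                intro h0
                rw [h0, abs_zero] at hcon
                linarith
              have e7 : y - (w.1 - p.1) / (p.2 - w.2)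
                  = -(w.1 - (p.1 + y * p.2 - y * w.2)) / (p.2 - w.2) := by
                field_simp
                ring
              rw [e7, abs_div, abs_neg, div_lt_div_iff₀ hr0 (abs_pos.2 hne)] at e6
              have e8 : |w.1 - (p.1 + y * p.2 - y * w.2)| * r ≤ 2 * t * |p.2 - w.2| := by
                gcongr
              linarith
            rw [if_pos hc, if_pos e3.le, if_pos e4]
            norm_num
          · rw [if_neg hc]
            positivity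
      _ = ∑ w' ∈ Z, ∑ w ∈ Z, (if |w' - p.2| ≤ r then (1 : ℝ) else 0) *
          (if |w - (p.1 + y * p.2 - y * w')| ≤ 2 * t then (1 : ℝ) else 0) := by
          rw [Finset.sum_product_right]
      _ ≤ ∑ w' ∈ Z, (if |w' - p.2| ≤ r then (1 : ℝ) else 0) * (K * (#Z / N (2 * t))) := by
          refine Finset.sum_le_sum fun w' _ => ?_
          rw [← Finset.mul_sum]
          have := h.frZ (p.1 + y * p.2 - y * w') (2 * t) (by linarith) ht1
          refine mul_le_mul_of_nonneg_left this ?_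
          split_ifs <;> norm_num
      _ = (∑ w' ∈ Z, (if |w' - p.2| ≤ r then (1 : ℝ) else 0)) * (K * (#Z / N (2 * t))) := by
          rw [Finset.sum_mul]
      _ ≤ _ := by
          have := h.frZ p.2 r hr hr1
          gcongr
  have h3 : ((#Z : ℝ) ^ 2) ^ 2 ≤ #W * ((#Z : ℝ) ^ 2 *
      ((K * (#Z / N r)) * (K * (#Z / N (2 * t))))) := by
    have e1 : (#(Z ×ˢ Z) : ℝ) = (#Z : ℝ) ^ 2 := by
      rw [Finset.card_product]
      push_cast
      ring
    rw [e1] at h1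
    refine h1.trans ?_
    gcongr
    calc _ ≤ ∑ p ∈ Z ×ˢ Z, (K * (#Z / N r)) * (K * (#Z / N (2 * t))) := Finset.sum_le_sum h2
      _ = _ := by
          rw [Finset.sum_const, nsmul_eq_mul, e1]
  have h4 : N r * N (2 * t) ≤ K ^ 2 * #W := by
    have e1 : (#W : ℝ) * ((#Z : ℝ) ^ 2 * ((K * (#Z / N r)) * (K * (#Z / N (2 * t)))))
        = (#Z : ℝ) ^ 4 * (K ^ 2 * #W) / (N r * N (2 * t)) := by
      field_simp
    rw [e1, le_div_iff₀ (by positivity)] at h3
    have e2 : (#Z : ℝ) ^ 4 * (N r * N (2 * t)) ≤ (#Z : ℝ) ^ 4 * (K ^ 2 * #W) := by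
      calc (#Z : ℝ) ^ 4 * (N r * N (2 * t)) = ((#Z : ℝ) ^ 2) ^ 2 * (N r * N (2 * t)) := by ring
        _ ≤ _ := h3
    exact le_of_mul_le_mul_left e2 (by positivity)
  have h5 : N t ≤ K ^ 3 * N (2 * t) := by
    have := h.toProf.half (t := 2 * t) (by linarith) ht1
    have e1 : 2 * t / 2 = t := by ring
    rwa [e1] at this
  calc N r * N t ≤ N r * (K ^ 3 * N (2 * t)) := by gcongr
    _ = K ^ 3 * (N r * N (2 * t)) := by ring
    _ ≤ K ^ 3 * (K ^ 2 * #W) := by gcongr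
    _ = _ := by ring

/-- **the uniform kill**, integer units -/
theorem kill (h : DatZ q K δ N A Z) (hn : K ^ (1500 * (q + 1)) ≤ N δ) : False := by
  classical
  have hδ0 := h.hδ
  have hK := h.toProf.K0
  have hK1 := h.toProf.K1
  have hK100 := h.hK
  have hK1' : 1 < K := by linarith
  have hn0 := h.n0
  have pl : ∀ {i j : ℕ}, i < j → K ^ i < K ^ j := fun hij => pow_lt_pow_right₀ hK1' hij
  have hnm : ∀ i : ℕ, i < 1500 * (q + 1) → K ^ i < N δ := fun i hi => (pl hi).trans_le hn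
  have hKi : ∀ i : ℕ, 1 ≤ i → K ≤ K ^ i := fun i hi => by
    calc K = K ^ 1 := (pow_one _).symm
      _ ≤ K ^ i := h.toProf.pw hi
  obtain ⟨r1, hr1, hr11, hN1, hN1'⟩ := h.toProf.exists_scale (Θ := K ^ 147) (hKi _ (by norm_num))
    (hnm _ (by omega)).le
  obtain ⟨rs, hrs, hrs1, hNs, hNs'⟩ := h.toProf.exists_scale (Θ := K ^ 309) (hKi _ (by norm_num))
    (hnm _ (by omega)).le
  obtain ⟨r2, hr2, hr21, hN2, hN2'⟩ := h.toProf.exists_scale (Θ := K ^ 467) (hKi _ (by norm_num))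
    (hnm _ (by omega)).le
  rw [← pow_add] at hN1' hNs' hN2'
  norm_num at hN1' hNs' hN2'
  have hpw : ∀ r : ℝ, δ ≤ r → r ≤ 1 → N r ≤ K ^ 470 → δ ≤ r ^ (3 * (q + 1)) := by
    intro r h1 h2 h3
    have e := h.toProf.pow_le h1 h2 h3 (3 * q + 2) (by
      rw [← pow_succ', ← pow_mul]
      exact hnm _ (by omega))
    exact e
  have hp1 := hpw r1 hr1 hr11 (hN1'.trans (h.toProf.pw (by norm_num)))
  have hps := hpw rs hrs hrs1 (hNs'.trans (h.toProf.pw (by norm_num)))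
  have hp2 := hpw r2 hr2 hr21 hN2'
  have hr10 : 0 < r1 := by linarith
  have hrs0 : 0 < rs := by linarith
  have hr20 : 0 < r2 := by linarith
  have hnδ : N δ * δ ≤ K := by
    have := h.triv δ (le_refl _) h.hδ1
    rwa [le_div_iff₀ hδ0] at this
  have hKδ : ∀ i : ℕ, i + 1 < 1500 * (q + 1) → K ^ i * δ < 1 := by
    intro i hi
    have e1 : K ^ (i + 1) * δ < K := by
      calc K ^ (i + 1) * δ < N δ * δ := by
            have := hnm (i + 1) hi
            gcongr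
        _ ≤ K := hnδ
    rw [pow_succ] at e1
    have e2 : K * (K ^ i * δ) < K * 1 := by linarith
    exact lt_of_mul_lt_mul_left e2 hK.le
  have h8δ : 8 * δ ≤ 1 := by
    have := hKδ 1 (by omega)
    rw [pow_one] at this
    nlinarith
  have hp13 : δ ≤ r1 ^ 3 := hp1.trans (pow_le_pow_of_le_one hr10.le hr11 (by omega))
  have hps3 : δ ≤ rs ^ 3 := hps.trans (pow_le_pow_of_le_one hrs0.le hrs1 (by omega))
  have h2δ : 2 * δ ≤ r1 * rs := by
    have e1 : (2 * δ) ^ 3 ≤ (r1 * rs) ^ 3 := by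
      calc (2 * δ) ^ 3 = (8 * δ) * (δ * δ) := by ring
        _ ≤ 1 * (δ * δ) := by gcongr
        _ ≤ 1 * (r1 ^ 3 * rs ^ 3) := by gcongr
        _ = _ := by ring
    exact (pow_le_pow_iff_left₀ (by positivity) (by positivity) (by norm_num)).1 e1
  have hrsδ : δ ≤ rs / 2 := by nlinarith
  have hNsh : N (rs / 2) ≤ K ^ 315 := by
    calc N (rs / 2) ≤ K ^ 3 * N rs := h.toProf.half hrsδ hrs1
      _ ≤ K ^ 3 * K ^ 312 := by gcongr
      _ = _ := by ring
  have hr2lt : 2 * r2 < r1 * rs := by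
    by_contra hcon
    rw [not_lt] at hcon
    have e1 : r1 * (rs / 2) ≤ r2 := by linarith
    have e2 : δ ≤ r1 * (rs / 2) := by linarith
    have e3 := h.anti _ _ e2 e1 hr21
    have e4 := h.sub r1 (rs / 2) hr10 hr11 (by linarith) (by linarith) e2
    have e5 : N r2 ≤ K ^ 466 := by
      calc N r2 ≤ K * (N r1 * N (rs / 2)) := e3.trans e4
        _ ≤ K * (K ^ 150 * K ^ 315) := by
            have := h.pos (rs / 2) hrsδ (by linarith)
            gcongr
        _ = _ := by ring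
    have e6 : K ^ 466 < K ^ 467 := pl (by norm_num)
    linarith
  have hfin : K ^ 41 * N δ * δ < rs * r2 := by
    have e1 : (K ^ 41 * N δ * δ) ^ (q + 1) ≤ K ^ (41 * (q + 1) + 1) * δ := by
      calc (K ^ 41 * N δ * δ) ^ (q + 1)
          = K ^ (41 * (q + 1)) * (δ ^ q * N δ ^ (q + 1)) * δ := by
            rw [mul_pow, mul_pow, ← pow_mul, pow_succ δ q]
            ring
        _ ≤ K ^ (41 * (q + 1)) * K * δ := by
            have := h.dim
            gcongr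
        _ = _ := by ring
    have e2 : (K ^ 41 * N δ * δ) ^ (3 * (q + 1)) < (rs * r2) ^ (3 * (q + 1)) := by
      calc (K ^ 41 * N δ * δ) ^ (3 * (q + 1)) = ((K ^ 41 * N δ * δ) ^ (q + 1)) ^ 3 := by
            rw [← pow_mul, mul_comm 3]
        _ ≤ (K ^ (41 * (q + 1) + 1) * δ) ^ 3 := by gcongr
        _ = (K ^ (123 * (q + 1) + 3) * δ) * (δ * δ) := by ring
        _ < 1 * (δ * δ) := by
            have := hKδ (123 * (q + 1) + 3) (by omega)
            gcongr
        _ ≤ 1 * (rs ^ (3 * (q + 1)) * r2 ^ (3 * (q + 1))) := by gcongr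
        _ = _ := by rw [mul_pow, one_mul]
    exact lt_of_pow_lt_pow_left₀ _ (by positivity) e2
  obtain ⟨x, hx, hx3, b, hb, hfar⟩ := h.escape hrs1 hrsδ hr2 hr21
    (lt_of_lt_of_le (by
      calc K = K ^ 1 := (pow_one _).symm
        _ < K ^ 309 := pl (by norm_num)) hNs)
    (by
      calc K ^ 43 * N (rs / 2) ≤ K ^ 43 * K ^ 315 := by gcongr
        _ = K ^ 358 := by ring
        _ ≤ K ^ 467 := h.toProf.pw (by norm_num)
        _ ≤ N r2 := hN2) hfin
  obtain ⟨ζ1, h1, ζ2, h2, ζ3, h3, ζ4, h4, h34, hxe⟩ := hx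
  obtain ⟨r, hr⟩ : ∃ r, r = |ζ3 - ζ4| := ⟨_, rfl⟩
  rw [← hr] at h34
  have hrle : r ≤ 1 := by rw [hr]; exact h.diamZ ζ3 h3 ζ4 h4
  have hr0 : 0 < r := by linarith
  have hrδ : δ ≤ r := hrs.trans h34
  obtain ⟨y, hy⟩ : ∃ y, y = (x + b) / 2 := ⟨_, rfl⟩
  have hy2 : |y| ≤ 2 := by
    have e1 := abs_le.1 hx3
    rw [hy, abs_le]
    rcases hb with rfl | rfl <;> constructor <;> linarith [e1.1, e1.2]
  obtain ⟨t, ht⟩ : ∃ t, t = δ / (r1 * r) := ⟨_, rfl⟩
  have hr1r : 2 * δ ≤ r1 * r := h2δ.trans (by gcongr)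
  have ht2 : 2 * t ≤ 1 := by
    rw [ht, ← mul_div_assoc, div_le_one (by positivity)]
    exact hr1r
  have ht0 : 0 < t := by rw [ht]; positivity
  have hδt : δ ≤ t := by
    rw [ht, le_div_iff₀ (by positivity)]
    calc δ * (r1 * r) ≤ δ * (1 * 1) := by gcongr
      _ = δ := by ring
  obtain ⟨W, hWsub, hWs, hWn⟩ := exists_net ((Z ×ˢ Z).image (fun p : ℝ × ℝ => p.1 + y * p.2)) ht0
  have hup := h.upper hr1 hr11 hrδ hrle ht (by linarith) hN1 hN1' h1 h2 h3 h4 hb hr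
    (by rw [hy, hxe]) hy2 (W := W) (by
      intro w hw
      obtain ⟨p, hp, rfl⟩ := Finset.mem_image.1 (hWsub hw)
      rw [Finset.mem_product] at hp
      exact ⟨p.1, hp.1, p.2, hp.2, rfl⟩) hWs
  have hlo := h.lower (y := y) hrs hrs1 hδt ht2 (by
      intro x' hx'
      have e1 := hfar x' hx'
      rw [← hy] at e1
      refine lt_of_le_of_lt ?_ e1
      rw [ht, div_le_div_iff₀ hrs0 (by positivity)]
      have e2 : 2 * r2 ≤ r1 * r := hr2lt.le.trans (by gcongr)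
      have e3 : 2 * (δ / (r1 * r)) * (rs * r2) = δ * rs * ((2 * r2) / (r1 * r)) := by ring
      rw [e3]
      calc δ * rs * ((2 * r2) / (r1 * r)) ≤ δ * rs * 1 := by
            gcongr
            rw [div_le_one (by positivity)]
            exact e2
        _ = _ := mul_one _) (W := W) (by
      intro z hz z' hz'
      exact hWn _ (Finset.mem_image.2 ⟨(z, z'), Finset.mem_product.2 ⟨hz, hz'⟩, rfl⟩))
  have hpt := h.pos t hδt (by linarith)
  have e1 : N rs * N t ≤ K ^ 307 * N t := by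
    calc N rs * N t ≤ K ^ 5 * #W := hlo
      _ ≤ K ^ 5 * (K ^ 302 * N t) := by gcongr
      _ = _ := by ring
  have e2 : N rs ≤ K ^ 307 := le_of_mul_le_mul_right e1 hpt
  have e3 : K ^ 307 < K ^ 309 := pl (by norm_num)
  linarith

end DatZ

end Vale.Agent.P065.UB.H196
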