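import Vale.Agent.P065.UB.H196.UK
import Vale.Agent.P065.UB.H196.EndDefs

/-!
# P065, upper bound: packing numbers, counting for sets of reals (helper196)
-/

set_option autoImplicit false

namespace Vale.Agent.P065.UB.H196

open Finset
open Vale.Agent.P065.H196 (MaxSep)

/-- packing number -/
noncomputable def pk (S : Finset ℝ) (t : ℝ) : ℕ := by
  classical
  exact (S.powerset.filter (fun W => ∀ u ∈ W, ∀ v ∈ W, u ≠ v → t ≤ |u - v|)).sup Finset.card

lemma le_pk {S P : Finset ℝ} {t : ℝ} (hP : P ⊆ S)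
    (hs : ∀ u ∈ P, ∀ v ∈ P, u ≠ v → t ≤ |u - v|) : #P ≤ pk S t := by
  classical
  unfold pk
  exact Finset.le_sup (f := Finset.card)
    (Finset.mem_filter.2 ⟨Finset.mem_powerset.2 hP, hs⟩)

lemma pk_spec (S : Finset ℝ) {t : ℝ} (ht : 0 < t) : ∃ P, MaxSep S t P ∧ #P = pk S t := by
  classical
  obtain ⟨W, hW, hmax⟩ := (S.powerset.filter
    (fun W => ∀ u ∈ W, ∀ v ∈ W, u ≠ v → t ≤ |u - v|)).exists_max_image Finset.card
    ⟨∅, by simp⟩
  have hW' := hW
  rw [Finset.mem_filter, Finset.mem_powerset] at hW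
  refine ⟨W, ⟨hW.1, hW.2, fun s hs => ?_⟩, ?_⟩
  · by_contra hcon
    push Not at hcon
    have hsW : s ∉ W := by
      intro h
      have := hcon s h
      rw [sub_self, abs_zero] at this
      linarith
    have h1 := hmax (insert s W) (by
      rw [Finset.mem_filter, Finset.mem_powerset]
      refine ⟨Finset.insert_subset hs hW.1, ?_⟩
      intro u hu v hv huv
      rw [Finset.mem_insert] at hu hv
      rcases hu with rfl | hu
      · rcases hv with rfl | hv
        · exact absurd rfl huv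
        · exact hcon v hv
      · rcases hv with rfl | hv
        · rw [abs_sub_comm]
          exact hcon u hu
        · exact hW.2 u hu v hv huv)
    rw [Finset.card_insert_of_notMem hsW] at h1
    omega
  · unfold pk
    apply le_antisymm
    · exact Finset.le_sup (f := Finset.card) hW'
    · exact Finset.sup_le fun W' hW' => hmax W' hW'

lemma pk_anti (S : Finset ℝ) {s t : ℝ} (hst : s ≤ t) (ht : 0 < t) : pk S t ≤ pk S s := by
  obtain ⟨P, hP, hc⟩ := pk_spec S ht
  rw [← hc]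
  exact le_pk hP.1 fun u hu v hv huv => hst.trans (hP.2.1 u hu v hv huv)

lemma pk_mono {S S' : Finset ℝ} (h : S ⊆ S') {t : ℝ} (ht : 0 < t) : pk S t ≤ pk S' t := by
  obtain ⟨P, hP, hc⟩ := pk_spec S ht
  rw [← hc]
  exact le_pk (hP.1.trans h) hP.2.1

lemma pk_pos {S : Finset ℝ} (hS : S.Nonempty) (t : ℝ) : 1 ≤ pk S t := by
  obtain ⟨x, hx⟩ := hS
  have := le_pk (S := S) (P := {x}) (t := t) (by simpa using hx) (by
    intro u hu v hv huv
    rw [Finset.mem_singleton] at hu hv
    exact absurd (hu.trans hv.symm) huv)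
  simpa using this

/-- separated points in an interval -/
lemma sep_card {U : Finset ℝ} {s R c : ℝ} (hs : 0 < s) (hR : 0 ≤ R)
    (hU : ∀ u ∈ U, ∀ v ∈ U, u ≠ v → s ≤ |u - v|) (h : ∀ u ∈ U, |u - c| ≤ R) :
    (#U : ℝ) ≤ 2 * R / s + 1 := by
  classical
  have hinj : Set.InjOn (fun u : ℝ => ⌊(u - (c - R)) / s⌋) U := by
    intro x hx y hy hxy
    by_contra hne
    have h2 := hU x hx y hy hne
    have h3 := Int.abs_sub_lt_one_of_floor_eq_floor hxy
    rw [← sub_div, abs_div, abs_of_pos hs, div_lt_one hs] at h3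
    have : x - (c - R) - (y - (c - R)) = x - y := by ring
    rw [this] at h3
    linarith
  have hmaps : ∀ u ∈ U, (fun u : ℝ => ⌊(u - (c - R)) / s⌋) u ∈ Finset.Icc (0 : ℤ) ⌊2 * R / s⌋ := by
    intro u hu
    have h1 := abs_le.1 (h u hu)
    rw [Finset.mem_Icc]
    constructor
    · apply Int.floor_nonneg.2
      apply div_nonneg _ hs.le
      linarith
    · apply Int.floor_le_floor
      gcongr
      linarith
  have h4 := Finset.card_le_card_of_injOn _ hmaps hinj
  rw [Int.card_Icc] at h4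
  have h5 : 0 ≤ ⌊2 * R / s⌋ := Int.floor_nonneg.2 (by positivity)
  have h6 : ((⌊2 * R / s⌋ + 1 - 0).toNat : ℤ) = ⌊2 * R / s⌋ + 1 - 0 := Int.toNat_of_nonneg (by omega)
  have h7 : (#U : ℤ) ≤ ⌊2 * R / s⌋ + 1 - 0 := by rw [← h6]; exact_mod_cast h4
  have h8 : (#U : ℝ) ≤ ((⌊2 * R / s⌋ + 1 - 0 : ℤ) : ℝ) := by exact_mod_cast h7
  push_cast at h8
  have h9 := Int.floor_le (2 * R / s)
  linarith

/-- covering by balls of a separated set -/
lemma sep_cover {U C : Finset ℝ} {s R : ℝ} (hs : 0 < s) (hR : 0 ≤ R)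
    (hU : ∀ u ∈ U, ∀ v ∈ U, u ≠ v → s ≤ |u - v|) (h : ∀ u ∈ U, ∃ c ∈ C, |u - c| ≤ R) :
    (#U : ℝ) ≤ (2 * R / s + 1) * #C := by
  classical
  have h1 : U ⊆ C.biUnion (fun c => U.filter (fun u => |u - c| ≤ R)) := by
    intro u hu
    obtain ⟨c, hc, huc⟩ := h u hu
    exact Finset.mem_biUnion.2 ⟨c, hc, Finset.mem_filter.2 ⟨hu, huc⟩⟩
  have h2 := (Finset.card_le_card h1).trans Finset.card_biUnion_le
  calc (#U : ℝ) ≤ ((∑ c ∈ C, #(U.filter (fun u => |u - c| ≤ R)) : ℕ) : ℝ) := by exact_mod_cast h2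
    _ = ∑ c ∈ C, (#(U.filter (fun u => |u - c| ≤ R)) : ℝ) := by push_cast; rfl
    _ ≤ ∑ c ∈ C, (2 * R / s + 1) := by
        refine Finset.sum_le_sum fun c _ => sep_card (c := c) hs hR ?_ ?_
        · intro u hu v hv huv
          exact hU u (Finset.mem_filter.1 hu).1 v (Finset.mem_filter.1 hv).1 huv
        · intro u hu
          exact (Finset.mem_filter.1 hu).2
    _ = _ := by simp; ring

/-- dilation of the scale -/
lemma pk_dil (S : Finset ℝ) {t c : ℝ} (ht : 0 < t) (hc : 0 < c) :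
    (pk S t : ℝ) ≤ (2 * c + 1) * pk S (c * t) := by
  obtain ⟨P, hP, hPc⟩ := pk_spec S ht
  obtain ⟨Q, hQ, hQc⟩ := pk_spec S (t := c * t) (by positivity)
  rw [← hPc, ← hQc]
  have h1 := sep_cover (U := P) (C := Q) (s := t) (R := c * t) ht (by positivity) hP.2.1 (by
    intro u hu
    obtain ⟨w, hw, hw2⟩ := hQ.2.2 u (hP.1 hu)
    exact ⟨w, hw, hw2.le⟩)
  have h2 : 2 * (c * t) / t + 1 = 2 * c + 1 := by field_simp
  rwa [h2] at h1

/-- a scale with prescribed value of an antitone function -/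
lemma scale_of {f : ℝ → ℝ} {K δ Θ : ℝ} (hK : 1 ≤ K) (hδ : 0 < δ) (hδ1 : δ ≤ 1)
    (anti : ∀ s t, 0 < s → s ≤ t → f t ≤ f s) (half : ∀ t, 0 < t → f (t / 2) ≤ K * f t)
    (h1 : f 1 ≤ K * Θ) (hn : Θ ≤ f δ) : ∃ t, δ ≤ t ∧ t ≤ 1 ∧ Θ ≤ f t ∧ f t ≤ K * Θ := by
  classical
  have hex : ∃ j : ℕ, (1 / 2 : ℝ) ^ j < δ ∨ Θ ≤ f ((1 / 2) ^ j) := by
    obtain ⟨j, hj⟩ := exists_pow_lt_of_lt_one hδ (by norm_num : (1 / 2 : ℝ) < 1)
    exact ⟨j, Or.inl hj⟩
  have hmin : ∀ {m : ℕ}, m < Nat.find hex → ¬ ((1 / 2 : ℝ) ^ m < δ ∨ Θ ≤ f ((1 / 2) ^ m)) :=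
    fun {m} hm => Nat.find_min hex hm
  have hspec := Nat.find_spec hex
  set j := Nat.find hex with hj
  rcases Nat.eq_zero_or_pos j with hj0 | hjpos
  · rw [hj0] at hspec
    simp only [pow_zero] at hspec
    rcases hspec with h2 | h2
    · linarith
    · exact ⟨1, hδ1, le_refl _, h2, h1⟩
  · obtain ⟨i, hi⟩ : ∃ i, j = i + 1 := ⟨j - 1, by omega⟩
    have h2 := hmin (m := i) (by omega)
    push Not at h2
    obtain ⟨h3, h4⟩ := h2
    have hle1 : ((1 : ℝ) / 2) ^ i ≤ 1 := pow_le_one₀ (by norm_num) (by norm_num)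
    have hhalf : ((1 : ℝ) / 2) ^ j = (1 / 2) ^ i / 2 := by rw [hi, pow_succ]; ring
    have h5 : f ((1 / 2) ^ j) ≤ K * Θ := by
      rw [hhalf]
      refine (half _ (by positivity)).trans ?_
      gcongr
    by_cases h6 : δ ≤ (1 / 2 : ℝ) ^ j
    · refine ⟨(1 / 2) ^ j, h6, pow_le_one₀ (by norm_num) (by norm_num), ?_, h5⟩
      rcases hspec with h7 | h7
      · exact absurd h6 (not_le.2 h7)
      · exact h7
    · refine ⟨δ, le_refl _, hδ1, hn, ?_⟩
      exact (anti _ _ (by positivity) (not_le.1 h6).le).trans h5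

/-- **COUNT** for sets of reals, with localisation -/
theorem countR {A : Finset ℝ} {U : Finset ℝ} {w T s e ν ω ω' u₀ τ D w' : ℝ} (hT : 0 < T)
    (hs : 0 < s) (hω0 : 0 ≤ ω) (hw : w ≤ 2 * (s * T))
    (hU : ∀ u ∈ U, ∀ v ∈ U, u ≠ v → s ≤ |u - v|)
    (hν : ∑ b ∈ A, ∑ b' ∈ A, (if |b - b'| ≤ T then (1 : ℝ) else 0) ≤ ν)
    (hω : ∀ x : ℝ, ∑ a ∈ A, (if |a - x| < w then (1 : ℝ) else 0) ≤ ω)
    (he : ∀ u ∈ U, e ≤ ∑ p ∈ A ×ˢ A, ∑ q ∈ A ×ˢ A,
      (if |(p.1 - q.1) + u * (p.2 - q.2)| < w then (1 : ℝ) else 0))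
    (hne : #A * ν * ω ≤ e / 2)
    (hu₀ : ∀ u ∈ U, |u - u₀| ≤ τ) (hD : ∀ b ∈ A, ∀ b' ∈ A, |b - b'| ≤ D) (hτ : 0 ≤ τ)
    (hw' : w + τ * D ≤ w')
    (hω' : ∀ x : ℝ, ∑ a ∈ A, (if |a - x| < w' then (1 : ℝ) else 0) ≤ ω') :
    #U * e ≤ 8 * ((#A : ℝ) ^ 3 * ω') := by
  classical
  -- near part
  have hnear : ∀ u ∈ U, ∑ p ∈ A ×ˢ A, ∑ q ∈ A ×ˢ A,
      (if |(p.1 - q.1) + u * (p.2 - q.2)| < w ∧ |p.2 - q.2| ≤ T then (1 : ℝ) else 0)
        ≤ #A * ν * ω := by
    intro u _
    have h1 : ∑ p ∈ A ×ˢ A, ∑ q ∈ A ×ˢ A,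
      (if |(p.1 - q.1) + u * (p.2 - q.2)| < w ∧ |p.2 - q.2| ≤ T then (1 : ℝ) else 0)
        = ∑ b ∈ A, ∑ b' ∈ A, (if |b - b'| ≤ T then (1 : ℝ) else 0) *
          ∑ a ∈ A, ∑ a' ∈ A, (if |(a - a') + u * (b - b')| < w then (1 : ℝ) else 0) := by
      rw [Finset.sum_product_right]
      refine Finset.sum_congr rfl fun b hb => ?_
      have h2 : ∀ a ∈ A, ∑ q ∈ A ×ˢ A,
          (if |((a, b) : ℝ × ℝ).1 - q.1 + u * (((a, b) : ℝ × ℝ).2 - q.2)| < w ∧
            |((a, b) : ℝ × ℝ).2 - q.2| ≤ T then (1 : ℝ) else 0)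
          = ∑ b' ∈ A, ∑ a' ∈ A, (if |b - b'| ≤ T then (1 : ℝ) else 0) *
            (if |(a - a') + u * (b - b')| < w then (1 : ℝ) else 0) := by
        intro a _
        rw [Finset.sum_product_right]
        refine Finset.sum_congr rfl fun b' _ => Finset.sum_congr rfl fun a' _ => ?_
        by_cases c1 : |b - b'| ≤ T
        · simp [c1]
        · simp [c1]
      rw [Finset.sum_congr rfl h2, Finset.sum_comm]
      refine Finset.sum_congr rfl fun b' _ => ?_
      rw [Finset.mul_sum]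
      refine Finset.sum_congr rfl fun a _ => ?_
      rw [Finset.mul_sum]
    rw [h1]
    have h3 : ∀ b b' : ℝ, ∑ a ∈ A, ∑ a' ∈ A,
        (if |(a - a') + u * (b - b')| < w then (1 : ℝ) else 0) ≤ #A * ω := by
      intro b b'
      calc _ ≤ ∑ a ∈ A, ω := by
            refine Finset.sum_le_sum fun a _ => ?_
            have := hω (a + u * (b - b'))
            refine le_trans (le_of_eq ?_) this
            refine Finset.sum_congr rfl fun a' _ => ?_
            have e1 : |a' - (a + u * (b - b'))| = |(a - a') + u * (b - b')| := by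
              rw [← abs_neg]
              congr 1
              ring
            rw [e1]
        _ = _ := by simp
    calc _ ≤ ∑ b ∈ A, ∑ b' ∈ A, (if |b - b'| ≤ T then (1 : ℝ) else 0) * (#A * ω) := by
          refine Finset.sum_le_sum fun b _ => Finset.sum_le_sum fun b' _ => ?_
          refine mul_le_mul_of_nonneg_left (h3 b b') ?_
          split_ifs <;> norm_num
      _ = (∑ b ∈ A, ∑ b' ∈ A, (if |b - b'| ≤ T then (1 : ℝ) else 0)) * (#A * ω) := by
          rw [Finset.sum_mul]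
          refine Finset.sum_congr rfl fun b _ => ?_
          rw [Finset.sum_mul]
      _ ≤ ν * (#A * ω) := by gcongr
      _ = _ := by ring
  -- far part
  have hfar : ∀ u ∈ U, e / 2 ≤ ∑ p ∈ A ×ˢ A, ∑ q ∈ A ×ˢ A,
      (if |(p.1 - q.1) + u * (p.2 - q.2)| < w ∧ T < |p.2 - q.2| then (1 : ℝ) else 0) := by
    intro u hu
    have h1 := hnear u hu
    have h2 := he u hu
    have h3 : ∑ p ∈ A ×ˢ A, ∑ q ∈ A ×ˢ A,
        (if |(p.1 - q.1) + u * (p.2 - q.2)| < w then (1 : ℝ) else 0)
        = ∑ p ∈ A ×ˢ A, ∑ q ∈ A ×ˢ A,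
          (if |(p.1 - q.1) + u * (p.2 - q.2)| < w ∧ |p.2 - q.2| ≤ T then (1 : ℝ) else 0)
        + ∑ p ∈ A ×ˢ A, ∑ q ∈ A ×ˢ A,
          (if |(p.1 - q.1) + u * (p.2 - q.2)| < w ∧ T < |p.2 - q.2| then (1 : ℝ) else 0) := by
      rw [← Finset.sum_add_distrib]
      refine Finset.sum_congr rfl fun p _ => ?_
      rw [← Finset.sum_add_distrib]
      refine Finset.sum_congr rfl fun q _ => ?_
      by_cases c1 : |(p.1 - q.1) + u * (p.2 - q.2)| < w
      · by_cases c2 : |p.2 - q.2| ≤ T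
        · simp [c1, c2, not_lt.2 c2]
        · simp [c1, c2, not_le.1 c2]
      · simp [c1]
    linarith
  have hsum : #U * (e / 2) ≤ ∑ u ∈ U, ∑ p ∈ A ×ˢ A, ∑ q ∈ A ×ˢ A,
      (if |(p.1 - q.1) + u * (p.2 - q.2)| < w ∧ T < |p.2 - q.2| then (1 : ℝ) else 0) := by
    calc (#U : ℝ) * (e / 2) = ∑ u ∈ U, e / 2 := by simp
      _ ≤ _ := Finset.sum_le_sum hfar
  have hswap : ∑ u ∈ U, ∑ p ∈ A ×ˢ A, ∑ q ∈ A ×ˢ A,
      (if |(p.1 - q.1) + u * (p.2 - q.2)| < w ∧ T < |p.2 - q.2| then (1 : ℝ) else 0)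
      ≤ 4 * ((#A : ℝ) ^ 3 * ω') := by
    rw [Finset.sum_comm]
    have h1 : ∀ p ∈ A ×ˢ A, ∑ u ∈ U, ∑ q ∈ A ×ˢ A,
        (if |(p.1 - q.1) + u * (p.2 - q.2)| < w ∧ T < |p.2 - q.2| then (1 : ℝ) else 0)
        ≤ 4 * ((#A : ℝ) * ω') := by
      intro p hp
      rw [Finset.sum_comm]
      calc _ ≤ ∑ q ∈ A ×ˢ A, 4 * (if |(p.1 - q.1) + u₀ * (p.2 - q.2)| < w' then (1 : ℝ) else 0) := by
            refine Finset.sum_le_sum fun q hq => ?_
            by_cases c2 : T < |p.2 - q.2|
            · have h2 : ∑ u ∈ U, (if |(p.1 - q.1) + u * (p.2 - q.2)| < w ∧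
                  T < |p.2 - q.2| then (1 : ℝ) else 0)
                  = #(U.filter (fun u => |(p.1 - q.1) + u * (p.2 - q.2)| < w)) := by
                rw [Finset.card_filter]
                push_cast
                refine Finset.sum_congr rfl fun u _ => ?_
                simp [c2]
              rw [h2]
              have hb0 : p.2 - q.2 ≠ 0 := by
                intro h0
                rw [h0, abs_zero] at c2
                linarith
              have h3 : #(U.filter (fun u => |(p.1 - q.1) + u * (p.2 - q.2)| < w)) ≤ 4 := by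
                refine card_sep_le hs (c := -((p.1 - q.1) / (p.2 - q.2))) ?_ ?_
                · intro u hu v hv huv
                  exact hU u (Finset.mem_filter.1 hu).1 v (Finset.mem_filter.1 hv).1 huv
                · intro u hu
                  have h4 := (Finset.mem_filter.1 hu).2
                  have h5 : (p.1 - q.1) + u * (p.2 - q.2)
                      = (u - -((p.1 - q.1) / (p.2 - q.2))) * (p.2 - q.2) := by
                    field_simp
                    ring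
                  rw [h5, abs_mul] at h4
                  have h6 : |u - -((p.1 - q.1) / (p.2 - q.2))| * T < 2 * (s * T) := by
                    calc _ ≤ |u - -((p.1 - q.1) / (p.2 - q.2))| * |p.2 - q.2| := by
                          gcongr
                      _ < w := h4
                      _ ≤ _ := hw
                  have h7 : |u - -((p.1 - q.1) / (p.2 - q.2))| * T < (2 * s) * T := by
                    linarith
                  exact lt_of_mul_lt_mul_right h7 hT.le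
              rcases (U.filter (fun u => |(p.1 - q.1) + u * (p.2 - q.2)| < w)).eq_empty_or_nonempty
                with h8 | ⟨u, hu⟩
              · rw [h8]
                simp only [Finset.card_empty, Nat.cast_zero]
                split_ifs <;> norm_num
              · obtain ⟨hu1, hu2⟩ := Finset.mem_filter.1 hu
                have hq2 := (Finset.mem_product.1 hq).2
                have hp2 := (Finset.mem_product.1 hp).2
                have h9 : |(p.1 - q.1) + u₀ * (p.2 - q.2)| < w' := by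
                  have e1 : (p.1 - q.1) + u₀ * (p.2 - q.2)
                      = ((p.1 - q.1) + u * (p.2 - q.2)) - (u - u₀) * (p.2 - q.2) := by ring
                  rw [e1]
                  have e2 := abs_sub ((p.1 - q.1) + u * (p.2 - q.2)) ((u - u₀) * (p.2 - q.2))
                  have e3 : |(u - u₀) * (p.2 - q.2)| ≤ τ * D := by
                    rw [abs_mul]
                    exact mul_le_mul (hu₀ u hu1) (hD _ hp2 _ hq2) (abs_nonneg _) hτ
                  linarith
                rw [if_pos h9]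
                have : (#(U.filter (fun u => |(p.1 - q.1) + u * (p.2 - q.2)| < w)) : ℝ) ≤ 4 := by
                  exact_mod_cast h3
                linarith
            · have h2 : ∀ u ∈ U, (if |(p.1 - q.1) + u * (p.2 - q.2)| < w ∧
                  T < |p.2 - q.2| then (1 : ℝ) else 0) = 0 := by
                intro u _
                simp [c2]
              rw [Finset.sum_congr rfl h2]
              simp only [Finset.sum_const_zero]
              split_ifs <;> norm_num
        _ = 4 * ∑ b' ∈ A, ∑ a' ∈ A,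
              (if |(p.1 - a') + u₀ * (p.2 - b')| < w' then (1 : ℝ) else 0) := by
            rw [← Finset.mul_sum, Finset.sum_product_right]
        _ ≤ 4 * ∑ b' ∈ A, ω' := by
            gcongr with b' _
            have := hω' (p.1 + u₀ * (p.2 - b'))
            refine le_trans (le_of_eq ?_) this
            refine Finset.sum_congr rfl fun a' _ => ?_
            have e1 : |a' - (p.1 + u₀ * (p.2 - b'))| = |(p.1 - a') + u₀ * (p.2 - b')| := by
              rw [← abs_neg]
              congr 1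
              ring
            rw [e1]
        _ = _ := by simp
    calc _ ≤ ∑ p ∈ A ×ˢ A, 4 * ((#A : ℝ) * ω') := Finset.sum_le_sum h1
      _ = _ := by
          simp only [Finset.sum_const, Finset.card_product, nsmul_eq_mul, Nat.cast_mul]
          ring
  linarith

end Vale.Agent.P065.UB.H196
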