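import Vale.Agent.P065.UB.H822.Area

/-!
# P065, upper bound, [DIM], RUN0: the core (helper196)

A heavy box `B` of side `4 r` in the coordinates `X, Y`; every square of side `2 δ` is light and
`r ≤ lam g δ`. Then every dense subset of `B` has a triangle of area `≥ r ^ 2 / g ^ 3`
(`big_triangle`). The points with small `y` (close to the line `X = Y / ρ`) are few (`strip_light`);
on the rest the original area `D` and the area in the box are comparable: property (NC).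
-/

set_option autoImplicit false

namespace Vale.Agent.P065.UB.H196

open Finset
open Vale.Agent.P065.UB.H822 (det3 few_squares)

variable {α : Type*}

/-- **(LA)** dense subsets of a box contain big triangles -/
theorem big_triangle (T : Finset α) (X Y : α → ℝ) {x0 y0 r δ lam g K M N : ℝ}
    (hbox : ∀ q ∈ T, |X q - x0| ≤ 2 * r ∧ |Y q - y0| ≤ 2 * r) (hδ : 0 < δ) (hr : 0 < r)
    (hrg : r ≤ lam * g * δ) (hlam : 0 < lam)
    (hcell : ∀ s t : ℝ, lam ^ 2 * #{q ∈ T | |X q - s| ≤ δ ∧ |Y q - t| ≤ δ} ≤ K * N)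
    (hN : 0 < N) (hK : 1 ≤ K) (hM : 1 ≤ M) (hT : N ≤ M * #T)
    (hg : 300 * K * M ≤ g) (hgl : g ^ 3 ≤ lam) :
    ∃ p ∈ T, ∃ q ∈ T, ∃ z ∈ T, r ^ 2 / g ^ 3 ≤ |det3 (X p) (Y p) (X q) (Y q) (X z) (Y z)| := by
  classical
  by_contra hcon
  push Not at hcon
  have hg300 : 300 ≤ g := by nlinarith
  have hg0 : 0 < g := by linarith
  set m : ℕ := ⌊K * N / lam ^ 2⌋₊ with hm
  have hm1 : (m : ℝ) ≤ K * N / lam ^ 2 := Nat.floor_le (by positivity)
  have hsq : ∀ s t : ℝ, #{z ∈ T | s ≤ X z ∧ X z ≤ s + 2 * δ ∧ t ≤ Y z ∧ Y z ≤ t + 2 * δ} ≤ m := by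
    intro s t
    have h1 := hcell (s + δ) (t + δ)
    have h2 : #{z ∈ T | s ≤ X z ∧ X z ≤ s + 2 * δ ∧ t ≤ Y z ∧ Y z ≤ t + 2 * δ} ≤
        #{q ∈ T | |X q - (s + δ)| ≤ δ ∧ |Y q - (t + δ)| ≤ δ} := by
      apply Finset.card_le_card
      intro z hz
      obtain ⟨hz0, h1, h2, h3, h4⟩ := Finset.mem_filter.1 hz
      exact Finset.mem_filter.2 ⟨hz0, abs_le.2 ⟨by linarith, by linarith⟩,
        abs_le.2 ⟨by linarith, by linarith⟩⟩
    rw [hm]
    apply Nat.le_floor
    rw [le_div_iff₀ (by positivity), mul_comm]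
    refine le_trans ?_ h1
    have h3 : ((#{z ∈ T | s ≤ X z ∧ X z ≤ s + 2 * δ ∧ t ≤ Y z ∧ Y z ≤ t + 2 * δ} : ℕ) : ℝ) ≤
        ((#{q ∈ T | |X q - (s + δ)| ≤ δ ∧ |Y q - (t + δ)| ≤ δ} : ℕ) : ℝ) := by exact_mod_cast h2
    exact mul_le_mul_of_nonneg_left h3 (by positivity)
  have hX : ∀ p ∈ T, ∀ q ∈ T, |X q - X p| ≤ 4 * r := by
    intro p hp q hq
    have h1 := abs_le.1 (hbox p hp).1
    have h2 := abs_le.1 (hbox q hq).1
    exact abs_le.2 ⟨by linarith, by linarith⟩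
  have hY : ∀ p ∈ T, ∀ q ∈ T, |Y q - Y p| ≤ 4 * r := by
    intro p hp q hq
    have h1 := abs_le.1 (hbox p hp).2
    have h2 := abs_le.1 (hbox q hq).2
    exact abs_le.2 ⟨by linarith, by linarith⟩
  have h1 := few_squares T X Y (d := 2 * δ) (r := 4 * r) (al := r ^ 2 / g ^ 3) m (by linarith)
    (by positivity) (by linarith) hX hY hsq (fun p hp q hq z hz => (hcon p hp q hq z hz).le)
  -- arithmetic
  have h2 : r ^ 2 / g ^ 3 / (2 * δ) ^ 2 ≤ lam ^ 2 / (4 * g) := by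
    rw [div_div, div_le_div_iff₀ (by positivity) (by positivity)]
    have h3 : r ^ 2 ≤ (lam * g * δ) ^ 2 := pow_le_pow_left₀ hr.le hrg 2
    calc r ^ 2 * (4 * g) ≤ (lam * g * δ) ^ 2 * (4 * g) := by gcongr
      _ = lam ^ 2 * (g ^ 3 * (2 * δ) ^ 2) := by ring
  have h3 : 4 * r / (2 * δ) ≤ 2 * (lam * g) := by
    rw [div_le_iff₀ (by positivity)]
    nlinarith
  have h4 : r ^ 2 / g ^ 3 / (2 * δ) ^ 2 + 4 * r / (2 * δ) + 1 ≤ lam ^ 2 / g := by
    have h5 : lam * g ≤ lam ^ 2 / g ^ 2 := by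
      rw [le_div_iff₀ (by positivity)]
      calc lam * g * g ^ 2 = lam * g ^ 3 := by ring
        _ ≤ lam * lam := by gcongr
        _ = lam ^ 2 := by ring
    have h6 : lam ^ 2 / g ^ 2 ≤ lam ^ 2 / g / 300 := by
      rw [div_div, div_le_div_iff₀ (by positivity) (by positivity)]
      have : g * 300 ≤ g ^ 2 := by nlinarith
      exact mul_le_mul_of_nonneg_left this (by positivity)
    have h7 : (1 : ℝ) ≤ lam ^ 2 / g / 300 := by
      refine le_trans ?_ h6
      rw [le_div_iff₀ (by positivity), one_mul]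
      have h8 : g ≤ lam := le_trans (by nlinarith [sq_nonneg g]) hgl
      exact pow_le_pow_left₀ hg0.le h8 2
    have h8 : lam ^ 2 / (4 * g) = lam ^ 2 / g / 4 := by rw [div_div, mul_comm g 4]
    rw [h8] at h2
    have h9 : 0 ≤ lam ^ 2 / g := by positivity
    linarith
  have h5 : (#T : ℝ) ≤ 24 * (K * N / lam ^ 2) * (lam ^ 2 / g) := by
    refine h1.trans ?_
    apply mul_le_mul _ h4 (by positivity) (by positivity)
    exact mul_le_mul_of_nonneg_left hm1 (by norm_num)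
  have h6 : 24 * (K * N / lam ^ 2) * (lam ^ 2 / g) = 24 * K * N / g := by
    field_simp
  rw [h6] at h5
  have h7 : M * (#T : ℝ) ≤ M * (24 * K * N / g) := mul_le_mul_of_nonneg_left h5 (by linarith)
  have h8 : M * (24 * K * N / g) = (24 * K * M) * N / g := by ring
  rw [h8] at h7
  have h9 : (24 * K * M) * N / g < N := by
    rw [div_lt_iff₀ hg0]
    have : 24 * K * M < g := by nlinarith
    nlinarith
  linarith

/-- **strip cut**: the triangles of points with small `y` are small -/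
theorem strip_light (B : Finset α) (X Y y : α → ℝ) {x0 y0 r g ρ τ ym : ℝ}
    (hbox : ∀ q ∈ B, |X q - x0| ≤ 2 * r ∧ |Y q - y0| ≤ 2 * r) (hpos : ∀ q ∈ B, 0 < y q)
    (hρ : ρ ≠ 0) (hrel : ∀ q ∈ B, X q - Y q / ρ = τ * y q) (hr : 0 < r) (hg : 300 ≤ g)
    (hym : ∃ q ∈ B, y q = ym) :
    ∀ p ∈ B, ∀ q ∈ B, ∀ z ∈ B, g ^ 4 * y p < ym → g ^ 4 * y q < ym → g ^ 4 * y z < ym →
      |det3 (X p) (Y p) (X q) (Y q) (X z) (Y z)| < r ^ 2 / g ^ 3 := by
  intro p hp q hq z hz h1 h2 h3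
  obtain ⟨q0, hq0, rfl⟩ := hym
  have hg0 : 0 < g := by linarith
  have hg4 : 2 ≤ g ^ 4 := by
    calc (2 : ℝ) ≤ 300 ^ 4 := by norm_num
      _ ≤ g ^ 4 := pow_le_pow_left₀ (by norm_num) hg 4
  have hρ0 : 0 < |ρ| := abs_pos.2 hρ
  have hX : ∀ p ∈ B, ∀ q ∈ B, |X q - X p| ≤ 4 * r := by
    intro p hp q hq
    have h1 := abs_le.1 (hbox p hp).1
    have h2 := abs_le.1 (hbox q hq).1
    exact abs_le.2 ⟨by linarith, by linarith⟩
  have hY : ∀ p ∈ B, ∀ q ∈ B, |Y q - Y p| ≤ 4 * r := by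
    intro p hp q hq
    have h1 := abs_le.1 (hbox p hp).2
    have h2 := abs_le.1 (hbox q hq).2
    exact abs_le.2 ⟨by linarith, by linarith⟩
  -- the strip is narrow
  have hτ : |τ| * y q0 ≤ 8 * r * (1 + 1 / |ρ|) := by
    have e1 : (X q0 - X p) - (Y q0 - Y p) / ρ = τ * (y q0 - y p) := by
      have a := hrel q0 hq0
      have b := hrel p hp
      have : (X q0 - X p) - (Y q0 - Y p) / ρ = (X q0 - Y q0 / ρ) - (X p - Y p / ρ) := by ring
      rw [this, a, b]; ring
    have e2 : |τ * (y q0 - y p)| ≤ 4 * r + 4 * r / |ρ| := by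
      rw [← e1]
      refine (abs_sub _ _).trans ?_
      rw [abs_div]
      have := div_le_div_of_nonneg_right (hY p hp q0 hq0) hρ0.le
      linarith [hX p hp q0 hq0]
    rw [abs_mul] at e2
    have e3 : y q0 / 2 ≤ |y q0 - y p| := by
      have h5 : 2 * y p ≤ g ^ 4 * y p := mul_le_mul_of_nonneg_right hg4 (hpos p hp).le
      exact le_trans (by linarith) (le_abs_self _)
    have e4 : |τ| * (y q0 / 2) ≤ |τ| * |y q0 - y p| :=
      mul_le_mul_of_nonneg_left e3 (abs_nonneg _)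
    have e5 : 8 * r * (1 + 1 / |ρ|) = 2 * (4 * r + 4 * r / |ρ|) := by ring
    rw [e5]; linarith
  -- differences of `y` in the strip
  have hdy : ∀ a b : α, a ∈ B → b ∈ B → g ^ 4 * y a < y q0 → g ^ 4 * y b < y q0 →
      |τ * (y a - y b)| ≤ 8 * r * (1 + 1 / |ρ|) / g ^ 4 := by
    intro a b ha hb h5 h6
    have h7 : |y a - y b| ≤ y q0 / g ^ 4 := by
      rw [le_div_iff₀ (by positivity)]
      have h8 : |y a - y b| ≤ max (y a) (y b) := by
        have ha0 := hpos a ha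
        have hb0 := hpos b hb
        rw [abs_le]
        constructor
        · linarith [le_max_right (y a) (y b)]
        · linarith [le_max_left (y a) (y b)]
      have h9 : max (y a) (y b) * g ^ 4 ≤ y q0 := by
        rcases max_choice (y a) (y b) with h | h <;> rw [h] <;> linarith
      exact (mul_le_mul_of_nonneg_right h8 (by positivity)).trans h9
    rw [abs_mul]
    calc |τ| * |y a - y b| ≤ |τ| * (y q0 / g ^ 4) := mul_le_mul_of_nonneg_left h7 (abs_nonneg _)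
      _ = |τ| * y q0 / g ^ 4 := by ring
      _ ≤ 8 * r * (1 + 1 / |ρ|) / g ^ 4 := div_le_div_of_nonneg_right hτ (by positivity)
  have hfin : 128 * r ^ 2 / g ^ 4 < r ^ 2 / g ^ 3 := by
    rw [div_lt_div_iff₀ (by positivity) (by positivity)]
    have e : r ^ 2 * g ^ 4 = g * (r ^ 2 * g ^ 3) := by ring
    rw [e]
    have : 0 < r ^ 2 * g ^ 3 := by positivity
    nlinarith
  refine lt_of_le_of_lt ?_ hfin
  rcases le_total 1 |ρ| with h1ρ | h1ρ
  · have h5 : 8 * r * (1 + 1 / |ρ|) / g ^ 4 ≤ 16 * r / g ^ 4 := by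
      apply div_le_div_of_nonneg_right _ (by positivity)
      have : 1 / |ρ| ≤ 1 := (div_le_one hρ0).2 h1ρ
      nlinarith
    have e : det3 (X p) (Y p) (X q) (Y q) (X z) (Y z) =
        (τ * (y q - y p)) * (Y z - Y p) - (τ * (y z - y p)) * (Y q - Y p) := by
      have a := hrel p hp
      have b := hrel q hq
      have c := hrel z hz
      have a' : X p = τ * y p + Y p / ρ := by linarith
      have b' : X q = τ * y q + Y q / ρ := by linarith
      have c' : X z = τ * y z + Y z / ρ := by linarith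
      unfold det3
      rw [a', b', c']
      ring
    rw [e]
    calc |(τ * (y q - y p)) * (Y z - Y p) - (τ * (y z - y p)) * (Y q - Y p)|
        ≤ |τ * (y q - y p)| * |Y z - Y p| + |τ * (y z - y p)| * |Y q - Y p| := by
          refine (abs_sub _ _).trans ?_
          rw [abs_mul (τ * (y q - y p)), abs_mul (τ * (y z - y p))]
      _ ≤ (16 * r / g ^ 4) * (4 * r) + (16 * r / g ^ 4) * (4 * r) := by
          apply add_le_add
          · exact mul_le_mul ((hdy q p hq hp h2 h1).trans h5) (hY p hp z hz) (abs_nonneg _)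
              (by positivity)
          · exact mul_le_mul ((hdy z p hz hp h3 h1).trans h5) (hY p hp q hq) (abs_nonneg _)
              (by positivity)
      _ = 128 * r ^ 2 / g ^ 4 := by ring
  · have h5 : |ρ| * (8 * r * (1 + 1 / |ρ|) / g ^ 4) ≤ 16 * r / g ^ 4 := by
      have e1 : |ρ| * (8 * r * (1 + 1 / |ρ|) / g ^ 4) = 8 * r * (|ρ| + 1) / g ^ 4 := by
        field_simp
      rw [e1]
      apply div_le_div_of_nonneg_right _ (by positivity)
      nlinarith
    have hd2 : ∀ a b : α, a ∈ B → b ∈ B → g ^ 4 * y a < y q0 → g ^ 4 * y b < y q0 →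
        |ρ * (τ * (y a - y b))| ≤ 16 * r / g ^ 4 := by
      intro a b ha hb h6 h7
      rw [abs_mul]
      exact (mul_le_mul_of_nonneg_left (hdy a b ha hb h6 h7) (abs_nonneg _)).trans h5
    have e : det3 (X p) (Y p) (X q) (Y q) (X z) (Y z) =
        (X z - X p) * (ρ * (τ * (y q - y p))) - (X q - X p) * (ρ * (τ * (y z - y p))) := by
      have a := hrel p hp
      have b := hrel q hq
      have c := hrel z hz
      have a' : Y p = ρ * (X p - τ * y p) := by rw [← a]; field_simp; ring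
      have b' : Y q = ρ * (X q - τ * y q) := by rw [← b]; field_simp; ring
      have c' : Y z = ρ * (X z - τ * y z) := by rw [← c]; field_simp; ring
      unfold det3
      rw [a', b', c']
      ring
    rw [e]
    calc |(X z - X p) * (ρ * (τ * (y q - y p))) - (X q - X p) * (ρ * (τ * (y z - y p)))|
        ≤ |X z - X p| * |ρ * (τ * (y q - y p))| + |X q - X p| * |ρ * (τ * (y z - y p))| := by
          refine (abs_sub _ _).trans ?_
          rw [abs_mul (X z - X p), abs_mul (X q - X p)]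
      _ ≤ (4 * r) * (16 * r / g ^ 4) + (4 * r) * (16 * r / g ^ 4) := by
          apply add_le_add
          · exact mul_le_mul (hX p hp z hz) (hd2 q p hq hp h2 h1) (abs_nonneg _) (by positivity)
          · exact mul_le_mul (hX p hp q hq) (hd2 z p hz hp h3 h1) (abs_nonneg _) (by positivity)
      _ = 128 * r ^ 2 / g ^ 4 := by ring

/-- **[RUN0], core** -/
theorem run0_core (B : Finset α) (X Y y : α → ℝ) (D : α → α → α → ℝ)
    {x0 y0 r δ lam g K M E N ρ τ : ℝ}
    (hbox : ∀ q ∈ B, |X q - x0| ≤ 2 * r ∧ |Y q - y0| ≤ 2 * r) (hpos : ∀ q ∈ B, 0 < y q)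
    (hρ : ρ ≠ 0) (hτ : τ ≠ 0) (hrel : ∀ q ∈ B, X q - Y q / ρ = τ * y q)
    (hD : ∀ p ∈ B, ∀ q ∈ B, ∀ z ∈ B, |D p q z| * (y p * y q * y z) * (|ρ| * |τ|) =
      |det3 (X p) (Y p) (X q) (Y q) (X z) (Y z)|)
    (hδ : 0 < δ) (hr : 0 < r) (hrg : r ≤ lam * g * δ) (hlam : 0 < lam)
    (hcell : ∀ s t : ℝ, lam ^ 2 * #{q ∈ B | |X q - s| ≤ δ ∧ |Y q - t| ≤ δ} ≤ K * N)
    (hN : 0 < N) (hK : 1 ≤ K) (hE : 1 ≤ E) (hB : N < E * #B) (hM : 2 * E ≤ M)
    (hg : 300 * K * M ≤ g) (hgl : g ^ 3 ≤ lam) :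
    ∃ S ⊆ B, ∃ al : ℝ, 0 < al ∧ (∀ p ∈ S, ∀ q ∈ S, ∀ z ∈ S, |D p q z| ≤ al) ∧
      (∀ T ⊆ S, N ≤ M * #T → ∃ p ∈ T, ∃ q ∈ T, ∃ z ∈ T, (g ^ 20)⁻¹ * al ≤ |D p q z|) ∧
      N ≤ 2 * E * #S := by
  classical
  have hM1 : 1 ≤ M := by linarith
  have hg300 : 300 ≤ g := by nlinarith
  have hg0 : 0 < g := by linarith
  have hBne : B.Nonempty := by
    rw [Finset.nonempty_iff_ne_empty]
    rintro rfl
    simp at hB
    linarith
  obtain ⟨q0, hq0, hmax⟩ := Finset.exists_max_image B y hBne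
  set S : Finset α := {q ∈ B | y q0 ≤ g ^ 4 * y q} with hS
  set L : Finset α := {q ∈ B | ¬ y q0 ≤ g ^ 4 * y q} with hL
  have hSB : S ⊆ B := Finset.filter_subset _ _
  have hLB : L ⊆ B := Finset.filter_subset _ _
  have hcard : #S + #L = #B := Finset.card_filter_add_card_filter_not _
  -- restriction of the cell bound
  have hcellT : ∀ T ⊆ B, ∀ s t : ℝ,
      lam ^ 2 * #{q ∈ T | |X q - s| ≤ δ ∧ |Y q - t| ≤ δ} ≤ K * N := by
    intro T hT s t
    refine le_trans ?_ (hcell s t)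
    have : #{q ∈ T | |X q - s| ≤ δ ∧ |Y q - t| ≤ δ} ≤
        #{q ∈ B | |X q - s| ≤ δ ∧ |Y q - t| ≤ δ} :=
      Finset.card_le_card (Finset.filter_subset_filter _ hT)
    have h2 : ((#{q ∈ T | |X q - s| ≤ δ ∧ |Y q - t| ≤ δ} : ℕ) : ℝ) ≤
        ((#{q ∈ B | |X q - s| ≤ δ ∧ |Y q - t| ≤ δ} : ℕ) : ℝ) := by exact_mod_cast this
    exact mul_le_mul_of_nonneg_left h2 (by positivity)
  have hbig : ∀ T ⊆ B, N ≤ M * #T → ∃ p ∈ T, ∃ q ∈ T, ∃ z ∈ T,
      r ^ 2 / g ^ 3 ≤ |det3 (X p) (Y p) (X q) (Y q) (X z) (Y z)| := fun T hT hTN =>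
    big_triangle T X Y (fun q hq => hbox q (hT hq)) hδ hr hrg hlam (hcellT T hT) hN hK hM1 hTN
      hg hgl
  -- the strip is light
  have hlight : M * (#L : ℝ) < N := by
    by_contra hcon
    push Not at hcon
    obtain ⟨p, hp, q, hq, z, hz, h1⟩ := hbig L hLB hcon
    have h2 := strip_light B X Y y hbox hpos hρ hrel hr hg300 ⟨q0, hq0, rfl⟩ p (hLB hp) q (hLB hq)
      z (hLB hz) (not_le.1 (Finset.mem_filter.1 hp).2) (not_le.1 (Finset.mem_filter.1 hq).2)
      (not_le.1 (Finset.mem_filter.1 hz).2)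
    linarith
  have hSN : N ≤ 2 * E * #S := by
    have h1 : (#B : ℝ) = #S + #L := by exact_mod_cast hcard.symm
    rw [h1] at hB
    have h2 : 2 * E * (#L : ℝ) ≤ M * #L := mul_le_mul_of_nonneg_right hM (Nat.cast_nonneg _)
    nlinarith
  have hSM : N ≤ M * #S := hSN.trans (mul_le_mul_of_nonneg_right hM (Nat.cast_nonneg _))
  have hP : 0 < |ρ| * |τ| := mul_pos (abs_pos.2 hρ) (abs_pos.2 hτ)
  have hym : 0 < y q0 := hpos q0 hq0
  -- lower bound for dense sets
  have hlow : ∀ T ⊆ B, N ≤ M * #T → ∃ p ∈ T, ∃ q ∈ T, ∃ z ∈ T,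
      r ^ 2 / g ^ 3 ≤ |D p q z| * (y q0 ^ 3 * (|ρ| * |τ|)) := by
    intro T hT hTN
    obtain ⟨p, hp, q, hq, z, hz, h1⟩ := hbig T hT hTN
    refine ⟨p, hp, q, hq, z, hz, h1.trans ?_⟩
    rw [← hD p (hT hp) q (hT hq) z (hT hz), mul_assoc]
    apply mul_le_mul_of_nonneg_left _ (abs_nonneg _)
    apply mul_le_mul_of_nonneg_right _ hP.le
    have a := hpos p (hT hp)
    have b := hpos q (hT hq)
    have c := hpos z (hT hz)
    calc y p * y q * y z ≤ y q0 * y q0 * y q0 := by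
          apply mul_le_mul (mul_le_mul (hmax p (hT hp)) (hmax q (hT hq)) b.le hym.le)
            (hmax z (hT hz)) c.le (by positivity)
      _ = y q0 ^ 3 := by ring
  -- upper bound on S
  have hup : ∀ p ∈ S, ∀ q ∈ S, ∀ z ∈ S,
      |D p q z| * (y q0 ^ 3 * (|ρ| * |τ|)) ≤ 32 * r ^ 2 * g ^ 12 := by
    intro p hp q hq z hz
    have h1 := hD p (hSB hp) q (hSB hq) z (hSB hz)
    have h2 : |det3 (X p) (Y p) (X q) (Y q) (X z) (Y z)| ≤ 32 * r ^ 2 := by
      have hX : ∀ p ∈ B, ∀ q ∈ B, |X q - X p| ≤ 4 * r := by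
        intro p hp q hq
        have h1 := abs_le.1 (hbox p hp).1
        have h2 := abs_le.1 (hbox q hq).1
        exact abs_le.2 ⟨by linarith, by linarith⟩
      have hY : ∀ p ∈ B, ∀ q ∈ B, |Y q - Y p| ≤ 4 * r := by
        intro p hp q hq
        have h1 := abs_le.1 (hbox p hp).2
        have h2 := abs_le.1 (hbox q hq).2
        exact abs_le.2 ⟨by linarith, by linarith⟩
      unfold det3
      calc |(X q - X p) * (Y z - Y p) - (X z - X p) * (Y q - Y p)|
          ≤ |X q - X p| * |Y z - Y p| + |X z - X p| * |Y q - Y p| := by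
            refine (abs_sub _ _).trans ?_
            rw [abs_mul, abs_mul]
        _ ≤ (4 * r) * (4 * r) + (4 * r) * (4 * r) := by
            apply add_le_add
            · exact mul_le_mul (hX p (hSB hp) q (hSB hq)) (hY p (hSB hp) z (hSB hz))
                (abs_nonneg _) (by positivity)
            · exact mul_le_mul (hX p (hSB hp) z (hSB hz)) (hY p (hSB hp) q (hSB hq))
                (abs_nonneg _) (by positivity)
        _ = 32 * r ^ 2 := by ring
    rw [← h1] at h2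
    have hp' := (Finset.mem_filter.1 hp).2
    have hq' := (Finset.mem_filter.1 hq).2
    have hz' := (Finset.mem_filter.1 hz).2
    have hp0 := hpos p (hSB hp)
    have hq0' := hpos q (hSB hq)
    have hz0 := hpos z (hSB hz)
    have h3 : y q0 ^ 3 ≤ g ^ 12 * (y p * y q * y z) := by
      calc y q0 ^ 3 = y q0 * y q0 * y q0 := by ring
        _ ≤ (g ^ 4 * y p) * (g ^ 4 * y q) * (g ^ 4 * y z) := by
            apply mul_le_mul (mul_le_mul hp' hq' hym.le (by positivity)) hz' hym.le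
              (by positivity)
        _ = g ^ 12 * (y p * y q * y z) := by ring
    calc |D p q z| * (y q0 ^ 3 * (|ρ| * |τ|))
        ≤ |D p q z| * ((g ^ 12 * (y p * y q * y z)) * (|ρ| * |τ|)) := by
          apply mul_le_mul_of_nonneg_left _ (abs_nonneg _)
          exact mul_le_mul_of_nonneg_right h3 hP.le
      _ = (|D p q z| * (y p * y q * y z) * (|ρ| * |τ|)) * g ^ 12 := by ring
      _ ≤ (32 * r ^ 2) * g ^ 12 := mul_le_mul_of_nonneg_right h2 (by positivity)
      _ = 32 * r ^ 2 * g ^ 12 := by ring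
  -- the maximal area
  have hSne : (S ×ˢ (S ×ˢ S)).Nonempty := by
    have : S.Nonempty := by
      rw [Finset.nonempty_iff_ne_empty]
      intro h
      rw [h] at hSN
      simp at hSN
      linarith
    exact this.product (this.product this)
  obtain ⟨⟨a, b, d⟩, habd, habdmax⟩ := Finset.exists_max_image (S ×ˢ (S ×ˢ S))
    (fun e => |D e.1 e.2.1 e.2.2|) hSne
  obtain ⟨ha, hbd⟩ := Finset.mem_product.1 habd
  obtain ⟨hb, hd⟩ := Finset.mem_product.1 hbd
  simp only at ha hb hd habdmax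
  have hall : ∀ p ∈ S, ∀ q ∈ S, ∀ z ∈ S, |D p q z| ≤ |D a b d| := fun p hp q hq z hz =>
    habdmax (p, q, z) (Finset.mem_product.2 ⟨hp, Finset.mem_product.2 ⟨hq, hz⟩⟩)
  have hQ : 0 < y q0 ^ 3 * (|ρ| * |τ|) := by positivity
  refine ⟨S, hSB, |D a b d|, ?_, hall, ?_, hSN⟩
  · obtain ⟨p, hp, q, hq, z, hz, h1⟩ := hlow S hSB hSM
    have h2 := hall p hp q hq z hz
    have h3 : 0 < |D p q z| := by
      by_contra h
      have h4 : |D p q z| = 0 := le_antisymm (not_lt.1 h) (abs_nonneg _)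
      rw [h4, zero_mul] at h1
      have : 0 < r ^ 2 / g ^ 3 := by positivity
      linarith
    linarith
  · intro T hT hTN
    obtain ⟨p, hp, q, hq, z, hz, h1⟩ := hlow T (hT.trans hSB) hTN
    refine ⟨p, hp, q, hq, z, hz, ?_⟩
    have h2 := hup a ha b hb d hd
    have h3 : |D a b d| * (y q0 ^ 3 * (|ρ| * |τ|)) ≤
        (g ^ 20 * |D p q z|) * (y q0 ^ 3 * (|ρ| * |τ|)) := by
      calc |D a b d| * (y q0 ^ 3 * (|ρ| * |τ|)) ≤ 32 * r ^ 2 * g ^ 12 := h2
        _ = 32 * g ^ 15 * (r ^ 2 / g ^ 3) := by field_simp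
        _ ≤ 32 * g ^ 15 * (|D p q z| * (y q0 ^ 3 * (|ρ| * |τ|))) :=
            mul_le_mul_of_nonneg_left h1 (by positivity)
        _ ≤ g ^ 5 * g ^ 15 * (|D p q z| * (y q0 ^ 3 * (|ρ| * |τ|))) := by
            have h5 : (32 : ℝ) ≤ g ^ 5 := by
              calc (32 : ℝ) ≤ 300 ^ 5 := by norm_num
                _ ≤ g ^ 5 := pow_le_pow_left₀ (by norm_num) hg300 5
            gcongr
        _ = (g ^ 20 * |D p q z|) * (y q0 ^ 3 * (|ρ| * |τ|)) := by ring
    have h4 : |D a b d| ≤ g ^ 20 * |D p q z| := le_of_mul_le_mul_right h3 hQ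
    rw [inv_mul_le_iff₀ (by positivity)]
    exact h4

end Vale.Agent.P065.UB.H196
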