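import Mathlib

/-!
# P065, upper bound: the approximate ring of scalars of a finite set of integers (helper196)

`A` is a finite set of integers (a set of reals at resolution `δ`, in units of `δ`) with
`#(A - A) ≤ κ #A`.  `Sc A M u`: the (rounded) multiple `u A` is covered by `M` translates of `A - A`.
The scalars form an approximate ring.
-/

set_option autoImplicit false

namespace Vale.Agent.P065.UB.H196

open Finset
open scoped Pointwise

/-- rounded multiple -/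
noncomputable def fl (u : ℝ) (a : ℤ) : ℤ := ⌊u * a⌋

lemma fl_le (u : ℝ) (a : ℤ) : (fl u a : ℝ) ≤ u * a := Int.floor_le _

lemma lt_fl (u : ℝ) (a : ℤ) : u * a - 1 < fl u a := Int.sub_one_lt_floor _

/-- `u A` is covered by at most `M` translates of `A - A` (after rounding). -/
def Sc (A : Finset ℤ) (M : ℝ) (u : ℝ) : Prop :=
  ∃ F : Finset ℤ, (#F : ℝ) ≤ M ∧ ∀ a ∈ A, fl u a ∈ F + (A - A)

lemma Sc.mono {A : Finset ℤ} {M M' u : ℝ} (h : Sc A M u) (hM : M ≤ M') : Sc A M' u := by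
  obtain ⟨F, h1, h2⟩ := h
  exact ⟨F, h1.trans hM, h2⟩

/-- Pluennecke-Ruzsa -/
lemma plu {A : Finset ℤ} {κ : ℝ} (hA : A.Nonempty) (hd : (#(A - A) : ℝ) ≤ κ * #A) (k l : ℕ) :
    (#(k • A - l • A) : ℝ) ≤ κ ^ (k + l) * #A := by
  have h := Finset.pluennecke_ruzsa_inequality_nsmul_sub_nsmul_sub hA A k l
  have h' : ((#(k • A - l • A) : ℚ≥0) : ℝ) ≤
      ((((#(A - A) : ℚ≥0) / #A) ^ (k + l) * #A : ℚ≥0) : ℝ) := by
    exact_mod_cast h
  push_cast at h'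
  refine h'.trans ?_
  have hA0 : (0 : ℝ) < #A := by exact_mod_cast hA.card_pos
  have : (#(A - A) : ℝ) / #A ≤ κ := by
    rw [div_le_iff₀ hA0]
    exact hd
  gcongr

/-- `2A - 2A` is covered by few translates of `A - A` -/
lemma exG {A : Finset ℤ} {κ : ℝ} (hA : A.Nonempty) (hd : (#(A - A) : ℝ) ≤ κ * #A) :
    ∃ G : Finset ℤ, (#G : ℝ) ≤ κ ^ 5 ∧ (A - A) + (A - A) ⊆ G + (A - A) := by
  have h1 := plu hA hd 3 2
  have h2 : ((A - A) + (A - A)) + A = 3 • A - 2 • A := by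
    ext x
    simp only [succ_nsmul, zero_nsmul, zero_add, Finset.mem_add, Finset.mem_sub]
    constructor
    · rintro ⟨y, ⟨z, ⟨a, ha, b, hb, rfl⟩, w, ⟨c, hc, d, hd, rfl⟩, rfl⟩, e, he, rfl⟩
      exact ⟨a + c + e, ⟨a + c, ⟨a, ha, c, hc, rfl⟩, e, he, rfl⟩, b + d, ⟨b, hb, d, hd, rfl⟩, by ring⟩
    · rintro ⟨y, ⟨z, ⟨a, ha, c, hc, rfl⟩, e, he, rfl⟩, w, ⟨b, hb, d, hd, rfl⟩, rfl⟩
      exact ⟨a - b + (c - d), ⟨a - b, ⟨a, ha, b, hb, rfl⟩, c - d, ⟨c, hc, d, hd, rfl⟩, rfl⟩, e, he,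
        by ring⟩
  have h3 : (#(((A - A) + (A - A)) + A) : ℝ) ≤ κ ^ 5 * #A := by
    rw [h2]
    exact h1
  obtain ⟨F, -, hF, hsub⟩ := Finset.ruzsa_covering_add hA h3
  exact ⟨F, hF, hsub⟩

/-- base case: a small difference set gives a scalar -/
lemma Sc.of_sub {A : Finset ℤ} {M u : ℝ} (hA : A.Nonempty)
    (h : (#(A.image (fl u) - A) : ℝ) ≤ M * #A) : Sc A M u := by
  have h1 : (#(A.image (fl u) + (-A)) : ℝ) ≤ M * #(-A) := by
    rw [← sub_eq_add_neg, Finset.card_neg]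
    exact h
  obtain ⟨F, -, hF, hsub⟩ := Finset.ruzsa_covering_add hA.neg h1
  refine ⟨F, hF, fun a ha => ?_⟩
  have h2 := hsub (Finset.mem_image_of_mem _ ha)
  have h3 : -A - -A = A - A := by
    ext x
    simp only [Finset.mem_sub, Finset.mem_neg]
    constructor
    · rintro ⟨y, ⟨b, hb, rfl⟩, z, ⟨c, hc, rfl⟩, rfl⟩
      exact ⟨c, hc, b, hb, by ring⟩
    · rintro ⟨c, hc, b, hb, rfl⟩
      exact ⟨-b, ⟨b, hb, rfl⟩, -c, ⟨c, hc, rfl⟩, by ring⟩
  rwa [h3] at h2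

section
variable {A : Finset ℤ} {κ : ℝ}

lemma card_Icc_le (b : ℝ) (hb : 0 ≤ b) : (#(Finset.Icc (-⌈b⌉) ⌈b⌉) : ℝ) ≤ 2 * b + 3 := by
  rw [Int.card_Icc]
  have h1 : 0 ≤ ⌈b⌉ := Int.ceil_nonneg hb
  have h2 : (⌈b⌉ : ℝ) < b + 1 := Int.ceil_lt_add_one b
  have h3 : 0 ≤ ⌈b⌉ + 1 - -⌈b⌉ := by omega
  have h4 : (((⌈b⌉ + 1 - -⌈b⌉).toNat : ℤ) : ℝ) = ((⌈b⌉ + 1 - -⌈b⌉ : ℤ) : ℝ) := by
    rw [Int.toNat_of_nonneg h3]
  have h5 : ((⌈b⌉ + 1 - -⌈b⌉).toNat : ℝ) = (((⌈b⌉ + 1 - -⌈b⌉).toNat : ℤ) : ℝ) := by norm_cast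
  rw [h5, h4]
  push_cast
  linarith

lemma mem_Icc_of_abs {b : ℝ} {k : ℤ} (h : |(k : ℝ)| ≤ b) : k ∈ Finset.Icc (-⌈b⌉) ⌈b⌉ := by
  rw [Finset.mem_Icc]
  have h1 := abs_le.1 h
  constructor
  · have : -(⌈b⌉ : ℝ) ≤ k := by linarith [Int.le_ceil b]
    exact_mod_cast this
  · have : (k : ℝ) ≤ (⌈b⌉ : ℝ) := by linarith [Int.le_ceil b]
    exact_mod_cast this

/-- main tool: if every `fl w a` is within `b` of `F + ((A - A) + (A - A))` then `w` is a scalar. -/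
lemma Sc.of_near (hA : A.Nonempty) (hd : (#(A - A) : ℝ) ≤ κ * #A) (_hκ : 0 ≤ κ) {w b M : ℝ}
    (hb : 0 ≤ b)
    {F : Finset ℤ} (hF : (#F : ℝ) ≤ M)
    (h : ∀ a ∈ A, ∃ f ∈ F, ∃ s ∈ (A - A) + (A - A), |(fl w a : ℝ) - f - s| ≤ b) :
    Sc A (M * (2 * b + 3) * κ ^ 5) w := by
  obtain ⟨G, hG, hsub⟩ := exG hA hd
  refine ⟨F + Finset.Icc (-⌈b⌉) ⌈b⌉ + G, ?_, fun a ha => ?_⟩
  · have h1 : (#(F + Finset.Icc (-⌈b⌉) ⌈b⌉ + G) : ℝ) ≤ (#F * #(Finset.Icc (-⌈b⌉) ⌈b⌉)) * #G := by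
      have h2 := Finset.card_add_le (s := F + Finset.Icc (-⌈b⌉) ⌈b⌉) (t := G)
      have h3 := Finset.card_add_le (s := F) (t := Finset.Icc (-⌈b⌉) ⌈b⌉)
      have h4 : #(F + Finset.Icc (-⌈b⌉) ⌈b⌉ + G) ≤ #F * #(Finset.Icc (-⌈b⌉) ⌈b⌉) * #G :=
        h2.trans (Nat.mul_le_mul_right _ h3)
      exact_mod_cast h4
    refine h1.trans ?_
    have h5 := card_Icc_le b hb
    have hM0 : 0 ≤ M := (Nat.cast_nonneg _).trans hF
    gcongr
  · obtain ⟨f, hf, s, hs, hfs⟩ := h a ha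
    have h1 := hsub hs
    obtain ⟨g, hg, t, ht, hgt⟩ := Finset.mem_add.1 h1
    refine Finset.mem_add.2 ⟨f + (fl w a - f - s) + g, ?_, t, ht, by rw [← hgt]; ring⟩
    refine Finset.mem_add.2 ⟨f + (fl w a - f - s), ?_, g, hg, rfl⟩
    refine Finset.mem_add.2 ⟨f, hf, _, ?_, rfl⟩
    apply mem_Icc_of_abs
    push_cast
    exact hfs

lemma Sc.add (hA : A.Nonempty) (hd : (#(A - A) : ℝ) ≤ κ * #A) (hκ : 0 ≤ κ) {M M' u v : ℝ}
    (hu : Sc A M u) (hv : Sc A M' v) : Sc A (M * M' * 5 * κ ^ 5) (u + v) := by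
  obtain ⟨F, hF, hF'⟩ := hu
  obtain ⟨F2, hF2, hF2'⟩ := hv
  have hM0 : 0 ≤ M := (Nat.cast_nonneg _).trans hF
  have hM0' : 0 ≤ M' := (Nat.cast_nonneg _).trans hF2
  have hc : (#(F + F2) : ℝ) ≤ M * M' := by
    have h2 := Finset.card_add_le (s := F) (t := F2)
    have h3 : (#(F + F2) : ℝ) ≤ #F * #F2 := by exact_mod_cast h2
    refine h3.trans ?_
    gcongr
  have h := Sc.of_near hA hd hκ (w := u + v) (b := 1) (by norm_num) hc ?_
  · refine h.mono (le_of_eq (by ring))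
  · intro a ha
    obtain ⟨f, hf, s, hs, h1⟩ := Finset.mem_add.1 (hF' a ha)
    obtain ⟨f2, hf2, s2, hs2, h2⟩ := Finset.mem_add.1 (hF2' a ha)
    refine ⟨f + f2, Finset.add_mem_add hf hf2, s + s2, Finset.add_mem_add hs hs2, ?_⟩
    have e1 := fl_le u a
    have e2 := lt_fl u a
    have e3 := fl_le v a
    have e4 := lt_fl v a
    have e5 := fl_le (u + v) a
    have e6 := lt_fl (u + v) a
    have e7 : (fl (u + v) a : ℝ) - ((f + f2 : ℤ) : ℝ) - ((s + s2 : ℤ) : ℝ)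
        = fl (u + v) a - fl u a - fl v a := by
      rw [← h1, ← h2]
      push_cast
      ring
    rw [e7]
    -- an integer in `(-1, 2)`
    have h8 : -1 < (fl (u + v) a - fl u a - fl v a : ℤ) := by
      have : (-1 : ℝ) < ((fl (u + v) a - fl u a - fl v a : ℤ) : ℝ) := by
        push_cast
        nlinarith
      exact_mod_cast this
    have h9 : (fl (u + v) a - fl u a - fl v a : ℤ) < 2 := by
      have : ((fl (u + v) a - fl u a - fl v a : ℤ) : ℝ) < 2 := by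
        push_cast
        nlinarith
      exact_mod_cast this
    rw [abs_le]
    constructor
    · have : (-1 : ℤ) ≤ fl (u + v) a - fl u a - fl v a := by omega
      exact_mod_cast this
    · have : (fl (u + v) a - fl u a - fl v a : ℤ) ≤ 1 := by omega
      exact_mod_cast this

lemma Sc.neg {M u : ℝ} (hu : Sc A M u) : Sc A (M * 2) (-u) := by
  obtain ⟨F, hF, hF'⟩ := hu
  refine ⟨-F + {-1, 0}, ?_, fun a ha => ?_⟩
  · have h2 := Finset.card_add_le (s := -F) (t := ({-1, 0} : Finset ℤ))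
    have h3 : #({-1, 0} : Finset ℤ) = 2 := by decide
    rw [h3, Finset.card_neg] at h2
    have h4 : (#(-F + {-1, 0}) : ℝ) ≤ #F * 2 := by exact_mod_cast h2
    refine h4.trans ?_
    gcongr
  · obtain ⟨f, hf, s, hs, h1⟩ := Finset.mem_add.1 (hF' a ha)
    obtain ⟨b, hb, c, hc, rfl⟩ := Finset.mem_sub.1 hs
    have e1 := fl_le u a
    have e2 := lt_fl u a
    have e5 := fl_le (-u) a
    have e6 := lt_fl (-u) a
    have h8 : -2 < (fl (-u) a + fl u a : ℤ) := by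
      have : (-2 : ℝ) < ((fl (-u) a + fl u a : ℤ) : ℝ) := by
        push_cast
        nlinarith
      exact_mod_cast this
    have h9 : (fl (-u) a + fl u a : ℤ) ≤ 0 := by
      have : ((fl (-u) a + fl u a : ℤ) : ℝ) ≤ 0 := by
        push_cast
        nlinarith
      exact_mod_cast this
    refine Finset.mem_add.2 ⟨-f + (fl (-u) a + fl u a), ?_, c - b, Finset.sub_mem_sub hc hb, ?_⟩
    · refine Finset.mem_add.2 ⟨-f, Finset.neg_mem_neg hf, _, ?_, rfl⟩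
      simp only [Finset.mem_insert, Finset.mem_singleton]
      omega
    · rw [← h1]
      ring

lemma Sc.sub (hA : A.Nonempty) (hd : (#(A - A) : ℝ) ≤ κ * #A) (hκ : 0 ≤ κ) {M M' u v : ℝ}
    (hu : Sc A M u) (hv : Sc A M' v) : Sc A (M * M' * 10 * κ ^ 5) (u - v) := by
  rw [sub_eq_add_neg]
  exact (Sc.add hA hd hκ hu hv.neg).mono (le_of_eq (by ring))

lemma Sc.mul (hA : A.Nonempty) (hd : (#(A - A) : ℝ) ≤ κ * #A) (hκ : 0 ≤ κ) {M M' u v : ℝ}
    (hu : Sc A M u) (hv : Sc A M' v) :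
    Sc A (M' * M ^ 2 * (2 * (|u| + 3) + 3) * κ ^ 5) (u * v) := by
  obtain ⟨F, hF, hF'⟩ := hu
  obtain ⟨F2, hF2, hF2'⟩ := hv
  have hM0 : 0 ≤ M := (Nat.cast_nonneg _).trans hF
  have hM0' : 0 ≤ M' := (Nat.cast_nonneg _).trans hF2
  have hc : (#(F2.image (fl u) + (F - F)) : ℝ) ≤ M' * M ^ 2 := by
    have h2 := Finset.card_add_le (s := F2.image (fl u)) (t := F - F)
    have h3 := Finset.card_sub_le (s := F) (t := F)
    have h4 := Finset.card_image_le (s := F2) (f := fl u)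
    have h5 : (#(F2.image (fl u) + (F - F)) : ℝ) ≤ #(F2.image (fl u)) * #(F - F) := by
      exact_mod_cast h2
    have h6 : (#(F - F) : ℝ) ≤ #F * #F := by exact_mod_cast h3
    have h7 : (#(F2.image (fl u)) : ℝ) ≤ #F2 := by exact_mod_cast h4
    calc (#(F2.image (fl u) + (F - F)) : ℝ) ≤ #(F2.image (fl u)) * #(F - F) := h5
      _ ≤ #F2 * (#F * #F) := by gcongr
      _ ≤ M' * (M * M) := by gcongr
      _ = _ := by ring
  refine Sc.of_near hA hd hκ (w := u * v) (b := |u| + 3) (by positivity) hc ?_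
  intro a ha
  obtain ⟨f, hf, s, hs, h1⟩ := Finset.mem_add.1 (hF2' a ha)
  obtain ⟨b, hb, c, hc, rfl⟩ := Finset.mem_sub.1 hs
  obtain ⟨fb, hfb, sb, hsb, hb1⟩ := Finset.mem_add.1 (hF' b hb)
  obtain ⟨fc, hfc, sc, hsc, hc1⟩ := Finset.mem_add.1 (hF' c hc)
  obtain ⟨p, hp, q, hq, rfl⟩ := Finset.mem_sub.1 hsb
  obtain ⟨p', hp', q', hq', rfl⟩ := Finset.mem_sub.1 hsc
  refine ⟨fl u f + (fb - fc), Finset.add_mem_add (Finset.mem_image_of_mem _ hf)
    (Finset.sub_mem_sub hfb hfc), (p - q) + (q' - p'), Finset.add_mem_add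
    (Finset.sub_mem_sub hp hq) (Finset.sub_mem_sub hq' hp'), ?_⟩
  have e7 : (fl (u * v) a : ℝ) - ((fl u f + (fb - fc) : ℤ) : ℝ) - (((p - q) + (q' - p') : ℤ) : ℝ)
      = fl (u * v) a - fl u f - fl u b + fl u c := by
    rw [← hb1, ← hc1]
    push_cast
    ring
  rw [e7]
  have g1 := fl_le (u * v) a
  have g2 := lt_fl (u * v) a
  have g3 := fl_le u f
  have g4 := lt_fl u f
  have g5 := fl_le u b
  have g6 := lt_fl u b
  have g7 := fl_le u c
  have g8 := lt_fl u c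
  have g9 := fl_le v a
  have g10 := lt_fl v a
  have hv1 : (fl v a : ℝ) = f + (b - c) := by
    rw [← h1]
    push_cast
    ring
  set θ : ℝ := v * a - fl v a with hθ
  have hθ0 : 0 ≤ θ := by rw [hθ]; linarith
  have hθ1 : θ ≤ 1 := by rw [hθ]; linarith
  have huθ : |u * θ| ≤ |u| := by
    rw [abs_mul, abs_of_nonneg hθ0]
    exact mul_le_of_le_one_right (abs_nonneg _) hθ1
  have h10 := abs_le.1 huθ
  have h11 : u * v * a = u * f + u * b - u * c + u * θ := by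
    have : v * a = f + (b - c) + θ := by rw [hθ, hv1]; ring
    calc u * v * a = u * (v * a) := by ring
      _ = u * (f + (b - c) + θ) := by rw [this]
      _ = _ := by ring
  rw [abs_le]
  constructor <;> linarith

end

end Vale.Agent.P065.UB.H196
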