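import Mathlib
import Vale.Agent.P118.OF.Defs

/-!
P065, upper bound, block UK (note 17869): the exact data excluded by the uniform elementary kill.

`N` is the profile, `δ` the resolution, `K` the loss, `X` and `A` are the sets produced by
`Vale.Agent.P065.H17.ac1`.
-/

namespace Vale.Agent.P065.H196

open Finset
open Vale.Agent.P118.OF (Cov Sep)

/-- data of PROP UK; `q` measures the distance of the dimension to one -/
structure UKData (q : ℕ) (K δ : ℝ) (N : ℝ → ℝ) (X A : Finset ℝ) : Prop where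
  hK : 2 ≤ K
  hδ : 0 < δ
  hδ1 : δ ≤ 1
  /-- the profile is positive, antitone, submultiplicative up to `K`, and at most `K / t` -/
  pos : ∀ t, δ ≤ t → t ≤ 1 → 0 < N t
  anti : ∀ s t, δ ≤ s → s ≤ t → t ≤ 1 → N t ≤ N s
  sub : ∀ s t, 0 < s → s ≤ 1 → 0 < t → t ≤ 1 → δ ≤ s * t → N (s * t) ≤ K * (N s * N t)
  triv : ∀ t, δ ≤ t → t ≤ 1 → N t ≤ K / t
  /-- `N δ ≤ δ ^ (-1 + η)` with `1 / (1 - η) = 1 + 1 / q` -/
  dim : δ ^ q * N δ ^ (q + 1) ≤ K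
  sepX : Sep δ X
  cardX : N δ ≤ K * X.card
  frX : ∀ x t, δ ≤ t → t ≤ 1 → ((X.filter (fun y => |y - x| ≤ t)).card : ℝ) ≤ K * (N δ / N t)
  neA : A.Nonempty
  absA : ∀ a ∈ A, 1 ≤ K * |a| ∧ |a| ≤ K
  frA : ∀ x t, δ ≤ t → t ≤ 1 → ((A.filter (fun a => |a - x| ≤ t)).card : ℝ) ≤ K * (A.card / N t)
  /-- only at resolution `δ` -/
  cov : ∀ a ∈ A, ∀ b ∈ A, Cov δ (K * N δ) {z : ℝ | ∃ x ∈ X, ∃ y ∈ X, z = a * x - b * y}

/-- the uniform kill: the constant `m` depends on `q` only -/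
def StUK : Prop :=
  ∀ q : ℕ, ∃ m : ℕ, ∀ (K δ : ℝ) (N : ℝ → ℝ) (X A : Finset ℝ),
    UKData q K δ N X A → K ^ m ≤ N δ → False

end Vale.Agent.P065.H196
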