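import Vale.Agent.P065.UB.H196.Kill
import Vale.Agent.P065.UB.H196.UKDefs

/-!
# P065, upper bound: PROP UK for finite sets of reals (helper196)
-/

set_option autoImplicit false

namespace Vale.Agent.P065.UB.H196

open Finset
open scoped Pointwise
open Vale.Agent.P118.OF (Cov Sep)
open Vale.Agent.P065.H196 (UKData StUK)

lemma ukmono {q : ℕ} {K K' δ : ℝ} {N : ℝ → ℝ} {X A : Finset ℝ} (h : UKData q K δ N X A)
    (hK : K ≤ K') : UKData q K' δ N X A := by
  have hK0 : 0 < K := by linarith [h.hK]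
  have hδ0 := h.hδ
  have hn := h.pos δ (le_refl _) h.hδ1
  refine ⟨h.hK.trans hK, h.hδ, h.hδ1, h.pos, h.anti, ?_, ?_, h.dim.trans hK, h.sepX, ?_, ?_, h.neA,
    ?_, ?_, ?_⟩
  · intro s t hs hs1 ht ht1 hst
    have hδs : δ ≤ s := by nlinarith
    have hδt : δ ≤ t := by nlinarith
    have h1 := h.pos s hδs hs1
    have h2 := h.pos t hδt ht1
    refine (h.sub s t hs hs1 ht ht1 hst).trans ?_
    gcongr
  · intro t ht ht1
    refine (h.triv t ht ht1).trans ?_
    have : 0 < t := by linarith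
    gcongr
  · refine h.cardX.trans ?_
    gcongr
  · intro x t ht ht1
    refine (h.frX x t ht ht1).trans ?_
    have h2 := h.pos t ht ht1
    gcongr
  · intro a ha
    refine ⟨(h.absA a ha).1.trans ?_, (h.absA a ha).2.trans hK⟩
    gcongr
  · intro x t ht ht1
    refine (h.frA x t ht ht1).trans ?_
    have h2 := h.pos t ht ht1
    gcongr
  · intro a ha b hb
    obtain ⟨Z, hZ, hZ'⟩ := h.cov a ha b hb
    exact ⟨Z, hZ.trans (by gcongr), hZ'⟩

lemma profmono {K K' δ : ℝ} {N : ℝ → ℝ} (h : Prof K δ N) (hK : K ≤ K') : Prof K' δ N := by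
  have hδ0 := h.hδ
  refine ⟨h.hK.trans hK, h.hδ, h.hδ1, h.pos, h.anti, ?_, ?_⟩
  · intro s t hs hs1 ht ht1 hst
    have hδs : δ ≤ s := by nlinarith
    have hδt : δ ≤ t := by nlinarith
    have h1 := h.pos s hδs hs1
    have h2 := h.pos t hδt ht1
    refine (h.sub s t hs hs1 ht ht1 hst).trans ?_
    gcongr
  · intro t ht ht1
    refine (h.triv t ht ht1).trans ?_
    have : 0 < t := by linarith
    gcongr

/-- integers near a set of reals -/
lemma near_ints {S : Finset ℤ} {C : Finset ℝ} {B : ℝ} (hB : 0 ≤ B)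
    (h : ∀ m ∈ S, ∃ c ∈ C, |(m : ℝ) - c| ≤ B) : (#S : ℝ) ≤ (2 * B + 1) * #C := by
  classical
  have h1 : S ⊆ C.biUnion (fun c => Finset.Icc ⌈c - B⌉ ⌊c + B⌋) := by
    intro m hm
    obtain ⟨c, hc, hmc⟩ := h m hm
    have := abs_le.1 hmc
    rw [Finset.mem_biUnion]
    refine ⟨c, hc, ?_⟩
    rw [Finset.mem_Icc]
    exact ⟨Int.ceil_le.2 (by linarith), Int.le_floor.2 (by linarith)⟩
  have h2 := (Finset.card_le_card h1).trans Finset.card_biUnion_le
  have h3 : ∀ c ∈ C, (#(Finset.Icc ⌈c - B⌉ ⌊c + B⌋) : ℝ) ≤ 2 * B + 1 := by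
    intro c _
    rw [Int.card_Icc]
    have e1 := Int.floor_le (c + B)
    have e2 := Int.le_ceil (c - B)
    by_cases hz : 0 ≤ ⌊c + B⌋ + 1 - ⌈c - B⌉
    · have h4 : (((⌊c + B⌋ + 1 - ⌈c - B⌉).toNat : ℤ) : ℝ) = ((⌊c + B⌋ + 1 - ⌈c - B⌉ : ℤ) : ℝ) := by
        rw [Int.toNat_of_nonneg hz]
      have h5 : ((⌊c + B⌋ + 1 - ⌈c - B⌉).toNat : ℝ)
          = (((⌊c + B⌋ + 1 - ⌈c - B⌉).toNat : ℤ) : ℝ) := by norm_cast
      rw [h5, h4]
      push_cast
      linarith
    · rw [Int.toNat_of_nonpos (by omega)]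
      push_cast
      positivity
  calc (#S : ℝ) ≤ ((∑ c ∈ C, #(Finset.Icc ⌈c - B⌉ ⌊c + B⌋) : ℕ) : ℝ) := by exact_mod_cast h2
    _ = ∑ c ∈ C, (#(Finset.Icc ⌈c - B⌉ ⌊c + B⌋) : ℝ) := by push_cast; rfl
    _ ≤ ∑ c ∈ C, (2 * B + 1) := Finset.sum_le_sum h3
    _ = _ := by simp; ring

/-- rounding of `a₀ X` -/
noncomputable def hat (X : Finset ℝ) (a₀ δ : ℝ) : Finset ℤ := X.image (fun x => ⌊a₀ * x / δ⌋)

section

variable {q : ℕ} {K δ : ℝ} {N : ℝ → ℝ} {X A : Finset ℝ}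

lemma uk_prof (h : UKData q K δ N X A) (hK : 100 ≤ K) : Prof K δ N :=
  ⟨hK, h.hδ, h.hδ1, h.pos, h.anti, h.sub, h.triv⟩

/-- the action of `a / a₀` on the rounded set -/
lemma uk_act (h : UKData q K δ N X A) (hK : 100 ≤ K) {a a₀ : ℝ} (ha : a ∈ A) (ha0 : a₀ ∈ A) :
    (#((hat X a₀ δ).image (fl (a / a₀)) - hat X a₀ δ) : ℝ) ≤ K ^ 4 * N δ := by
  classical
  have hK0 : 0 < K := by linarith
  have hδ0 := h.hδ
  have hn := h.pos δ (le_refl _) h.hδ1
  have hK1 : 1 ≤ K := by linarith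
  obtain ⟨C, hC, hC'⟩ := h.cov a ha a₀ ha0
  have ha01 := h.absA a₀ ha0
  have ha0ne : a₀ ≠ 0 := by
    rintro rfl
    rw [abs_zero, mul_zero] at ha01
    linarith [ha01.1]
  have habs : |a / a₀| ≤ K ^ 2 := by
    rw [abs_div, div_le_iff₀ (abs_pos.2 ha0ne)]
    calc |a| ≤ K := (h.absA a ha).2
      _ = K * 1 := (mul_one _).symm
      _ ≤ K * (K * |a₀|) := by
          gcongr
          exact ha01.1
      _ = _ := by ring
  have h1 := near_ints (S := (hat X a₀ δ).image (fl (a / a₀)) - hat X a₀ δ)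
    (C := C.image (fun c => c / δ)) (B := K ^ 2 + 3) (by positivity) (by
    intro m hm
    obtain ⟨u, hu, v, hv, rfl⟩ := Finset.mem_sub.1 hm
    obtain ⟨w, hw, rfl⟩ := Finset.mem_image.1 hu
    obtain ⟨x, hx, rfl⟩ := Finset.mem_image.1 hw
    obtain ⟨y, hy, rfl⟩ := Finset.mem_image.1 hv
    obtain ⟨c, hc, hcd⟩ := hC' (a * x - a₀ * y) ⟨x, hx, y, hy, rfl⟩
    refine ⟨c / δ, Finset.mem_image_of_mem _ hc, ?_⟩
    rw [Real.dist_eq] at hcd
    have e1 : |(a * x - a₀ * y) / δ - c / δ| ≤ 1 := by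
      rw [← sub_div, abs_div, abs_of_pos hδ0, div_le_one hδ0]
      exact hcd
    have e2 := fl_le (a / a₀) ⌊a₀ * x / δ⌋
    have e3 := lt_fl (a / a₀) ⌊a₀ * x / δ⌋
    have e4 := Int.floor_le (a₀ * y / δ)
    have e5 := Int.lt_floor_add_one (a₀ * y / δ)
    have e6 := Int.floor_le (a₀ * x / δ)
    have e7 := Int.lt_floor_add_one (a₀ * x / δ)
    have e8 : |a / a₀ * (a₀ * x / δ - ⌊a₀ * x / δ⌋)| ≤ K ^ 2 := by
      rw [abs_mul]
      calc |a / a₀| * |a₀ * x / δ - ⌊a₀ * x / δ⌋| ≤ K ^ 2 * 1 := by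
            gcongr
            rw [abs_le]
            constructor <;> linarith
        _ = _ := mul_one _
    have e9 : a / a₀ * (a₀ * x / δ - ⌊a₀ * x / δ⌋) = a * x / δ - a / a₀ * ⌊a₀ * x / δ⌋ := by
      field_simp
    rw [e9] at e8
    have e1' := abs_le.1 e1
    have e8' := abs_le.1 e8
    have e10 : (a * x - a₀ * y) / δ = a * x / δ - a₀ * y / δ := sub_div _ _ _
    rw [e10] at e1'
    push_cast
    rw [abs_le]
    constructor <;> linarith [e1'.1, e1'.2, e8'.1, e8'.2])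
  have h2 : (#(C.image (fun c => c / δ)) : ℝ) ≤ K * N δ := by
    have : (#(C.image (fun c => c / δ)) : ℝ) ≤ #C := by exact_mod_cast Finset.card_image_le
    exact this.trans hC
  have hB : 2 * (K ^ 2 + 3) + 1 ≤ K ^ 3 := by nlinarith [mul_pos hK0 hK0]
  calc _ ≤ (2 * (K ^ 2 + 3) + 1) * (#(C.image (fun c => c / δ)) : ℝ) := h1
    _ ≤ K ^ 3 * (K * N δ) := by gcongr
    _ = _ := by ring

lemma fl_one (S : Finset ℤ) : S.image (fl 1) = S := by
  ext m
  simp [fl]

lemma uk_diff (h : UKData q K δ N X A) (hK : 100 ≤ K) {a₀ : ℝ} (ha0 : a₀ ∈ A) :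
    (#(hat X a₀ δ - hat X a₀ δ) : ℝ) ≤ K ^ 4 * N δ := by
  have h1 := uk_act h hK ha0 ha0
  have ha01 := h.absA a₀ ha0
  have ha0ne : a₀ ≠ 0 := by
    rintro rfl
    rw [abs_zero, mul_zero] at ha01
    linarith [ha01.1]
  rwa [div_self ha0ne, fl_one] at h1

lemma ne_of_abs (h : UKData q K δ N X A) {a₀ : ℝ} (ha0 : a₀ ∈ A) : a₀ ≠ 0 := by
  have ha01 := h.absA a₀ ha0
  rintro rfl
  rw [abs_zero, mul_zero] at ha01
  linarith [ha01.1]

lemma uk_card (h : UKData q K δ N X A) (hK : 100 ≤ K) (hKδ : K * δ ≤ 1) {a₀ : ℝ} (ha0 : a₀ ∈ A) :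
    N δ ≤ K ^ 5 * #(hat X a₀ δ) := by
  classical
  have hP := uk_prof h hK
  have hK0 := hP.K0
  have hδ0 := h.hδ
  have hn := h.pos δ (le_refl _) h.hδ1
  have ha01 := h.absA a₀ ha0
  have ha0ne := ne_of_abs h ha0
  have hδK : δ ≤ K * δ := by nlinarith
  have hpK := h.pos (K * δ) hδK hKδ
  have hfib : ∀ k ∈ hat X a₀ δ, (#(X.filter (fun x => ⌊a₀ * x / δ⌋ = k)) : ℝ) ≤ K ^ 4 := by
    intro k hk
    obtain ⟨x0, hx0, hx0k⟩ := Finset.mem_image.1 hk
    have h1 : X.filter (fun x => ⌊a₀ * x / δ⌋ = k) ⊆ X.filter (fun y => |y - x0| ≤ K * δ) := by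
      intro x hx
      rw [Finset.mem_filter] at hx ⊢
      refine ⟨hx.1, ?_⟩
      have e1 := Int.abs_sub_lt_one_of_floor_eq_floor (hx.2.trans hx0k.symm)
      rw [← sub_div, abs_div, abs_of_pos hδ0, div_lt_one hδ0, ← mul_sub, abs_mul] at e1
      calc |x - x0| = 1 * |x - x0| := (one_mul _).symm
        _ ≤ (K * |a₀|) * |x - x0| := by
            gcongr
            exact ha01.1
        _ = K * (|a₀| * |x - x0|) := by ring
        _ ≤ K * δ := by gcongr
    have h2 := h.frX x0 (K * δ) hδK hKδ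
    have h3 := hP.dil (s := δ) (t := K * δ) (c := K) hδ0 hP.K1 (le_refl _) hKδ rfl
    calc (#(X.filter (fun x => ⌊a₀ * x / δ⌋ = k)) : ℝ)
        ≤ #(X.filter (fun y => |y - x0| ≤ K * δ)) := by exact_mod_cast Finset.card_le_card h1
      _ ≤ K * (N δ / N (K * δ)) := h2
      _ ≤ K * K ^ 3 := by
          gcongr
          rw [div_le_iff₀ hpK]
          calc N δ ≤ K ^ 2 * K * N (K * δ) := h3
            _ = _ := by ring
      _ = _ := by ring
  have h4 : (#X : ℝ) ≤ K ^ 4 * #(hat X a₀ δ) := by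
    have e1 := Finset.card_eq_sum_card_image (fun x => ⌊a₀ * x / δ⌋) X
    calc (#X : ℝ) = ((∑ k ∈ hat X a₀ δ, #(X.filter (fun x => ⌊a₀ * x / δ⌋ = k)) : ℕ) : ℝ) := by
          exact_mod_cast e1
      _ = ∑ k ∈ hat X a₀ δ, (#(X.filter (fun x => ⌊a₀ * x / δ⌋ = k)) : ℝ) := by push_cast; rfl
      _ ≤ ∑ k ∈ hat X a₀ δ, K ^ 4 := Finset.sum_le_sum hfib
      _ = _ := by simp; ring
  calc N δ ≤ K * #X := h.cardX
    _ ≤ K * (K ^ 4 * #(hat X a₀ δ)) := by gcongr
    _ = _ := by ring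

lemma uk_fr (h : UKData q K δ N X A) (hK : 100 ≤ K) {a₀ : ℝ} (ha0 : a₀ ∈ A) (x t : ℝ)
    (ht : δ ≤ t) (ht1 : t ≤ 1) :
    ∑ m ∈ hat X a₀ δ, (if |(m : ℝ) - x| ≤ t / δ then (1 : ℝ) else 0) ≤ K ^ 7 * (N δ / N t) := by
  classical
  have hP := uk_prof h hK
  have hK0 := hP.K0
  have hδ0 := h.hδ
  have ht0 : 0 < t := by linarith
  have hn := h.pos δ (le_refl _) h.hδ1
  have hpt := h.pos t ht ht1
  have ha01 := h.absA a₀ ha0
  have ha0ne := ne_of_abs h ha0
  have hsum : ∑ m ∈ hat X a₀ δ, (if |(m : ℝ) - x| ≤ t / δ then (1 : ℝ) else 0)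
      = #((hat X a₀ δ).filter (fun m : ℤ => |(m : ℝ) - x| ≤ t / δ)) := by
    rw [Finset.card_filter]
    push_cast
    rfl
  rw [hsum]
  by_cases h2K : 2 * K * t ≤ 1
  · have hδt : δ ≤ 2 * K * t := by nlinarith
    have hp2 := h.pos (2 * K * t) hδt h2K
    have h1 : (hat X a₀ δ).filter (fun m : ℤ => |(m : ℝ) - x| ≤ t / δ) ⊆
        (X.filter (fun y => |y - x * δ / a₀| ≤ 2 * K * t)).image (fun x => ⌊a₀ * x / δ⌋) := by
      intro m hm
      rw [Finset.mem_filter] at hm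
      obtain ⟨y, hy, rfl⟩ := Finset.mem_image.1 hm.1
      rw [Finset.mem_image]
      refine ⟨y, ?_, rfl⟩
      rw [Finset.mem_filter]
      refine ⟨hy, ?_⟩
      have e1 := abs_le.1 hm.2
      have e2 := Int.floor_le (a₀ * y / δ)
      have e3 := Int.lt_floor_add_one (a₀ * y / δ)
      have e4 : 1 ≤ t / δ := by rw [le_div_iff₀ hδ0]; linarith
      have e5 : |a₀ * y / δ - x| ≤ 2 * t / δ := by
        have : 2 * t / δ = t / δ + t / δ := by ring
        rw [this, abs_le]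
        constructor <;> linarith [e1.1, e1.2]
      have e6 : a₀ * y / δ - x = a₀ / δ * (y - x * δ / a₀) := by
        field_simp
      rw [e6, abs_mul, abs_div, abs_of_pos hδ0] at e5
      have e7 : |a₀| * |y - x * δ / a₀| ≤ 2 * t := by
        have e8 : |a₀| / δ * |y - x * δ / a₀| = |a₀| * |y - x * δ / a₀| / δ := by ring
        rw [e8] at e5
        exact (div_le_div_iff_of_pos_right hδ0).1 e5
      calc |y - x * δ / a₀| = 1 * |y - x * δ / a₀| := (one_mul _).symm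
        _ ≤ (K * |a₀|) * |y - x * δ / a₀| := by
            gcongr
            exact ha01.1
        _ = K * (|a₀| * |y - x * δ / a₀|) := by ring
        _ ≤ K * (2 * t) := by gcongr
        _ = _ := by ring
    have h2 := h.frX (x * δ / a₀) (2 * K * t) hδt h2K
    have h3 := hP.dil (s := t) (t := 2 * K * t) (c := 2 * K) ht0 (by linarith) ht h2K rfl
    calc (#((hat X a₀ δ).filter (fun m : ℤ => |(m : ℝ) - x| ≤ t / δ)) : ℝ)
        ≤ #(X.filter (fun y => |y - x * δ / a₀| ≤ 2 * K * t)) := by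
          exact_mod_cast (Finset.card_le_card h1).trans Finset.card_image_le
      _ ≤ K * (N δ / N (2 * K * t)) := h2
      _ ≤ K * (K ^ 4 * (N δ / N t)) := by
          gcongr
          rw [← mul_div_assoc, div_le_div_iff₀ hp2 hpt]
          calc N δ * N t ≤ N δ * (K ^ 2 * (2 * K) * N (2 * K * t)) := by gcongr
            _ ≤ N δ * (K ^ 2 * (K * K) * N (2 * K * t)) := by
                gcongr
                linarith
            _ = _ := by ring
      _ = K ^ 5 * (N δ / N t) := by ring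
      _ ≤ K ^ 7 * (N δ / N t) := by
          gcongr
          · exact hP.K1
          · norm_num
  · rw [not_le] at h2K
    have e1 := h.triv t ht ht1
    have e2 : N t ≤ K ^ 3 := by
      refine e1.trans ?_
      rw [div_le_iff₀ ht0]
      nlinarith [mul_pos hK0 hK0, mul_pos (mul_pos hK0 hK0) ht0]
    have e3 : (#(hat X a₀ δ) : ℝ) ≤ K ^ 4 * N δ := by
      refine le_trans ?_ (uk_diff h hK ha0)
      rcases (hat X a₀ δ).eq_empty_or_nonempty with h0 | ⟨a, ha⟩
      · rw [h0]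
        simp
      · have : #((hat X a₀ δ).image (fun x => x - a)) ≤ #(hat X a₀ δ - hat X a₀ δ) := by
          apply Finset.card_le_card
          intro x hx
          obtain ⟨y, hy, rfl⟩ := Finset.mem_image.1 hx
          exact Finset.sub_mem_sub hy ha
        rw [Finset.card_image_of_injective _ (sub_left_injective)] at this
        exact_mod_cast this
    calc (#((hat X a₀ δ).filter (fun m : ℤ => |(m : ℝ) - x| ≤ t / δ)) : ℝ)
        ≤ #(hat X a₀ δ) := by exact_mod_cast Finset.card_filter_le _ _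
      _ ≤ K ^ 4 * N δ := e3
      _ = K ^ 4 * N t * (N δ / N t) := by field_simp
      _ ≤ K ^ 4 * K ^ 3 * (N δ / N t) := by gcongr
      _ = _ := by ring

/-- the set of multipliers, localised to an interval of length one -/
lemma uk_Z (h : UKData q K δ N X A) (hK : 100 ≤ K) {a₀ : ℝ} (ha0 : a₀ ∈ A) :
    ∃ Z : Finset ℝ, Z.Nonempty ∧ (∀ z ∈ Z, ∃ a ∈ A, z = a / a₀) ∧
      (∀ z ∈ Z, ∀ w ∈ Z, |z - w| ≤ 1) ∧
      ∀ x t : ℝ, δ ≤ t → t ≤ 1 →
        ∑ z ∈ Z, (if |z - x| ≤ t then (1 : ℝ) else 0) ≤ K ^ 7 * (#Z / N t) := by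
  classical
  have hP := uk_prof h hK
  have hK0 := hP.K0
  have hδ0 := h.hδ
  have ha01 := h.absA a₀ ha0
  have ha0ne := ne_of_abs h ha0
  have habs : ∀ a ∈ A, |a / a₀| ≤ K ^ 2 := by
    intro a ha
    rw [abs_div, div_le_iff₀ (abs_pos.2 ha0ne)]
    calc |a| ≤ K := (h.absA a ha).2
      _ = K * 1 := (mul_one _).symm
      _ ≤ K * (K * |a₀|) := by
          gcongr
          exact ha01.1
      _ = _ := by ring
  have hT : (#(A.image (fun a => ⌊a / a₀⌋)) : ℝ) ≤ K ^ 3 := by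
    have h1 := near_ints (S := A.image (fun a => ⌊a / a₀⌋)) (C := {0}) (B := K ^ 2 + 1)
      (by positivity) (by
        intro m hm
        obtain ⟨a, ha, rfl⟩ := Finset.mem_image.1 hm
        refine ⟨0, by simp, ?_⟩
        have e1 := abs_le.1 (habs a ha)
        have e2 := Int.floor_le (a / a₀)
        have e3 := Int.lt_floor_add_one (a / a₀)
        rw [sub_zero, abs_le]
        constructor <;> linarith [e1.1, e1.2])
    rw [Finset.card_singleton, Nat.cast_one, mul_one] at h1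
    refine h1.trans ?_
    nlinarith [mul_pos hK0 hK0]
  obtain ⟨k, hk, hmax⟩ := (A.image (fun a => ⌊a / a₀⌋)).exists_max_image
    (fun k => #(A.filter (fun a => ⌊a / a₀⌋ = k))) (h.neA.image _)
  set Ak := A.filter (fun a => ⌊a / a₀⌋ = k) with hAk
  have hcardA : (#A : ℝ) ≤ K ^ 3 * #Ak := by
    have e1 := Finset.card_eq_sum_card_image (fun a => ⌊a / a₀⌋) A
    have e2 : #A ≤ #(A.image (fun a => ⌊a / a₀⌋)) * #Ak := by
      rw [e1]
      calc _ ≤ ∑ k ∈ A.image (fun a => ⌊a / a₀⌋), #Ak := Finset.sum_le_sum fun j hj => hmax j hj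
        _ = _ := by simp
    calc (#A : ℝ) ≤ #(A.image (fun a => ⌊a / a₀⌋)) * #Ak := by exact_mod_cast e2
      _ ≤ _ := by gcongr
  have hinj : Function.Injective (fun a : ℝ => a / a₀) := by
    intro a b hab
    have : a / a₀ = b / a₀ := hab
    field_simp at this
    exact this
  have hZcard : #(Ak.image (fun a => a / a₀)) = #Ak := Finset.card_image_of_injective _ hinj
  refine ⟨Ak.image (fun a => a / a₀), ?_, ?_, ?_, ?_⟩
  · obtain ⟨a, ha, hak⟩ := Finset.mem_image.1 hk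
    exact ⟨a / a₀, Finset.mem_image_of_mem _ (Finset.mem_filter.2 ⟨ha, hak⟩)⟩
  · intro z hz
    obtain ⟨a, ha, rfl⟩ := Finset.mem_image.1 hz
    exact ⟨a, (Finset.mem_filter.1 ha).1, rfl⟩
  · intro z hz w hw
    obtain ⟨a, ha, rfl⟩ := Finset.mem_image.1 hz
    obtain ⟨b, hb, rfl⟩ := Finset.mem_image.1 hw
    exact (Int.abs_sub_lt_one_of_floor_eq_floor
      ((Finset.mem_filter.1 ha).2.trans (Finset.mem_filter.1 hb).2.symm)).le
  · intro x t ht ht1
    have ht0 : 0 < t := by linarith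
    have hpt := h.pos t ht ht1
    have hsum : ∑ z ∈ Ak.image (fun a => a / a₀), (if |z - x| ≤ t then (1 : ℝ) else 0)
        = #((Ak.image (fun a => a / a₀)).filter (fun z => |z - x| ≤ t)) := by
      rw [Finset.card_filter]
      push_cast
      rfl
    rw [hsum, hZcard]
    by_cases hKt : K * t ≤ 1
    · have hδt : δ ≤ K * t := by nlinarith
      have hp2 := h.pos (K * t) hδt hKt
      have h1 : (Ak.image (fun a => a / a₀)).filter (fun z => |z - x| ≤ t) ⊆
          (A.filter (fun a => |a - a₀ * x| ≤ K * t)).image (fun a => a / a₀) := by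
        intro z hz
        rw [Finset.mem_filter] at hz
        obtain ⟨a, ha, rfl⟩ := Finset.mem_image.1 hz.1
        refine Finset.mem_image_of_mem _ (Finset.mem_filter.2 ⟨(Finset.mem_filter.1 ha).1, ?_⟩)
        have e1 : a - a₀ * x = a₀ * (a / a₀ - x) := by field_simp
        rw [e1, abs_mul]
        exact mul_le_mul ha01.2 hz.2 (abs_nonneg _) hK0.le
      have h2 := h.frA (a₀ * x) (K * t) hδt hKt
      have h3 := hP.dil (s := t) (t := K * t) (c := K) ht0 hP.K1 ht hKt rfl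
      calc (#((Ak.image (fun a => a / a₀)).filter (fun z => |z - x| ≤ t)) : ℝ)
          ≤ #(A.filter (fun a => |a - a₀ * x| ≤ K * t)) := by
            exact_mod_cast (Finset.card_le_card h1).trans Finset.card_image_le
        _ ≤ K * (#A / N (K * t)) := h2
        _ ≤ K * ((K ^ 3 * #Ak) / N (K * t)) := by gcongr
        _ ≤ K * ((K ^ 3 * #Ak) * K ^ 3 / N t) := by
            refine mul_le_mul_of_nonneg_left ?_ hK0.le
            rw [div_le_div_iff₀ hp2 hpt]
            have e5 : K ^ 3 * (#Ak : ℝ) * N t ≤ K ^ 3 * #Ak * (K ^ 2 * K * N (K * t)) := by gcongr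
            calc K ^ 3 * (#Ak : ℝ) * N t ≤ K ^ 3 * #Ak * (K ^ 2 * K * N (K * t)) := e5
              _ = _ := by ring
        _ = _ := by ring
    · rw [not_le] at hKt
      have e1 := h.triv t ht ht1
      have e2 : N t ≤ K ^ 7 := by
        refine e1.trans ?_
        rw [div_le_iff₀ ht0]
        have e3 : K ≤ K ^ 6 := by
          calc K = K ^ 1 := (pow_one _).symm
            _ ≤ K ^ 6 := hP.pw (by norm_num)
        calc K = K * 1 := (mul_one _).symm
          _ ≤ K ^ 6 * (K * t) := by gcongr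
          _ = _ := by ring
      calc (#((Ak.image (fun a => a / a₀)).filter (fun z => |z - x| ≤ t)) : ℝ)
          ≤ #(Ak.image (fun a => a / a₀)) := by exact_mod_cast Finset.card_filter_le _ _
        _ = #Ak := by rw [hZcard]
        _ = N t * (#Ak / N t) := by field_simp
        _ ≤ K ^ 7 * (#Ak / N t) := by gcongr

/-- the data in integer units from the data for reals -/
lemma uk_DatZ (h : UKData q K δ N X A) (hK : 100 ≤ K) (hKδ : K * δ ≤ 1) :
    ∃ (S : Finset ℤ) (Z : Finset ℝ), DatZ q (K ^ 8) δ N S Z := by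
  obtain ⟨a₀, ha0⟩ := h.neA
  obtain ⟨Z, hZne, hZA, hZd, hZf⟩ := uk_Z h hK ha0
  have hP := uk_prof h hK
  have hK0 := hP.K0
  have hn := h.pos δ (le_refl _) h.hδ1
  have hK8 : K ≤ K ^ 8 := by
    calc K = K ^ 1 := (pow_one _).symm
      _ ≤ K ^ 8 := hP.pw (by norm_num)
  have ha01 := h.absA a₀ ha0
  have ha0ne := ne_of_abs h ha0
  refine ⟨hat X a₀ δ, Z, ⟨⟨profmono hP hK8, ?_, ?_, ?_⟩, hZne, ?_, hZd, ?_, ?_, h.dim.trans hK8⟩⟩
  · refine (uk_card h hK hKδ ha0).trans ?_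
    have := hP.pw (show 5 ≤ 8 by norm_num)
    gcongr
  · refine (uk_diff h hK ha0).trans ?_
    gcongr
    · exact hP.K1
    · norm_num
  · intro x t ht ht1
    have hpt := h.pos t ht ht1
    refine (uk_fr h hK ha0 x t ht ht1).trans ?_
    gcongr
    · exact hP.K1
    · norm_num
  · intro z hz
    obtain ⟨a, ha, rfl⟩ := hZA z hz
    refine le_trans ?_ (hP.pw (show 2 ≤ 8 by norm_num))
    rw [abs_div, div_le_iff₀ (abs_pos.2 ha0ne)]
    calc |a| ≤ K := (h.absA a ha).2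
      _ = K * 1 := (mul_one _).symm
      _ ≤ K * (K * |a₀|) := by
          gcongr
          exact ha01.1
      _ = _ := by ring
  · intro z hz
    obtain ⟨a, ha, rfl⟩ := hZA z hz
    refine (uk_act h hK ha ha0).trans ?_
    gcongr
    · exact hP.K1
    · norm_num
  · intro x t ht ht1
    have hpt := h.pos t ht ht1
    refine (hZf x t ht ht1).trans ?_
    gcongr
    · exact hP.K1
    · norm_num

end

/-- **PROP UK** -/
theorem stUK : StUK := by
  intro q
  refine ⟨84000 * (q + 1), fun K δ N X A h hn => ?_⟩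
  have hK2 := h.hK
  have hK7 : K ≤ K ^ 7 := by
    calc K = K ^ 1 := (pow_one _).symm
      _ ≤ K ^ 7 := pow_le_pow_right₀ (by linarith) (by norm_num)
  have h' := ukmono h hK7
  have h100 : 100 ≤ K ^ 7 := by
    calc (100 : ℝ) ≤ 2 ^ 7 := by norm_num
      _ ≤ K ^ 7 := by gcongr
  have hn' : ((K ^ 7) ^ 8) ^ (1500 * (q + 1)) ≤ N δ := by
    have e0 : 84000 * (q + 1) = 7 * 8 * (1500 * (q + 1)) := by ring
    rw [e0, pow_mul K (7 * 8), pow_mul K 7] at hn
    exact hn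
  have hδ0 := h.hδ
  have hK70 : 0 < K ^ 7 := by linarith
  have hKδ : K ^ 7 * δ ≤ 1 := by
    have e1 := h'.triv δ (le_refl _) h.hδ1
    rw [le_div_iff₀ hδ0] at e1
    have e2 : (K ^ 7) ^ 2 ≤ N δ := by
      refine le_trans ?_ hn'
      have h1' : 1 ≤ K ^ 7 := by linarith
      calc (K ^ 7) ^ 2 ≤ (K ^ 7) ^ 8 := pow_le_pow_right₀ h1' (by norm_num)
        _ = ((K ^ 7) ^ 8) ^ 1 := (pow_one _).symm
        _ ≤ ((K ^ 7) ^ 8) ^ (1500 * (q + 1)) :=
            pow_le_pow_right₀ (one_le_pow₀ h1') (by omega)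
    have e3 : K ^ 7 * (K ^ 7 * δ) ≤ K ^ 7 * 1 := by
      calc K ^ 7 * (K ^ 7 * δ) = (K ^ 7) ^ 2 * δ := by ring
        _ ≤ N δ * δ := by gcongr
        _ ≤ K ^ 7 := e1
        _ = _ := (mul_one _).symm
    exact le_of_mul_le_mul_left e3 hK70
  obtain ⟨S, Z, hD⟩ := uk_DatZ h' h100 hKδ
  exact hD.kill hn'

end Vale.Agent.P065.UB.H196
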